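import Vale.Agent.P366S.Stm2

/-! The normal form of an `Sp(m+1)`-invariant symmetric tensor. -/

namespace Vale.Agent.P366S

open scoped Matrix ContDiff Topology
open Filter Set Matrix
open Vale.Agent.P366 (Pt Ten IsQuat Hor dot_pos)

namespace InvAux

variable {n : ℕ} {J : Fin 3 → Matrix (Fin n) (Fin n) ℝ}

theorem orth {U : Matrix (Fin n) (Fin n) ℝ} (hU : Uᵀ * U = 1) (u v : Pt n) :
    (U *ᵥ u) ⬝ᵥ (U *ᵥ v) = u ⬝ᵥ v := by
  rw [Matrix.dotProduct_mulVec, ← Matrix.mulVec_transpose, Matrix.mulVec_mulVec, hU,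
    Matrix.one_mulVec]

theorem sym {H : Matrix (Fin n) (Fin n) ℝ} (hH : Hᵀ = H) (u v : Pt n) :
    u ⬝ᵥ (H *ᵥ v) = (H *ᵥ u) ⬝ᵥ v := by
  rw [Matrix.dotProduct_mulVec, ← Matrix.mulVec_transpose, hH]

theorem hor_comb {x a b : Pt n} (ha : Hor J x a) (hb : Hor J x b) (s t : ℝ) :
    Hor J x (s • a + t • b) := by
  rw [hor_iff] at ha hb ⊢
  rw [Matrix.mulVec_add, Matrix.mulVec_smul, Matrix.mulVec_smul, ha, hb, smul_zero, smul_zero,
    add_zero]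

theorem hor_Y {x a : Pt n} (ha : Hor J x a) (p : Fin 4 → ℝ) : a ⬝ᵥ (Ym J x *ᵥ p) = 0 := by
  rw [Matrix.dotProduct_mulVec, ← Matrix.mulVec_transpose, (hor_iff _ _).1 ha, zero_dotProduct]

theorem Ym_U {U : Matrix (Fin n) (Fin n) ℝ} (hU : ∀ a, U * J a = J a * U) (y : Pt n) :
    Ym J (U *ᵥ y) = U * Ym J y := by
  ext i a
  have e1 : Ym J (U *ᵥ y) i a = (J4 J a *ᵥ (U *ᵥ y)) i := rfl
  have e2 : (U * Ym J y) i a = (U *ᵥ (J4 J a *ᵥ y)) i := rfl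
  rw [e1, e2]
  rcases fin4 a with rfl | rfl | rfl | rfl
  · rw [J4_0, J4_0]
  · rw [J4_1, Matrix.mulVec_mulVec, Matrix.mulVec_mulVec, hU]
  · rw [J4_2, Matrix.mulVec_mulVec, Matrix.mulVec_mulVec, hU]
  · rw [J4_3, Matrix.mulVec_mulVec, Matrix.mulVec_mulVec, hU]

theorem blk_U {U : Matrix (Fin n) (Fin n) ℝ} (h1 : Uᵀ * U = 1) (hU : ∀ a, U * J a = J a * U)
    (y : Pt n) (F : M4) (C : ℝ) : U * blk J y F C * Uᵀ = blk J (U *ᵥ y) F C := by
  rw [blk_eq, blk_eq, orth h1, Ym_U hU, Matrix.mul_add, Matrix.add_mul, Matrix.mul_smul,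
    Matrix.mul_one, Matrix.smul_mul, mul_eq_one_comm.1 h1, Matrix.transpose_mul]
  simp only [Matrix.mul_assoc]

variable {h : Ten n}

theorem move (hT : TransStmt) (hJ : IsQuat J) (hI : SpInv J h) {x a b : Pt n} (ha : Hor J x a)
    (hb : Hor J x b) (e : a ⬝ᵥ a = b ⬝ᵥ b) : ∃ U : Matrix (Fin n) (Fin n) ℝ, Uᵀ * U = 1 ∧
      U *ᵥ x = x ∧ (∀ i, U *ᵥ (J i *ᵥ x) = J i *ᵥ x) ∧ U *ᵥ (h x *ᵥ a) = h x *ᵥ b ∧
      U *ᵥ a = b := by
  obtain ⟨U, h1, h2, h3, h4⟩ := hT n J a b hJ e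
  have hx : U *ᵥ x = x := h4 x ⟨by
      rw [dotProduct_comm, dotProduct_sub, ha.1, hb.1, sub_zero], fun i => by
      rw [dotProduct_comm, ← neg_neg (x ⬝ᵥ _), ← hJ.skew, dotProduct_sub, ha.2, hb.2, sub_zero,
        neg_zero]⟩
  refine ⟨U, h1, hx, fun i => ?_, ?_, h3⟩
  · rw [Matrix.mulVec_mulVec, h2, ← Matrix.mulVec_mulVec, hx]
  · have k := hI U h1 h2 x
    rw [hx] at k
    have k2 : h x * U = U * h x := by
      conv_lhs => rw [k]
      rw [Matrix.mul_assoc, h1, Matrix.mul_one]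
    rw [Matrix.mulVec_mulVec, ← k2, ← Matrix.mulVec_mulVec, h3]

theorem hor_eig (hT : TransStmt) (hJ : IsQuat J) (hs : ∀ x, (h x)ᵀ = h x) (hI : SpInv J h)
    {x v : Pt n} (hv : Hor J x v) (v1 : v ⬝ᵥ v = 1) {a : Pt n} (ha : Hor J x a) :
    h x *ᵥ a = (v ⬝ᵥ (h x *ᵥ v)) • a := by
  have s1 : Hor J x (h x *ᵥ a) := by
    have hn : Hor J x (-a) := by simpa using hor_comb ha ha (-1) 0
    obtain ⟨U, h1, h2, h3, h4, -⟩ := move hT hJ hI ha hn (neg_dotProduct_neg _ _).symm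
    rw [Matrix.mulVec_neg] at h4
    refine ⟨?_, fun i => ?_⟩
    · have := orth h1 x (h x *ᵥ a)
      rw [h2, h4, dotProduct_neg] at this
      linarith
    · have := orth h1 (J i *ᵥ x) (h x *ᵥ a)
      rw [h3, h4, dotProduct_neg] at this
      linarith
  have s2 : ∀ b, Hor J x b → b ⬝ᵥ (h x *ᵥ b) = (v ⬝ᵥ (h x *ᵥ v)) * (b ⬝ᵥ b) := by
    intro b hb
    have b0 : 0 ≤ b ⬝ᵥ b := Finset.sum_nonneg fun i _ => mul_self_nonneg _
    have q := Real.mul_self_sqrt b0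
    have hn : Hor J x (√(b ⬝ᵥ b) • v) := by simpa using hor_comb hv hv √(b ⬝ᵥ b) 0
    obtain ⟨U, h1, -, -, h4, h5⟩ := move hT hJ hI hb hn (by
      rw [smul_dotProduct, dotProduct_smul, v1, smul_eq_mul, smul_eq_mul, mul_one, q])
    rw [← orth h1, h4, h5, Matrix.mulVec_smul, smul_dotProduct, dotProduct_smul, smul_eq_mul,
      smul_eq_mul, ← mul_assoc, q, mul_comm]
  generalize v ⬝ᵥ (h x *ᵥ v) = c at s2
  have s3 : ∀ b, Hor J x b → b ⬝ᵥ (h x *ᵥ a) = c * (b ⬝ᵥ a) := by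
    intro b hb
    have k1 := s2 _ (hor_comb ha hb 1 1)
    have k2 := s2 a ha
    have k3 := s2 b hb
    have k4 := sym (hs x) a b
    rw [dotProduct_comm _ b] at k4
    simp only [one_smul, Matrix.mulVec_add, add_dotProduct, dotProduct_add, dotProduct_comm a b]
      at k1
    linarith
  have s4 := s3 _ (hor_comb s1 ha 1 (-c))
  have s5 : ((1 : ℝ) • (h x *ᵥ a) + (-c) • a) ⬝ᵥ ((1 : ℝ) • (h x *ᵥ a) + (-c) • a) = 0 := by
    rw [dotProduct_add, dotProduct_smul, dotProduct_smul, s4, smul_eq_mul, smul_eq_mul]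
    ring
  have s6 := dotProduct_self_eq_zero.1 s5
  rw [one_smul, neg_smul] at s6
  exact add_neg_eq_zero.1 s6

theorem eq_blk (hJ : IsQuat J) {H : Matrix (Fin n) (Fin n) ℝ} (hH : Hᵀ = H) {x : Pt n}
    (hx : x ≠ 0) {c : ℝ} (hc : ∀ a, Hor J x a → H *ᵥ a = c • a) :
    H = blk J x ((x ⬝ᵥ x)⁻¹ • ((Ym J x)ᵀ * H * Ym J x)) c := by
  have k : ∀ p, H *ᵥ (Ym J x *ᵥ p) =
      Ym J x *ᵥ (((x ⬝ᵥ x)⁻¹ • ((Ym J x)ᵀ * H * Ym J x)) *ᵥ p) := by
    intro p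
    have d := decomp J x (H *ᵥ (Ym J x *ᵥ p))
    have hz := blk_hor_mem hJ hx (H *ᵥ (Ym J x *ᵥ p))
    generalize blk J x 0 1 *ᵥ (H *ᵥ (Ym J x *ᵥ p)) = z at d hz
    have z1 := congrArg (fun w => z ⬝ᵥ w) d
    simp only [dotProduct_add] at z1
    rw [hor_Y hz, sym hH, hc z hz, smul_dotProduct, hor_Y hz, smul_zero, add_zero] at z1
    rw [dotProduct_self_eq_zero.1 z1.symm, zero_add] at d
    rw [Matrix.smul_mulVec, ← Matrix.mulVec_mulVec, ← Matrix.mulVec_mulVec]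
    exact d
  refine Matrix.ext_of_mulVec_single fun i => ?_
  generalize (Pi.single i 1 : Pt n) = u
  have hz := blk_hor_mem hJ hx u
  rw [decomp J x u, Matrix.mulVec_add, Matrix.mulVec_add, hc _ hz, blk_hor hz, k, blk_Yv hJ hx]

end InvAux

open InvAux in
theorem inv_pf (hT : TransStmt) : InvStmt := by
  intro n J h hn hJ hs hI hc
  obtain ⟨e, e1⟩ : ∃ e : Pt n, e ⬝ᵥ e = 1 := ⟨Pi.single ⟨0, by omega⟩ 1, by simp⟩
  have e0 : e ≠ 0 := fun k => by simp [k] at e1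
  obtain ⟨v, hv, v1⟩ : ∃ v : Pt n, Hor J e v ∧ v ⬝ᵥ v = 1 := by
    obtain ⟨u, hu⟩ : ∃ u : Pt n, blk J e 0 1 *ᵥ u ≠ 0 := by
      by_contra k
      have z : blk J e 0 1 = 0 := Matrix.ext_of_mulVec_single fun i => by
        rw [Matrix.zero_mulVec]
        exact by_contra fun k' => k ⟨_, k'⟩
      have h1 := blk_trace hJ e0 0 1
      have h2 : (4 : ℝ) < n := by exact_mod_cast hn
      rw [z, Matrix.trace_zero, Matrix.trace_zero] at h1
      linarith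
    have hz := blk_hor_mem hJ e0 u
    have p := dot_pos hu
    generalize blk J e 0 1 *ᵥ u = z at hz p
    refine ⟨(√(z ⬝ᵥ z))⁻¹ • z, by simpa using hor_comb hz hz (√(z ⬝ᵥ z))⁻¹ 0, ?_⟩
    rw [smul_dotProduct, dotProduct_smul, smul_eq_mul, smul_eq_mul, ← mul_assoc, ← mul_inv,
      Real.mul_self_sqrt p.le, inv_mul_cancel₀ p.ne']
  have xx : ∀ t : ℝ, 0 ≤ t → (√t • e) ⬝ᵥ (√t • e) = t := fun t ht => by
    rw [smul_dotProduct, dotProduct_smul, e1, smul_eq_mul, smul_eq_mul, mul_one,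
      Real.mul_self_sqrt ht]
  have x0 : ∀ t : ℝ, 0 < t → √t • e ≠ 0 := fun t ht =>
    smul_ne_zero (Real.sqrt_pos.2 ht).ne' e0
  have hv' : ∀ t : ℝ, Hor J (√t • e) v := fun t => by
    rw [hor_iff] at hv ⊢
    rw [Ym_smul, Matrix.transpose_smul, Matrix.smul_mulVec, hv, smul_zero]
  have sm : ∀ t : ℝ, 0 < t → ∀ i j, ContDiffAt ℝ ∞ (fun s : ℝ => h (√s • e) i j) t :=
    fun t ht i j => ContDiffAt.comp (g := fun y => h y i j) (f := fun s : ℝ => √s • e) t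
      (hc _ (x0 t ht) i j) ((Real.contDiffAt_sqrt ht.ne').smul contDiffAt_const)
  have key : ∀ t : ℝ, 0 ≤ t → h (√t • e) =
      blk J (√t • e) ((Ym J e)ᵀ * h (√t • e) * Ym J e) (v ⬝ᵥ (h (√t • e) *ᵥ v)) := by
    intro t ht
    have k := fun a (ha : Hor J (√t • e) a) => hor_eig hT hJ hs hI (hv' t) v1 ha
    rcases ht.eq_or_lt with rfl | ht'
    · refine Matrix.ext_of_mulVec_single fun i => ?_
      have z : Hor J (√0 • e) (Pi.single i 1) := by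
        rw [Real.sqrt_zero, zero_smul]
        exact ⟨zero_dotProduct _, fun a => by rw [Matrix.mulVec_zero, zero_dotProduct]⟩
      rw [k _ z, blk_hor z]
    · have q := eq_blk hJ (hs _) (x0 t ht') k
      rw [xx t ht, Ym_smul, Matrix.transpose_smul, Matrix.smul_mul, Matrix.smul_mul,
        Matrix.mul_smul, smul_smul, smul_smul, mul_assoc, Real.mul_self_sqrt ht,
        inv_mul_cancel₀ ht'.ne', one_smul] at q
      exact q
  refine ⟨fun t => (Ym J e)ᵀ * h (√t • e) * Ym J e, fun t => v ⬝ᵥ (h (√t • e) *ᵥ v),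
    funext fun x => ?_, fun t => ?_, fun t ht a b => ?_, fun t ht => ?_⟩
  · have t0 : 0 ≤ x ⬝ᵥ x := Finset.sum_nonneg fun i _ => mul_self_nonneg _
    obtain ⟨U, h1, h2, h3, -⟩ := hT n J (√(x ⬝ᵥ x) • e) x hJ (xx _ t0)
    have k := hI U h1 h2 (√(x ⬝ᵥ x) • e)
    rw [key _ t0, blk_U h1 h2, h3] at k
    exact k
  · rw [Matrix.transpose_mul, Matrix.transpose_mul, Matrix.transpose_transpose, hs,
      ← Matrix.mul_assoc]
  · simp only [Matrix.mul_apply]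
    exact ContDiffAt.sum fun j _ =>
      (ContDiffAt.sum fun i _ => contDiffAt_const.mul (sm t ht i j)).mul contDiffAt_const
  · simp only [dotProduct, Matrix.mulVec]
    exact ContDiffAt.sum fun i _ =>
      contDiffAt_const.mul (ContDiffAt.sum fun j _ => (sm t ht i j).mul contDiffAt_const)

end Vale.Agent.P366S
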