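import Vale.Agent.P366S.Stm

/-! The momentum density in lapse-shift form. -/

namespace Vale.Agent.P366S

open scoped Matrix
open Matrix

namespace AlgJA

/-- quaternion `∑ X a c • e a * e c` -/
def om (X : M4) : Fin 4 → ℝ :=
  ![X 0 0 - X 1 1 - X 2 2 - X 3 3, X 0 1 + X 1 0 + X 2 3 - X 3 2, X 0 2 + X 2 0 + X 3 1 - X 1 3,
    X 0 3 + X 3 0 + X 1 2 - X 2 1]

/-- trace against right multiplication by the imaginary part of `p` -/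
def rt (p : Fin 4 → ℝ) (X : M4) : ℝ :=
  p 1 * (X 0 1 - X 1 0 + X 3 2 - X 2 3) + p 2 * (X 0 2 - X 2 0 + X 1 3 - X 3 1)
    + p 3 * (X 0 3 - X 3 0 + X 2 1 - X 1 2)

theorem sym {G : M4} (h : Gᵀ = G) : G 1 0 = G 0 1 ∧ G 2 0 = G 0 2 ∧ G 3 0 = G 0 3 ∧
    G 2 1 = G 1 2 ∧ G 3 1 = G 1 3 ∧ G 3 2 = G 2 3 :=
  ⟨congrFun (congrFun h 0) 1, congrFun (congrFun h 0) 2, congrFun (congrFun h 0) 3,
    congrFun (congrFun h 1) 2, congrFun (congrFun h 1) 3, congrFun (congrFun h 2) 3⟩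

theorem ph_T {F : M4} (h : Fᵀ = F) (t C : ℝ) : (ph t F C)ᵀ = ph t F C := by
  simp [ph, h]

theorem br (t : ℝ) {F G : M4} (F' : M4) (C : ℝ) (hF : Fᵀ = F) (hG : Gᵀ = G) :
    ∑ c, ∑ d, G c d • (Th t F F' C (Pi.single c 1) *ᵥ Pi.single d 1) =
      (2 : ℝ) • ((F' - ph t F C) *ᵥ (G *ᵥ e0)) - (G * (F' - ph t F C)).trace • e0
        + G.trace • (ph t F C *ᵥ e0) + (2 : ℝ) • om (ph t F C * G)
        - (2 : ℝ) • ((G * ph t F C) *ᵥ e0) := by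
  obtain ⟨g1, g2, g3, g4, g5, g6⟩ := sym hG
  obtain ⟨p1, p2, p3, p4, p5, p6⟩ := sym (ph_T hF t C)
  unfold Th
  generalize ph t F C = P at *
  generalize F' - P = D
  ext i
  simp only [Pi.add_apply, Pi.sub_apply, Pi.smul_apply, Finset.sum_apply, smul_eq_mul]
  fin_cases i <;>
    simp [Fin.sum_univ_four, Matrix.mul_apply, mulVec, dotProduct, vecMulVec_apply, e0, Lq, Rq, om,
      Matrix.trace, Pi.single_apply, g1, g2, g3, g4, g5, g6, p1, p2, p3, p4, p5, p6] <;> ring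

theorem trT (t : ℝ) {F S : M4} (F' : M4) (C : ℝ) (p : Fin 4 → ℝ) (hF : Fᵀ = F) (hS : Sᵀ = S) :
    (S * Th t F F' C p).trace = p 0 * (S * F').trace + rt p (ph t F C * S) := by
  obtain ⟨g1, g2, g3, g4, g5, g6⟩ := sym hS
  obtain ⟨p1, p2, p3, p4, p5, p6⟩ := sym (ph_T hF t C)
  unfold Th
  generalize ph t F C = P at *
  simp [Fin.sum_univ_four, Matrix.mul_apply, mulVec, dotProduct, vecMulVec_apply, e0, Lq, Rq, rt,
    Matrix.trace, Pi.single_apply, Matrix.one_apply, g1, g2, g3, g4, g5, g6, p1, p2, p3, p4, p5,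
    p6]
  ring

theorem ddq (G P : M4) (s : Fin 4 → ℝ) (hG : Gᵀ = G) :
    ∑ c, ∑ d, G c d * (s ⬝ᵥ (Lq (P *ᵥ Pi.single d 1) *ᵥ Pi.single c 1)) = s ⬝ᵥ om (P * G) := by
  obtain ⟨g1, g2, g3, g4, g5, g6⟩ := sym hG
  simp [Fin.sum_univ_four, Matrix.mul_apply, mulVec, dotProduct, Lq, om, Pi.single_apply, g1, g2,
    g3, g4, g5, g6]
  ring

theorem om_lin (a b : ℝ) (X Y : M4) : om (a • (X - b • Y)) = a • (om X - b • om Y) := by
  ext i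
  simp only [Pi.sub_apply, Pi.smul_apply, smul_eq_mul]
  fin_cases i <;> simp [om] <;> ring

theorem om_one : om 1 = (-2 : ℝ) • e0 := by
  ext i
  simp only [Pi.smul_apply, smul_eq_mul]
  fin_cases i <;> simp [om, e0]
  norm_num

theorem om_sym {G : M4} (hG : Gᵀ = G) : om G = (2 : ℝ) • (G *ᵥ e0) - G.trace • e0 := by
  obtain ⟨g1, g2, g3, g4, g5, g6⟩ := sym hG
  ext i
  simp only [Pi.sub_apply, Pi.smul_apply, smul_eq_mul]
  fin_cases i <;> simp [om, e0, Matrix.trace, Fin.sum_univ_four, g1, g2, g3, g4, g5, g6] <;> ring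

theorem vh (q : ℝ) {t : ℝ} {F G : M4} (F' : M4) {C : ℝ} (C' : ℝ) (ht : t ≠ 0) (hC : C ≠ 0)
    (hF : Fᵀ = F) (hG : Gᵀ = G) (h : G * F = 1) :
    Vh q t F G F' C C' = (2 : ℝ) • (G *ᵥ (F' *ᵥ (G *ᵥ e0)))
      - (ww q G F' C C' + (q + 4) / t) • (G *ᵥ e0) + ((G.trace + q / C) / t) • e0 := by
  have h' : F * G = 1 := mul_eq_one_comm.1 h
  have e1 : ph t F C * G = t⁻¹ • (1 - C • G) := by
    rw [ph, Matrix.smul_mul, Matrix.sub_mul, Matrix.smul_mul, Matrix.one_mul, h']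
  have e2 : G * ph t F C = t⁻¹ • (1 - C • G) := by
    rw [ph, Matrix.mul_smul, Matrix.mul_sub, Matrix.mul_smul, Matrix.mul_one, h]
  have e3 : ph t F C *ᵥ (G *ᵥ e0) = t⁻¹ • (e0 - C • (G *ᵥ e0)) := by
    rw [mulVec_mulVec, e1, smul_mulVec, sub_mulVec, one_mulVec, smul_mulVec]
  have e4 : G *ᵥ (ph t F C *ᵥ e0) = t⁻¹ • (e0 - C • (G *ᵥ e0)) := by
    rw [mulVec_mulVec, e2, smul_mulVec, sub_mulVec, one_mulVec, smul_mulVec]
  rw [Vh, br t F' C hF hG, pv, e1, om_lin, om_one, om_sym hG, Matrix.mul_sub, e2, sub_mulVec, e3,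
    smul_mulVec, sub_mulVec, one_mulVec, smul_mulVec, trace_sub, trace_smul, trace_sub, trace_smul,
    trace_one, ww]
  simp only [mulVec_add, mulVec_sub, mulVec_smul, e4, smul_eq_mul, Fintype.card_fin]
  match_scalars <;> field_simp <;> ring

/-- closed form of the linear part -/
theorem jj0 (q : ℝ) {t : ℝ} {F G M F' : M4} (M' : M4) {C : ℝ} (C' m : ℝ) (ht : t ≠ 0)
    (hC : C ≠ 0) (hF : Fᵀ = F) (hF' : F'ᵀ = F') (hG : Gᵀ = G) (hM : Mᵀ = M) (h : G * F = 1) :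
    DD q t G C⁻¹ M M' m (G *ᵥ e0) - t * (Vh q t F G F' C C' ⬝ᵥ (M *ᵥ (G *ᵥ e0)))
      - t * (G * M * G * Th t F F' C (G *ᵥ e0)).trace - q * t * m * G 0 0 * C' / C ^ 2 =
    2 * t * (G * M' * G) 0 0 - 2 * t * (G * F' * G * M * G) 0 0
      + (t * ww q G F' C C' + q + 2) * (G * M * G) 0 0 - t * G 0 0 * (G * M * G * F').trace
      + ((G *ᵥ e0) ⬝ᵥ om (M * G) - rt (G *ᵥ e0) (M * G))
      - q * m * G 0 0 * (1 + t * C' / C) / C := by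
  have h' : F * G = 1 := mul_eq_one_comm.1 h
  have hS : (G * M * G)ᵀ = G * M * G := by
    rw [transpose_mul, transpose_mul, hG, hM, Matrix.mul_assoc]
  have e0a : ∀ X : M4, (X *ᵥ e0) 0 = X 0 0 := fun X => by simp [e0]
  have e0b : ∀ v : Fin 4 → ℝ, e0 ⬝ᵥ v = v 0 := fun v => by simp [e0]
  have e0c : ∀ u v : Fin 4 → ℝ, (G *ᵥ u) ⬝ᵥ v = u ⬝ᵥ (G *ᵥ v) := fun u v => by
    rw [dotProduct_comm, dotProduct_mulVec, ← mulVec_transpose, hG, dotProduct_comm]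
  have e1 : ph t F C * (G * M * G) = t⁻¹ • (M * G - C • (G * M * G)) := by
    rw [ph, Matrix.smul_mul, Matrix.sub_mul, Matrix.smul_mul, Matrix.one_mul, ← Matrix.mul_assoc,
      ← Matrix.mul_assoc, h', Matrix.one_mul]
  have e2 : rt (G *ᵥ e0) (t⁻¹ • (M * G - C • (G * M * G))) = t⁻¹ * rt (G *ᵥ e0) (M * G) := by
    obtain ⟨g1, g2, g3, g4, g5, g6⟩ := sym hS
    simp only [rt, Matrix.smul_apply, Matrix.sub_apply, smul_eq_mul, g1, g2, g3, g4, g5, g6]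
    ring
  have e3 : ph t M m * G = t⁻¹ • (M * G - m • G) := by
    rw [ph, Matrix.smul_mul, Matrix.sub_mul, Matrix.smul_mul, Matrix.one_mul]
  have e4 : ph t M m *ᵥ (G *ᵥ e0) = t⁻¹ • (M *ᵥ (G *ᵥ e0) - m • (G *ᵥ e0)) := by
    rw [mulVec_mulVec, e3, smul_mulVec, sub_mulVec, smul_mulVec, mulVec_mulVec]
  have e5 : (G *ᵥ (F' *ᵥ (G *ᵥ e0))) ⬝ᵥ (M *ᵥ (G *ᵥ e0)) = (G * F' * G * M * G) 0 0 := by
    rw [e0c, dotProduct_comm, dotProduct_mulVec, ← mulVec_transpose, dotProduct_comm, e0c, e0b,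
      ← e0a (G * F' * G * M * G), hF']
    simp only [mulVec_mulVec, Matrix.mul_assoc]
  have e6 : ∀ X : M4, (G *ᵥ (X *ᵥ (G *ᵥ e0))) 0 = (G * X * G) 0 0 := fun X => by
    rw [← e0a (G * X * G)]
    simp only [mulVec_mulVec, Matrix.mul_assoc]
  have e7 : (G *ᵥ e0) ⬝ᵥ (M *ᵥ (G *ᵥ e0)) = (G * M * G) 0 0 := by rw [e0c, e0b, e6]
  have e8 : (G *ᵥ e0) ⬝ᵥ (G *ᵥ e0) = (G *ᵥ (G *ᵥ e0)) 0 := by rw [e0c, e0b]
  rw [trT t F' C _ hF hS, e1, e2, vh q F' C' ht hC hF hG h, DD, ddq _ _ _ hG, e3, om_lin,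
    om_sym hG, sub_mulVec, e4]
  simp only [add_dotProduct, sub_dotProduct, smul_dotProduct, dotProduct_sub, dotProduct_smul,
    mulVec_sub, mulVec_smul, Pi.sub_apply, Pi.smul_apply, smul_eq_mul, e5, e6, e7, e8, e0a, e0b,
    dotProduct_comm (G *ᵥ e0) e0]
  field_simp
  ring

theorem gf (N : ℝ) (b g : Fin 3 → ℝ) (hN : N ≠ 0) (hg : ∀ a, g a ≠ 0) :
    GD N b g * FD N b g = 1 := by
  have := hg 0
  have := hg 1
  have := hg 2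
  ext i j
  fin_cases i <;> fin_cases j <;> simp [GD, FD, Matrix.mul_apply, Fin.sum_univ_four] <;>
    field_simp <;> ring

theorem gT (N : ℝ) (b g : Fin 3 → ℝ) : (GD N b g)ᵀ = GD N b g := by
  ext i j
  fin_cases i <;> fin_cases j <;> simp [GD, mul_comm]

theorem fT (N : ℝ) (b g : Fin 3 → ℝ) : (FD N b g)ᵀ = FD N b g := by
  ext i j
  fin_cases i <;> fin_cases j <;> simp [FD]

/-- the inverse metric with polynomial entries -/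
def GP (n : ℝ) (b h : Fin 3 → ℝ) : M4 :=
  !![n, -b 0 * n, -b 1 * n, -b 2 * n;
    -b 0 * n, h 0 + b 0 * b 0 * n, b 0 * b 1 * n, b 0 * b 2 * n;
    -b 1 * n, b 1 * b 0 * n, h 1 + b 1 * b 1 * n, b 1 * b 2 * n;
    -b 2 * n, b 2 * b 0 * n, b 2 * b 1 * n, h 2 + b 2 * b 2 * n]

theorem gp (N : ℝ) (b g : Fin 3 → ℝ) : GD N b g = GP N⁻¹ b fun a => (g a)⁻¹ := by
  simp only [GD, GP, div_eq_mul_inv, one_mul]

/-- quadratic form at `(1, -b)` -/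
def zz (b : Fin 3 → ℝ) (X : M4) : ℝ :=
  X 0 0 - 2 * (b 0 * X 0 1 + b 1 * X 0 2 + b 2 * X 0 3) + b 0 ^ 2 * X 1 1 + b 1 ^ 2 * X 2 2
    + b 2 ^ 2 * X 3 3 + 2 * (b 0 * b 1 * X 1 2 + b 0 * b 2 * X 1 3 + b 1 * b 2 * X 2 3)

theorem c1 (n : ℝ) (b h : Fin 3 → ℝ) {X : M4} (hX : Xᵀ = X) :
    (GP n b h * X * GP n b h) 0 0 = n ^ 2 * zz b X := by
  obtain ⟨g1, g2, g3, g4, g5, g6⟩ := sym hX
  simp only [Matrix.mul_apply, Fin.sum_univ_four, g1, g2, g3, g4, g5, g6]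
  simp [GP, zz]
  ring

theorem c2 (n : ℝ) (b h : Fin 3 → ℝ) {K : M4} (hK : Kᵀ = K) :
    (GP n b h *ᵥ e0) ⬝ᵥ om (K * GP n b h) - rt (GP n b h *ᵥ e0) (K * GP n b h) =
      n ^ 2 * zz b K - n * (h 0 * K 1 1 + h 1 * K 2 2 + h 2 * K 3 3 + 2 * b 2 * (h 1 - h 0) * K 1 2
        - 2 * b 1 * (h 2 - h 0) * K 1 3 + 2 * b 0 * (h 2 - h 1) * K 2 3) := by
  obtain ⟨g1, g2, g3, g4, g5, g6⟩ := sym hK
  simp [GP, zz, om, rt, e0, Matrix.mul_apply, dotProduct, Fin.sum_univ_four, g1, g2, g3, g4, g5, g6]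
  ring

theorem c3 (n : ℝ) (b h : Fin 3 → ℝ) {K F' : M4} (hK : Kᵀ = K) (hF : F'ᵀ = F') :
    n * (GP n b h * K * GP n b h * F').trace =
      2 * (GP n b h * F' * GP n b h * K * GP n b h) 0 0 - n ^ 3 * zz b K * zz b F'
        + n * (h 0 ^ 2 * F' 1 1 * K 1 1 + h 1 ^ 2 * F' 2 2 * K 2 2 + h 2 ^ 2 * F' 3 3 * K 3 3
          + 2 * h 0 * h 1 * F' 1 2 * K 1 2 + 2 * h 0 * h 2 * F' 1 3 * K 1 3
          + 2 * h 1 * h 2 * F' 2 3 * K 2 3) := by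
  obtain ⟨g1, g2, g3, g4, g5, g6⟩ := sym hK
  obtain ⟨p1, p2, p3, p4, p5, p6⟩ := sym hF
  simp only [Matrix.trace, Matrix.diag_apply, Matrix.mul_apply, Fin.sum_univ_four, g1, g2, g3, g4,
    g5, g6, p1, p2, p3, p4, p5, p6]
  simp [GP, zz]
  ring

theorem c4 (t : ℝ) (b g : Fin 3 → ℝ) (F' : M4) {K : M4} (hK : Kᵀ = K) (hg : ∀ a, g a ≠ 0) :
    ∑ i, ∑ j, AA t b g F' i j * K i.succ j.succ / (g i * g j) =
      ((g 0)⁻¹ * K 1 1 + (g 1)⁻¹ * K 2 2 + (g 2)⁻¹ * K 3 3 + 2 * b 2 * ((g 1)⁻¹ - (g 0)⁻¹) * K 1 2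
        - 2 * b 1 * ((g 2)⁻¹ - (g 0)⁻¹) * K 1 3 + 2 * b 0 * ((g 2)⁻¹ - (g 1)⁻¹) * K 2 3)
      + t * ((g 0)⁻¹ ^ 2 * F' 1 1 * K 1 1 + (g 1)⁻¹ ^ 2 * F' 2 2 * K 2 2
          + (g 2)⁻¹ ^ 2 * F' 3 3 * K 3 3 + 2 * (g 0)⁻¹ * (g 1)⁻¹ * F' 1 2 * K 1 2
          + 2 * (g 0)⁻¹ * (g 2)⁻¹ * F' 1 3 * K 1 3 + 2 * (g 1)⁻¹ * (g 2)⁻¹ * F' 2 3 * K 2 3) := by
  obtain ⟨-, -, -, g4, g5, g6⟩ := sym hK
  have := hg 0
  have := hg 1
  have := hg 2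
  have s2 : (2 : Fin 3).succ = 3 := rfl
  simp [AA, Fin.sum_univ_three, s2, g4, g5, g6]
  field_simp
  ring

theorem jj1 (q : ℝ) {t : ℝ} {F G K F' : M4} (K' : M4) {C : ℝ} (C' c : ℝ) (ht : t ≠ 0)
    (hC : C ≠ 0) (hF : Fᵀ = F) (hF' : F'ᵀ = F') (hG : Gᵀ = G) (hK : Kᵀ = K) (h : G * F = 1)
    (h0 : G 0 0 ≠ 0) :
    JJ q t F G F' K K' C C' c = 2 * t * (G * F' * G * K * G) 0 0
      + (t * ww q G F' C C' + q + 2) * (G * K * G) 0 0 - t * G 0 0 * (G * K * G * F').trace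
      + ((G *ᵥ e0) ⬝ᵥ om (K * G) - rt (G *ᵥ e0) (K * G))
      - q * c * G 0 0 * (1 + t * C' / C) / C
      - 2 * t * (G * K * G) 0 0 * ((G * F' * G) 0 0 / G 0 0) := by
  have h' : F * G = 1 := mul_eq_one_comm.1 h
  rw [JJ, jj0 q _ C' _ ht hC hF hF' hG (by rw [transpose_sub, transpose_smul, hK, hF]) h]
  generalize TT q G K C c = T
  have e1 : (K - T • F) * G = (1 : ℝ) • (K * G - T • 1) := by
    rw [Matrix.sub_mul, Matrix.smul_mul, h', one_smul]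
  have e2 : ∀ X : M4, X * (K - T • F) * G = X * K * G - T • X := fun X => by
    rw [Matrix.mul_assoc, e1, one_smul, Matrix.mul_sub, Matrix.mul_smul, Matrix.mul_one,
      Matrix.mul_assoc]
  have e3 : G * (K' - k01 G F' K K' • F - T • F') * G =
      G * K' * G - k01 G F' K K' • G - T • (G * F' * G) := by
    simp only [Matrix.mul_sub, Matrix.sub_mul, Matrix.mul_smul, Matrix.smul_mul, h, Matrix.one_mul]
  have e4 : rt (G *ᵥ e0) ((1 : ℝ) • (K * G - T • 1)) = rt (G *ᵥ e0) (K * G) := by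
    simp [rt]
  have e5 : (G *ᵥ e0) ⬝ᵥ e0 = G 0 0 := by simp [e0]
  rw [e2, e2, e3, e1, e4, om_lin, om_one, Matrix.sub_mul, Matrix.smul_mul, trace_sub, trace_smul]
  simp only [Matrix.sub_apply, Matrix.smul_apply, smul_eq_mul, dotProduct_sub, dotProduct_smul, e5,
    k01, ww]
  field_simp
  ring

end AlgJA

open AlgJA in
theorem algJ_pf (_hV : V0Stmt) : AlgJStmt := by
  intro q t N b g F' K K' C C' c ht hN hg hC hF' hK _
  have h0 : GD N b g 0 0 = N⁻¹ := by simp [GD]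
  rw [jj1 q K' C' c ht hC (fT N b g) hF' (gT N b g) hK (gf N b g hN hg)
    (by rw [h0]; exact inv_ne_zero hN), hA, c4 t b g F' hK hg, h0]
  generalize ww q (GD N b g) F' C C' = w
  rw [gp, mul_assoc t, c3 _ _ _ hK hF', c2 _ _ _ hK, c1 _ _ _ hK, c1 _ _ _ hF']
  generalize (g 0)⁻¹ = h0
  generalize (g 1)⁻¹ = h1
  generalize (g 2)⁻¹ = h2
  field_simp
  ring

end Vale.Agent.P366S
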