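import Vale.Agent.P366S.Stm

/-! Traces in the lapse-shift form. -/

namespace Vale.Agent.P366S

open scoped Matrix ContDiff Topology
open Filter Set Matrix

namespace AlgKAux

theorem sym {K : M4} (h : Kᵀ = K) : ∃ a b c d e f g i j k : ℝ,
    K = !![a, b, c, d; b, e, f, g; c, f, i, j; d, g, j, k] := by
  have s : ∀ i j, K i j = K j i := fun i j => by
    conv_lhs => rw [← h]
    rfl
  refine ⟨K 0 0, K 0 1, K 0 2, K 0 3, K 1 1, K 1 2, K 1 3, K 2 2, K 2 3, K 3 3, ?_⟩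
  ext i j
  fin_cases i <;> fin_cases j <;> first | rfl | exact s _ _

theorem tr1 {N : ℝ} {b g : Fin 3 → ℝ} {K : M4} (hN : N ≠ 0) (hg : ∀ a, g a ≠ 0) (hK : Kᵀ = K) :
    (GD N b g * K).trace - (GD N b g * K * GD N b g) 0 0 * N = ∑ a, K a.succ a.succ / g a := by
  obtain ⟨k1, k2, k3, k4, k5, k6, k7, k8, k9, k10, rfl⟩ := sym hK
  have g0 := hg 0
  have g1 := hg 1
  have g2 := hg 2
  simp [GD, Matrix.trace, Matrix.mul_apply, Fin.sum_univ_four, Fin.sum_univ_three]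
  field_simp
  ring

theorem tr2 {N : ℝ} {b g : Fin 3 → ℝ} {K : M4} (hN : N ≠ 0) (hg : ∀ a, g a ≠ 0) (hK : Kᵀ = K) :
    (GD N b g * K * (GD N b g * K)).trace = ((GD N b g * K * GD N b g) 0 0 * N) ^ 2
      + 2 * N * ∑ a, (K *ᵥ (GD N b g *ᵥ e0)) a.succ ^ 2 / g a
      + ∑ i, ∑ j, K i.succ j.succ ^ 2 / (g i * g j) := by
  obtain ⟨k1, k2, k3, k4, k5, k6, k7, k8, k9, k10, rfl⟩ := sym hK
  have g0 := hg 0
  have g1 := hg 1
  have g2 := hg 2
  have h1 : GD N b g *ᵥ e0 = ![1 / N, -b 0 / N, -b 1 / N, -b 2 / N] := by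
    rw [e0, Matrix.mulVec_single_one]
    ext i
    fin_cases i <;> rfl
  rw [h1]
  simp [GD, Matrix.trace, Matrix.mul_apply, Matrix.mulVec, dotProduct, Fin.sum_univ_four,
    Fin.sum_univ_three]
  field_simp
  ring

end AlgKAux

theorem algK_pf : AlgKStmt := by
  intro q t N b g F' K C C' hN hg hF hK
  have g0 := hg 0
  have g1 := hg 1
  have g2 := hg 2
  have h1 := AlgKAux.tr1 (b := b) hN hg hF
  refine ⟨?_, ?_, h1, AlgKAux.tr1 hN hg hK, AlgKAux.tr2 hN hg hK⟩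
  · ext i j
    fin_cases i <;> fin_cases j <;>
      simp [GD, FD, Matrix.mul_apply, Fin.sum_univ_four] <;> field_simp <;> ring
  · have h2 : GD N b g 0 0 = 1 / N := rfl
    rw [hA, ww, h2, eq_add_of_sub_eq h1]
    simp [AA, Fin.sum_univ_three]
    field_simp
    ring

end Vale.Agent.P366S
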