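import Vale.Agent.P366S.Stm

/-! The algebraic identity for the scalar curvature (`AlgRStmt`). -/

namespace Vale.Agent.P366S

open scoped Matrix ContDiff Topology
open Filter Set Matrix

namespace AlgR

/-- A symmetric matrix written in the adapted frame. -/
def Fx (b : Fin 3 → ℝ) (x00 x01 x02 x03 x11 x12 x13 x22 x23 x33 : ℝ) : M4 :=
  !![b 0 ^ 2 * x11 + 2 * b 0 * b 1 * x12 + 2 * b 0 * b 2 * x13 + 2 * b 0 * x01 + b 1 ^ 2 * x22 + 2 * b 1 * b 2 * x23 + 2 * b 1 * x02 + b 2 ^ 2 * x33 + 2 * b 2 * x03 + x00, b 0 * x11 + b 1 * x12 + b 2 * x13 + x01, b 0 * x12 + b 1 * x22 + b 2 * x23 + x02, b 0 * x13 + b 1 * x23 + b 2 * x33 + x03;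
      b 0 * x11 + b 1 * x12 + b 2 * x13 + x01, x11, x12, x13;
      b 0 * x12 + b 1 * x22 + b 2 * x23 + x02, x12, x22, x23;
      b 0 * x13 + b 1 * x23 + b 2 * x33 + x03, x13, x23, x33]

/-- The matrix of a bilinear form in the adapted frame. -/
def cj (b : Fin 3 → ℝ) (A : M4) : M4 :=
  !![A 0 0 - b 0 * A 0 1 - b 1 * A 0 2 - b 2 * A 0 3
        - b 0 * (A 1 0 - b 0 * A 1 1 - b 1 * A 1 2 - b 2 * A 1 3)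
        - b 1 * (A 2 0 - b 0 * A 2 1 - b 1 * A 2 2 - b 2 * A 2 3)
        - b 2 * (A 3 0 - b 0 * A 3 1 - b 1 * A 3 2 - b 2 * A 3 3),
      A 0 1 - b 0 * A 1 1 - b 1 * A 2 1 - b 2 * A 3 1,
      A 0 2 - b 0 * A 1 2 - b 1 * A 2 2 - b 2 * A 3 2,
      A 0 3 - b 0 * A 1 3 - b 1 * A 2 3 - b 2 * A 3 3;
    A 1 0 - b 0 * A 1 1 - b 1 * A 1 2 - b 2 * A 1 3, A 1 1, A 1 2, A 1 3;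
    A 2 0 - b 0 * A 2 1 - b 1 * A 2 2 - b 2 * A 2 3, A 2 1, A 2 2, A 2 3;
    A 3 0 - b 0 * A 3 1 - b 1 * A 3 2 - b 2 * A 3 3, A 3 1, A 3 2, A 3 3]

noncomputable def nb (N : ℝ) (g : Fin 3 → ℝ) : Fin 4 → ℝ := ![N⁻¹, (g 0)⁻¹, (g 1)⁻¹, (g 2)⁻¹]

theorem exists_Fx (b : Fin 3 → ℝ) (A : M4) (h : Aᵀ = A) :
    ∃ x00 x01 x02 x03 x11 x12 x13 x22 x23 x33 : ℝ, A = Fx b x00 x01 x02 x03 x11 x12 x13 x22 x23 x33 := by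
  have s : ∀ i j, A j i = A i j := fun i j => by
    have := congrFun (congrFun h i) j
    simpa using this
  refine ⟨cj b A 0 0, cj b A 0 1, cj b A 0 2, cj b A 0 3, A 1 1, A 1 2, A 1 3, A 2 2, A 2 3,
    A 3 3, ?_⟩
  ext i j
  fin_cases i <;> fin_cases j <;>
    simp [Fx, cj, s 0 1, s 0 2, s 0 3, s 1 2, s 1 3, s 2 3] <;> ring

theorem trG (N : ℝ) (b g : Fin 3 → ℝ) (A : M4) :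
    (GD N b g * A * (GD N b g * A)).trace =
      ∑ l, ∑ m, nb N g l * nb N g m * (cj b A l m * cj b A m l) := by
  simp only [Matrix.trace, Matrix.diag, Matrix.mul_apply, Fin.sum_univ_four]
  simp only [GD, nb, cj, Matrix.of_apply, Matrix.cons_val', Matrix.cons_val, Matrix.cons_val_zero,
    Matrix.cons_val_one, Matrix.cons_val_fin_one]
  ring

theorem Th_apply (t : ℝ) (F F' : M4) (C : ℝ) (p : Fin 4 → ℝ) (i j : Fin 4) :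
    Th t F F' C p i j = p 0 * (F' i j - ph t F C i j)
      + (∑ k, (F' i k - ph t F C i k) * p k) * e0 j
      - e0 i * (∑ k, (F' j k - ph t F C j k) * p k) + ph t F C i 0 * p j
      + ∑ k, (Rq p i k - p i * e0 k) * ph t F C k j
      + (Lq (fun l => ∑ k, ph t F C l k * p k) i j
        - (∑ k, ph t F C 0 k * p k) * (if i = j then 1 else 0)) := by
  unfold Th
  generalize ph t F C = P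
  have h : P *ᵥ e0 = fun i => P i 0 := by
    ext i; simp [e0]
  rw [h]
  simp only [Matrix.add_apply, Matrix.sub_apply, Matrix.smul_apply, smul_eq_mul, vecMulVec_apply,
    Matrix.mul_apply, Matrix.mulVec, dotProduct, Matrix.one_apply]
  rfl

set_option maxHeartbeats 1000000 in
theorem Th_lin (t : ℝ) (F F' : M4) (C : ℝ) (b : Fin 3 → ℝ) :
    Th t F F' C (Pi.single 0 1) = Th t F F' C ![1, -b 0, -b 1, -b 2]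
      + b 0 • Th t F F' C (Pi.single 1 1) + b 1 • Th t F F' C (Pi.single 2 1)
      + b 2 • Th t F F' C (Pi.single 3 1) := by
  ext i j
  simp only [Matrix.add_apply, Matrix.smul_apply, smul_eq_mul, Th_apply]
  generalize ph t F C = P
  fin_cases i <;> fin_cases j <;>
    simp [Rq, Lq, e0, Fin.sum_univ_four] <;> ring

theorem sum_bil (N : ℝ) (b g : Fin 3 → ℝ) (G W : M4) (T : Fin 4 → M4)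
    (h : T 0 = W + b 0 • T 1 + b 1 • T 2 + b 2 • T 3) :
    ∑ c, ∑ d, GD N b g c d * (G * T d * (G * T c)).trace =
      N⁻¹ * (G * W * (G * W)).trace + (g 0)⁻¹ * (G * T 1 * (G * T 1)).trace
        + (g 1)⁻¹ * (G * T 2 * (G * T 2)).trace + (g 2)⁻¹ * (G * T 3 * (G * T 3)).trace := by
  simp only [Fin.sum_univ_four, h, Matrix.mul_add, Matrix.add_mul, Matrix.mul_smul,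
    Matrix.smul_mul, Matrix.trace_add, Matrix.trace_smul, smul_eq_mul]
  simp [GD]
  ring

variable (q t N : ℝ) (b g : Fin 3 → ℝ) (C C' x00 x01 x02 x03 x11 x12 x13 x22 x23 x33 : ℝ)

theorem ph_eq : ph t (FD N b g) C =
    !![t⁻¹ * N + t⁻¹ * b 0 ^ 2 * g 0 + t⁻¹ * b 1 ^ 2 * g 1 + t⁻¹ * b 2 ^ 2 * g 2 - t⁻¹ * C, t⁻¹ * b 0 * g 0, t⁻¹ * b 1 * g 1, t⁻¹ * b 2 * g 2;
      t⁻¹ * b 0 * g 0, t⁻¹ * g 0 - t⁻¹ * C, 0, 0;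
      t⁻¹ * b 1 * g 1, 0, t⁻¹ * g 1 - t⁻¹ * C, 0;
      t⁻¹ * b 2 * g 2, 0, 0, t⁻¹ * g 2 - t⁻¹ * C] := by
  ext i j
  fin_cases i <;> fin_cases j <;> simp [ph, FD] <;> ring

set_option maxHeartbeats 1000000 in
theorem T0_eq : Th t (FD N b g) (Fx b x00 x01 x02 x03 x11 x12 x13 x22 x23 x33) C ![1, -b 0, -b 1, -b 2] =
    !![b 0 ^ 2 * x11 + 2 * b 0 * b 1 * x12 + 2 * b 0 * b 2 * x13 + 2 * b 0 * x01 + b 1 ^ 2 * x22 + 2 * b 1 * b 2 * x23 + 2 * b 1 * x02 + b 2 ^ 2 * x33 + 2 * b 2 * x03 + x00 + t⁻¹ * b 0 ^ 2 * g 0 + t⁻¹ * b 1 ^ 2 * g 1 + t⁻¹ * b 2 ^ 2 * g 2, b 0 * x11 + b 1 * x12 + b 2 * x13 - t⁻¹ * N * b 0 - t⁻¹ * b 0 ^ 3 * g 0 - t⁻¹ * b 0 * b 1 ^ 2 * g 1 - t⁻¹ * b 0 * b 2 ^ 2 * g 2, b 0 * x12 + b 1 * x22 + b 2 * x23 - t⁻¹ * N * b 1 -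 t⁻¹ * b 0 ^ 2 * b 1 * g 0 - t⁻¹ * b 1 ^ 3 * g 1 - t⁻¹ * b 1 * b 2 ^ 2 * g 2, b 0 * x13 + b 1 * x23 + b 2 * x33 - t⁻¹ * N * b 2 - t⁻¹ * b 0 ^ 2 * b 2 * g 0 - t⁻¹ * b 1 ^ 2 * b 2 * g 1 - t⁻¹ * b 2 ^ 3 * g 2;
      b 0 * x11 + b 1 * x12 + b 2 * x13 + 2 * x01 + t⁻¹ * b 0 * g 0 - t⁻¹ * b 1 * b 2 * g 1 + t⁻¹ * b 1 * b 2 * g 2, x11 - t⁻¹ * b 0 ^ 2 * g 0, x12 - t⁻¹ * b 0 * b 1 * g 0 - t⁻¹ * b 2 * g 1, x13 - t⁻¹ * b 0 * b 2 * g 0 + t⁻¹ * b 1 * g 2;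
      b 0 * x12 + b 1 * x22 + b 2 * x23 + 2 * x02 + t⁻¹ * b 0 * b 2 * g 0 - t⁻¹ * b 0 * b 2 * g 2 + t⁻¹ * b 1 * g 1, x12 - t⁻¹ * b 0 * b 1 * g 1 + t⁻¹ * b 2 * g 0, x22 - t⁻¹ * b 1 ^ 2 * g 1, x23 - t⁻¹ * b 0 * g 2 - t⁻¹ * b 1 * b 2 * g 1;
      b 0 * x13 + b 1 * x23 + b 2 * x33 + 2 * x03 - t⁻¹ * b 0 * b 1 * g 0 + t⁻¹ * b 0 * b 1 * g 1 + t⁻¹ * b 2 * g 2, x13 - t⁻¹ * b 0 * b 2 * g 2 - t⁻¹ * b 1 * g 0, x23 + t⁻¹ * b 0 * g 1 - t⁻¹ * b 1 * b 2 * g 2, x33 - t⁻¹ * b 2 ^ 2 * g 2] := by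
  ext i j
  rw [Th_apply, ph_eq]
  fin_cases i <;> fin_cases j <;>
    simp [Fx, Rq, Lq, e0, Fin.sum_univ_four] <;> ring

theorem U0_eq : cj b (Th t (FD N b g) (Fx b x00 x01 x02 x03 x11 x12 x13 x22 x23 x33) C ![1, -b 0, -b 1, -b 2]) =
    !![x00 + t⁻¹ * N * b 0 ^ 2 + t⁻¹ * N * b 1 ^ 2 + t⁻¹ * N * b 2 ^ 2, -t⁻¹ * N * b 0, -t⁻¹ * N * b 1, -t⁻¹ * N * b 2;
      2 * x01 + t⁻¹ * b 0 ^ 3 * g 0 + t⁻¹ * b 0 * b 1 ^ 2 * g 0 + t⁻¹ * b 0 * b 2 ^ 2 * g 0 + t⁻¹ * b 0 * g 0, x11 - t⁻¹ * b 0 ^ 2 * g 0, x12 - t⁻¹ * b 0 * b 1 * g 0 - t⁻¹ * b 2 * g 1, x13 - t⁻¹ * b 0 * b 2 * g 0 + t⁻¹ * b 1 * g 2;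
      2 * x02 + t⁻¹ * b 0 ^ 2 * b 1 * g 1 + t⁻¹ * b 1 ^ 3 * g 1 + t⁻¹ * b 1 * b 2 ^ 2 * g 1 + t⁻¹ * b 1 * g 1, x12 - t⁻¹ * b 0 * b 1 * g 1 + t⁻¹ * b 2 * g 0, x22 - t⁻¹ * b 1 ^ 2 * g 1, x23 - t⁻¹ * b 0 * g 2 - t⁻¹ * b 1 * b 2 * g 1;
      2 * x03 + t⁻¹ * b 0 ^ 2 * b 2 * g 2 + t⁻¹ * b 1 ^ 2 * b 2 * g 2 + t⁻¹ * b 2 ^ 3 * g 2 + t⁻¹ * b 2 * g 2, x13 - t⁻¹ * b 0 * b 2 * g 2 - t⁻¹ * b 1 * g 0, x23 + t⁻¹ * b 0 * g 1 - t⁻¹ * b 1 * b 2 * g 2, x33 - t⁻¹ * b 2 ^ 2 * g 2] := by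
  rw [T0_eq]
  ext i j
  fin_cases i <;> fin_cases j <;> simp [cj] <;> ring

set_option maxHeartbeats 1000000 in
theorem T1_eq : Th t (FD N b g) (Fx b x00 x01 x02 x03 x11 x12 x13 x22 x23 x33) C (Pi.single 1 1) =
    !![-t⁻¹ * b 0 * g 0, -x11 + t⁻¹ * N + t⁻¹ * b 0 ^ 2 * g 0 + t⁻¹ * b 1 ^ 2 * g 1 + t⁻¹ * b 2 ^ 2 * g 2 - t⁻¹ * g 0, -x12, -x13;
      x11, t⁻¹ * b 0 * g 0, 0, 0;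
      x12 + t⁻¹ * b 2 * g 2, t⁻¹ * b 1 * g 1, 0, -t⁻¹ * g 0 + t⁻¹ * g 2;
      x13 - t⁻¹ * b 1 * g 1, t⁻¹ * b 2 * g 2, t⁻¹ * g 0 - t⁻¹ * g 1, 0] := by
  ext i j
  rw [Th_apply, ph_eq]
  fin_cases i <;> fin_cases j <;>
    simp [Fx, Rq, Lq, e0, Fin.sum_univ_four] <;> ring

theorem U1_eq : cj b (Th t (FD N b g) (Fx b x00 x01 x02 x03 x11 x12 x13 x22 x23 x33) C (Pi.single 1 1)) =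
    !![-t⁻¹ * N * b 0, -x11 + t⁻¹ * N - t⁻¹ * g 0, -x12 - t⁻¹ * b 2 * g 0 + t⁻¹ * b 2 * g 1, -x13 + t⁻¹ * b 1 * g 0 - t⁻¹ * b 1 * g 2;
      x11 - t⁻¹ * b 0 ^ 2 * g 0, t⁻¹ * b 0 * g 0, 0, 0;
      x12 - t⁻¹ * b 0 * b 1 * g 1 + t⁻¹ * b 2 * g 0, t⁻¹ * b 1 * g 1, 0, -t⁻¹ * g 0 + t⁻¹ * g 2;
      x13 - t⁻¹ * b 0 * b 2 * g 2 - t⁻¹ * b 1 * g 0, t⁻¹ * b 2 * g 2, t⁻¹ * g 0 - t⁻¹ * g 1, 0] := by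
  rw [T1_eq]
  ext i j
  fin_cases i <;> fin_cases j <;> simp [cj] <;> ring

set_option maxHeartbeats 1000000 in
theorem T2_eq : Th t (FD N b g) (Fx b x00 x01 x02 x03 x11 x12 x13 x22 x23 x33) C (Pi.single 2 1) =
    !![-t⁻¹ * b 1 * g 1, -x12, -x22 + t⁻¹ * N + t⁻¹ * b 0 ^ 2 * g 0 + t⁻¹ * b 1 ^ 2 * g 1 + t⁻¹ * b 2 ^ 2 * g 2 - t⁻¹ * g 1, -x23;
      x12 - t⁻¹ * b 2 * g 2, 0, t⁻¹ * b 0 * g 0, t⁻¹ * g 1 - t⁻¹ * g 2;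
      x22, 0, t⁻¹ * b 1 * g 1, 0;
      x23 + t⁻¹ * b 0 * g 0, t⁻¹ * g 0 - t⁻¹ * g 1, t⁻¹ * b 2 * g 2, 0] := by
  ext i j
  rw [Th_apply, ph_eq]
  fin_cases i <;> fin_cases j <;>
    simp [Fx, Rq, Lq, e0, Fin.sum_univ_four] <;> ring

theorem U2_eq : cj b (Th t (FD N b g) (Fx b x00 x01 x02 x03 x11 x12 x13 x22 x23 x33) C (Pi.single 2 1)) =
    !![-t⁻¹ * N * b 1, -x12 - t⁻¹ * b 2 * g 0 + t⁻¹ * b 2 * g 1, -x22 + t⁻¹ * N - t⁻¹ * g 1, -x23 - t⁻¹ * b 0 * g 1 + t⁻¹ * b 0 * g 2;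
      x12 - t⁻¹ * b 0 * b 1 * g 0 - t⁻¹ * b 2 * g 1, 0, t⁻¹ * b 0 * g 0, t⁻¹ * g 1 - t⁻¹ * g 2;
      x22 - t⁻¹ * b 1 ^ 2 * g 1, 0, t⁻¹ * b 1 * g 1, 0;
      x23 + t⁻¹ * b 0 * g 1 - t⁻¹ * b 1 * b 2 * g 2, t⁻¹ * g 0 - t⁻¹ * g 1, t⁻¹ * b 2 * g 2, 0] := by
  rw [T2_eq]
  ext i j
  fin_cases i <;> fin_cases j <;> simp [cj] <;> ring

set_option maxHeartbeats 1000000 in
theorem T3_eq : Th t (FD N b g) (Fx b x00 x01 x02 x03 x11 x12 x13 x22 x23 x33) C (Pi.single 3 1) =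
    !![-t⁻¹ * b 2 * g 2, -x13, -x23, -x33 + t⁻¹ * N + t⁻¹ * b 0 ^ 2 * g 0 + t⁻¹ * b 1 ^ 2 * g 1 + t⁻¹ * b 2 ^ 2 * g 2 - t⁻¹ * g 2;
      x13 + t⁻¹ * b 1 * g 1, 0, t⁻¹ * g 1 - t⁻¹ * g 2, t⁻¹ * b 0 * g 0;
      x23 - t⁻¹ * b 0 * g 0, -t⁻¹ * g 0 + t⁻¹ * g 2, 0, t⁻¹ * b 1 * g 1;
      x33, 0, 0, t⁻¹ * b 2 * g 2] := by
  ext i j
  rw [Th_apply, ph_eq]
  fin_cases i <;> fin_cases j <;>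
    simp [Fx, Rq, Lq, e0, Fin.sum_univ_four] <;> ring

theorem U3_eq : cj b (Th t (FD N b g) (Fx b x00 x01 x02 x03 x11 x12 x13 x22 x23 x33) C (Pi.single 3 1)) =
    !![-t⁻¹ * N * b 2, -x13 + t⁻¹ * b 1 * g 0 - t⁻¹ * b 1 * g 2, -x23 - t⁻¹ * b 0 * g 1 + t⁻¹ * b 0 * g 2, -x33 + t⁻¹ * N - t⁻¹ * g 2;
      x13 - t⁻¹ * b 0 * b 2 * g 0 + t⁻¹ * b 1 * g 2, 0, t⁻¹ * g 1 - t⁻¹ * g 2, t⁻¹ * b 0 * g 0;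
      x23 - t⁻¹ * b 0 * g 2 - t⁻¹ * b 1 * b 2 * g 1, -t⁻¹ * g 0 + t⁻¹ * g 2, 0, t⁻¹ * b 1 * g 1;
      x33 - t⁻¹ * b 2 ^ 2 * g 2, 0, 0, t⁻¹ * b 2 * g 2] := by
  rw [T3_eq]
  ext i j
  fin_cases i <;> fin_cases j <;> simp [cj] <;> ring

theorem S_eq (ht : t ≠ 0) (hN : N ≠ 0) (h0 : g 0 ≠ 0) (h1 : g 1 ≠ 0) (h2 : g 2 ≠ 0) :
    ∑ c, ∑ d, GD N b g c d *
        (GD N b g * Th t (FD N b g) (Fx b x00 x01 x02 x03 x11 x12 x13 x22 x23 x33) C (Pi.single d 1) *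
          (GD N b g * Th t (FD N b g) (Fx b x00 x01 x02 x03 x11 x12 x13 x22 x23 x33) C (Pi.single c 1))).trace =
      -N⁻¹ * (g 2)⁻¹ ^ 2 * x33 ^ 2 - 2 * N⁻¹ * (g 1)⁻¹ * (g 2)⁻¹ * x23 ^ 2 - N⁻¹ * (g 1)⁻¹ ^ 2 * x22 ^ 2 - 2 * N⁻¹ * (g 0)⁻¹ * (g 2)⁻¹ * x13 ^ 2 - 2 * N⁻¹ * (g 0)⁻¹ * (g 1)⁻¹ * x12 ^ 2 - N⁻¹ * (g 0)⁻¹ ^ 2 * x11 ^ 2 + N⁻¹ ^ 3 * x00 ^ 2 + 2 * t⁻¹ * (g 2)⁻¹ ^ 2 * x33 + 2 * t⁻¹ * (g 1)⁻¹ ^ 2 * x22 + 2 * t⁻¹ * (g 0)⁻¹ ^ 2 * x11 - 4 * t⁻¹ * N⁻¹ * b 0 * (g 2)⁻¹ * x23 + 4 * t⁻¹ * N⁻¹ * b 0 * (g 1)⁻¹ * x23 - 4 * t⁻¹ * N⁻¹ * b 0 * (g 0)⁻¹ * x01 + 4 * t⁻¹ * N⁻¹ * b 1 * (g 2)⁻¹ * x13 - 4 * t⁻¹ * N⁻¹ * b 1 * (g 1)⁻¹ * x02 - 4 * t⁻¹ * N⁻¹ * b 1 * (g 0)⁻¹ * x13 - 4 * t⁻¹ * N⁻¹ * b 2 * (g 2)⁻¹ * x03 - 4 * t⁻¹ * N⁻¹ * b 2 * (g 1)⁻¹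 * x12 + 4 * t⁻¹ * N⁻¹ * b 2 * (g 0)⁻¹ * x12 - 2 * t⁻¹ * N⁻¹ * (g 2)⁻¹ * x33 - 2 * t⁻¹ * N⁻¹ * (g 1)⁻¹ * x22 - 2 * t⁻¹ * N⁻¹ * (g 0)⁻¹ * x11 + 2 * t⁻¹ * N⁻¹ ^ 2 * b 0 ^ 2 * x00 + 2 * t⁻¹ * N⁻¹ ^ 2 * b 1 ^ 2 * x00 + 2 * t⁻¹ * N⁻¹ ^ 2 * b 2 ^ 2 * x00 - 2 * t⁻¹ ^ 2 * g 0 * (g 1)⁻¹ * (g 2)⁻¹ + 2 * t⁻¹ ^ 2 * (g 2)⁻¹ + 2 * t⁻¹ ^ 2 * (g 1)⁻¹ - 2 * t⁻¹ ^ 2 * (g 0)⁻¹ * g 1 * (g 2)⁻¹ + 2 * t⁻¹ ^ 2 * (g 0)⁻¹ - 2 * t⁻¹ ^ 2 * (g 0)⁻¹ * (g 1)⁻¹ * g 2 - 2 * t⁻¹ ^ 2 * N⁻¹ * b 0 ^ 2 * g 1 * (g 2)⁻¹ + 2 * t⁻¹ ^ 2 * N⁻¹ * b 0 ^ 2 - 2 * t⁻¹ ^ 2 * N⁻¹ * b 0 ^ 2 * (g 1)⁻¹ * g 2 - 2 * t⁻¹ ^ 2 * N⁻¹ * b 1 ^ 2 * g 0 * (g 2)⁻¹ + 2 * t⁻¹ ^ 2 * N⁻¹ * b 1 ^ 2 - 2 * t⁻¹ ^ 2 * N⁻¹ * b 1 ^ 2 * (g 0)⁻¹ * g 2 - 2 * t⁻¹ ^ 2 * N⁻¹ * b 2 ^ 2 * g 0 * (g 1)⁻¹ + 2 *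 t⁻¹ ^ 2 * N⁻¹ * b 2 ^ 2 - 2 * t⁻¹ ^ 2 * N⁻¹ * b 2 ^ 2 * (g 0)⁻¹ * g 1 := by
  rw [sum_bil N b g (GD N b g) _ (fun c => Th t (FD N b g) (Fx b x00 x01 x02 x03 x11 x12 x13 x22 x23 x33) C (Pi.single c 1))
    (Th_lin t _ _ C b)]
  simp only [trG, U0_eq, U1_eq, U2_eq, U3_eq]
  simp [Fin.sum_univ_four, nb]
  field_simp
  ring

theorem GFG00 : (GD N b g * (Fx b x00 x01 x02 x03 x11 x12 x13 x22 x23 x33) * GD N b g) 0 0 = N⁻¹ ^ 2 * x00 := by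
  simp [Matrix.mul_apply, Fin.sum_univ_four, GD, Fx]
  ring

theorem trGF : (GD N b g * (Fx b x00 x01 x02 x03 x11 x12 x13 x22 x23 x33)).trace = (g 2)⁻¹ * x33 + (g 1)⁻¹ * x22 + (g 0)⁻¹ * x11 + N⁻¹ * x00 := by
  simp [Matrix.trace, Matrix.mul_apply, Fin.sum_univ_four, GD, Fx]
  ring

theorem trGFG : (GD N b g * (Fx b x00 x01 x02 x03 x11 x12 x13 x22 x23 x33) * GD N b g).trace =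
    (g 2)⁻¹ ^ 2 * x33 + (g 1)⁻¹ ^ 2 * x22 + (g 0)⁻¹ ^ 2 * x11 - 2 * N⁻¹ * b 0 * (g 0)⁻¹ * x01 - 2 * N⁻¹ * b 1 * (g 1)⁻¹ * x02 - 2 * N⁻¹ * b 2 * (g 2)⁻¹ * x03 + N⁻¹ ^ 2 * b 0 ^ 2 * x00 + N⁻¹ ^ 2 * b 1 ^ 2 * x00 + N⁻¹ ^ 2 * b 2 ^ 2 * x00 + N⁻¹ ^ 2 * x00 := by
  simp [Matrix.trace, Matrix.mul_apply, Fin.sum_univ_four, GD, Fx]
  ring

theorem trG1 : (GD N b g).trace = (g 2)⁻¹ + (g 1)⁻¹ + (g 0)⁻¹ + N⁻¹ * b 0 ^ 2 + N⁻¹ * b 1 ^ 2 + N⁻¹ * b 2 ^ 2 + N⁻¹ := by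
  simp [Matrix.trace, Fin.sum_univ_four, GD]
  ring

theorem G00 : GD N b g 0 0 = N⁻¹ := by
  simp [GD]

theorem pv0 (hN : N ≠ 0) : pv t (FD N b g) (GD N b g) C C' 0 = -N⁻¹ * C' + t⁻¹ - t⁻¹ * N⁻¹ * C := by
  unfold pv
  rw [ph_eq]
  simp [Matrix.mulVec, dotProduct, Fin.sum_univ_four, GD, e0]
  field_simp
  ring

theorem PGP (hN : N ≠ 0) (h0 : g 0 ≠ 0) (h1 : g 1 ≠ 0) (h2 : g 2 ≠ 0) :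
    (ph t (FD N b g) C * GD N b g * ph t (FD N b g) C).trace
      - (ph t (FD N b g) C * GD N b g * ph t (FD N b g) C) 0 0 =
    t⁻¹ ^ 2 * g 0 + t⁻¹ ^ 2 * g 1 + t⁻¹ ^ 2 * g 2 - 6 * t⁻¹ ^ 2 * C + t⁻¹ ^ 2 * (g 2)⁻¹ * C ^ 2 + t⁻¹ ^ 2 * (g 1)⁻¹ * C ^ 2 + t⁻¹ ^ 2 * (g 0)⁻¹ * C ^ 2 + t⁻¹ ^ 2 * N⁻¹ * b 0 ^ 2 * C ^ 2 + t⁻¹ ^ 2 * N⁻¹ * b 1 ^ 2 * C ^ 2 + t⁻¹ ^ 2 * N⁻¹ * b 2 ^ 2 * C ^ 2 := by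
  rw [ph_eq]
  simp [Matrix.trace, Matrix.mul_apply, Fin.sum_univ_four, GD]
  field_simp
  ring

end AlgR

open AlgR in
theorem algR_pf : AlgRStmt := by
  intro q t N b g F' C C' ht hN hg hC hF
  obtain ⟨x00, x01, x02, x03, x11, x12, x13, x22, x23, x33, rfl⟩ := exists_Fx b F' hF
  have h0 := hg 0
  have h1 := hg 1
  have h2 := hg 2
  unfold FF QQ v0 hA ww RS
  rw [S_eq t N b g C _ _ _ _ _ _ _ _ _ _ ht hN h0 h1 h2, PGP t N b g C hN h0 h1 h2,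
    pv0 t N b g C C' hN, GFG00, trGF, trGFG, trG1, G00]
  simp [Fin.sum_univ_three, AA, Fx]
  field_simp
  ring

end Vale.Agent.P366S
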