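import Vale.Agent.P366S.Stm

/-! Derivatives of the inverse and of the determinant; regularity of the scalar data. -/

namespace Vale.Agent.P366S

open scoped Matrix ContDiff Topology
open Filter Set Matrix

namespace Jac

theorem cd_det {k : ℕ} {N : WithTop ℕ∞} (F : ℝ → Matrix (Fin k) (Fin k) ℝ) (t : ℝ)
    (h : ∀ a b, ContDiffAt ℝ N (fun s => F s a b) t) :
    ContDiffAt ℝ N (fun s => (F s).det) t := by
  simp only [Matrix.det_apply']
  refine ContDiffAt.sum fun σ _ => ?_
  exact contDiffAt_const.mul (contDiffAt_prod fun i _ => h _ _)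

theorem cd_adj {k : ℕ} {N : WithTop ℕ∞} (F : ℝ → Matrix (Fin k) (Fin k) ℝ) (t : ℝ)
    (h : ∀ a b, ContDiffAt ℝ N (fun s => F s a b) t) (a b : Fin k) :
    ContDiffAt ℝ N (fun s => (F s).adjugate a b) t := by
  simp only [Matrix.adjugate_apply]
  refine cd_det (fun s => (F s).updateRow b (Pi.single a 1)) t fun c d => ?_
  by_cases hc : c = b
  · subst hc
    simp only [Matrix.updateRow_self]
    exact contDiffAt_const
  · simp only [Matrix.updateRow_ne hc]
    exact h c d

theorem inv_entry {k : ℕ} (A : Matrix (Fin k) (Fin k) ℝ) (a b : Fin k) :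
    A⁻¹ a b = (A.det)⁻¹ * A.adjugate a b := by
  rw [Matrix.inv_def, Ring.inverse_eq_inv']
  rfl

theorem cd_inv {k : ℕ} {N : WithTop ℕ∞} (F : ℝ → Matrix (Fin k) (Fin k) ℝ) (t : ℝ)
    (h : ∀ a b, ContDiffAt ℝ N (fun s => F s a b) t) (hd : (F t).det ≠ 0) (a b : Fin k) :
    ContDiffAt ℝ N (fun s => (F s)⁻¹ a b) t := by
  simp only [inv_entry]
  exact ((cd_det F t h).inv hd).mul (cd_adj F t h a b)

theorem cd_mul {k : ℕ} {N : WithTop ℕ∞} (F G : ℝ → Matrix (Fin k) (Fin k) ℝ) (t : ℝ)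
    (hF : ∀ a b, ContDiffAt ℝ N (fun s => F s a b) t)
    (hG : ∀ a b, ContDiffAt ℝ N (fun s => G s a b) t) (a b : Fin k) :
    ContDiffAt ℝ N (fun s => (F s * G s) a b) t := by
  simp only [Matrix.mul_apply]
  exact ContDiffAt.sum fun c _ => (hF a c).mul (hG c b)

theorem cd_trace {k : ℕ} {N : WithTop ℕ∞} (F : ℝ → Matrix (Fin k) (Fin k) ℝ) (t : ℝ)
    (hF : ∀ a b, ContDiffAt ℝ N (fun s => F s a b) t) :
    ContDiffAt ℝ N (fun s => (F s).trace) t := by
  simp only [Matrix.trace, Matrix.diag_apply]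
  exact ContDiffAt.sum fun c _ => hF c c

theorem cd_deriv {f : ℝ → ℝ} {t : ℝ} (hf : ContDiffAt ℝ ∞ f t) :
    ContDiffAt ℝ ∞ (deriv f) t := by
  have h1 : ContDiffAt ℝ ∞ (fderiv ℝ f) t := hf.fderiv_right (m := ∞) (by simp)
  exact h1.clm_apply (contDiffAt_const (c := (1 : ℝ)))

theorem det_deriv {k : ℕ} (F : ℝ → Matrix (Fin k) (Fin k) ℝ) (F' : Matrix (Fin k) (Fin k) ℝ)
    (t : ℝ) (h : ∀ a b, HasDerivAt (fun s => F s a b) (F' a b) t) :
    HasDerivAt (fun s => (F s).det) ((F t).adjugate * F').trace t := by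
  have h1 : HasDerivAt (fun s => (F s).det)
      (∑ σ : Equiv.Perm (Fin k), ((Equiv.Perm.sign σ : ℤ) : ℝ) *
        ∑ i, (∏ j ∈ Finset.univ.erase i, F t (σ j) j) • F' (σ i) i) t := by
    simp only [Matrix.det_apply']
    refine HasDerivAt.fun_sum fun σ _ => ?_
    exact (HasDerivAt.fun_finsetProd fun i _ => h (σ i) i).const_mul _
  have h2 : ((F t).adjugate * F').trace = ∑ i, ((F t).updateCol i (fun a => F' a i)).det := by
    simp only [Matrix.trace, Matrix.diag_apply]
    refine Finset.sum_congr rfl fun i _ => ?_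
    rw [← Matrix.cramer_apply, Matrix.cramer_eq_adjugate_mulVec]
    rfl
  rw [h2]
  refine h1.congr_deriv ?_
  simp only [Matrix.det_apply', Finset.mul_sum]
  rw [Finset.sum_comm]
  refine Finset.sum_congr rfl fun i _ => Finset.sum_congr rfl fun σ _ => ?_
  congr 1
  rw [← Finset.mul_prod_erase _ _ (Finset.mem_univ i), Matrix.updateCol_self, smul_eq_mul, mul_comm]
  congr 1
  refine Finset.prod_congr rfl fun j hj => ?_
  rw [Matrix.updateCol_ne (Finset.ne_of_mem_erase hj)]

end Jac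

open Jac

theorem jac_pf : JacStmt := by
  refine ⟨fun F hF => ?_, fun F t h hd => ?_⟩
  · rw [inv_entry, ← mul_assoc, mul_inv_cancel₀ hF, one_mul,
      Matrix.adjugate_fin_succ_eq_det_submatrix]
    simp
  · have hD : ∀ a b, HasDerivAt (fun s => F s a b) (md F t a b) t := fun a b =>
      ((h a b).differentiableAt (by simp)).hasDerivAt
    have hI := cd_inv F t h hd
    have hu : IsUnit (F t).det := isUnit_iff_ne_zero.mpr hd
    refine ⟨hI, fun a b => cd_deriv (h a b), ?_, ?_⟩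
    · have hG : ∀ a b, HasDerivAt (fun s => (F s)⁻¹ a b) (md (fun s => (F s)⁻¹) t a b) t :=
        fun a b => ((hI a b).differentiableAt (by simp)).hasDerivAt
      have hne : ∀ᶠ s in 𝓝 t, (F s).det ≠ 0 := (cd_det F t h).continuousAt.eventually_ne hd
      have hz : md (fun s => (F s)⁻¹) t * F t + (F t)⁻¹ * md F t = 0 := by
        ext a b
        have e1 : HasDerivAt (fun s => ((F s)⁻¹ * F s) a b)
            ((md (fun s => (F s)⁻¹) t * F t + (F t)⁻¹ * md F t) a b) t := by
          simp only [Matrix.mul_apply, Matrix.add_apply, ← Finset.sum_add_distrib]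
          exact HasDerivAt.fun_sum fun c _ => (hG a c).mul (hD c b)
        have e2 : HasDerivAt (fun s => ((F s)⁻¹ * F s) a b) 0 t := by
          refine (hasDerivAt_const t ((1 : M4) a b)).congr_of_eventuallyEq ?_
          filter_upwards [hne] with s hs
          rw [Matrix.nonsing_inv_mul _ (isUnit_iff_ne_zero.mpr hs)]
        rw [e1.unique e2]
        rfl
      have hE : md (fun s => (F s)⁻¹) t = -((F t)⁻¹ * md F t * (F t)⁻¹) := by
        have e3 : md (fun s => (F s)⁻¹) t * F t = -((F t)⁻¹ * md F t) :=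
          eq_neg_of_add_eq_zero_left hz
        calc md (fun s => (F s)⁻¹) t = md (fun s => (F s)⁻¹) t * F t * (F t)⁻¹ := by
              rw [Matrix.mul_assoc, Matrix.mul_nonsing_inv _ hu, Matrix.mul_one]
          _ = -((F t)⁻¹ * md F t * (F t)⁻¹) := by rw [e3, Matrix.neg_mul]
      intro a b
      have e4 := hG a b
      rw [hE] at e4
      exact e4
    · refine (det_deriv F (md F t) t hD).congr_deriv ?_
      have e5 : (F t).adjugate = (F t).det • (F t)⁻¹ := by
        ext a b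
        rw [Matrix.smul_apply, inv_entry, smul_eq_mul, ← mul_assoc, mul_inv_cancel₀ hd, one_mul]
      rw [e5, Matrix.smul_mul, Matrix.trace_smul, smul_eq_mul]

theorem reg_pf (hJ : JacStmt) : RegStmt := by
  intro q D t ht hF hC
  have hd : (D.F t).det ≠ 0 := hF.det_pos.ne'
  have hI := (hJ.2 D.F t (D.hF t ht) hd).1
  have hS : ((D.F t).submatrix Fin.succ Fin.succ).PosDef := hF.submatrix (Fin.succ_injective 3)
  have hp : 0 < (D.F t)⁻¹ 0 0 := hF.inv.diag_pos
  have h2 : (2 : WithTop ℕ∞) ≤ ∞ := WithTop.coe_le_coe.mpr (le_top : (2 : ℕ∞) ≤ ⊤)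
  refine ⟨hp, ?_, hS.det_pos, hC, (hI 0 0).of_le h2, ?_, ?_, (D.hC t ht).of_le h2, ?_⟩
  · show 0 < ((D.F t).submatrix Fin.succ Fin.succ).trace
    unfold Matrix.trace
    exact Finset.sum_pos (fun i _ => hS.diag_pos) Finset.univ_nonempty
  · exact (cd_trace (fun s => (D.F s).submatrix Fin.succ Fin.succ) t
      fun a b => D.hF t ht a.succ b.succ).of_le h2
  · exact (cd_det (fun s => (D.F s).submatrix Fin.succ Fin.succ) t
      fun a b => D.hF t ht a.succ b.succ).of_le h2
  · have hGK := cd_mul (fun s => (D.F s)⁻¹) D.K t hI (D.hK t ht)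
    have hGKG := cd_mul (fun s => (D.F s)⁻¹ * D.K s) (fun s => (D.F s)⁻¹) t hGK hI
    have hT := cd_trace (fun s => (D.F s)⁻¹ * D.K s) t hGK
    have hA : ContDiffAt ℝ ∞ (fun s => ((D.F s)⁻¹ * D.K s).trace
        - ((D.F s)⁻¹ * D.K s * (D.F s)⁻¹) 0 0 / (D.F s)⁻¹ 0 0 + q * (D.c s / D.C s)) t :=
      (hT.sub ((hGKG 0 0).div (hI 0 0) hp.ne')).add
        (contDiffAt_const.mul ((D.hc t ht).div (D.hC t ht) hC.ne'))
    exact hA.of_le h2

end Vale.Agent.P366S
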