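import Vale.Agent.P366S.Stm2
import Vale.Agent.P366S.Jac

/-! The normal component of the current. -/

namespace Vale.Agent.P366S

open scoped Matrix ContDiff Topology
open Filter Set Matrix
open Vale.Agent.P366 (Pt Ten pd chr trg mom cur IsQuat Hor dot_pos)

namespace Cur

variable {n : ℕ}

theorem cur_alg (G P M : Matrix (Fin n) (Fin n) ℝ) (Dd Γ : Fin n → Matrix (Fin n) (Fin n) ℝ)
    (u V : Pt n) (hV : ∀ k, ∑ i, ∑ j, G i j * Γ i k j = V k)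
    (hX : ∀ k i, ∑ j, Γ i k j * u j = M k i) :
    ∑ j, (∑ i, ∑ k, G i k * (Dd i k j - ∑ l, Γ i l k * P l j - ∑ l, Γ i l j * P k l)) * u j =
      ∑ i, ∑ k, ∑ j, G i k * Dd i k j * u j - V ⬝ᵥ (P *ᵥ u) - (G * (P * M)).trace := by
  have hP : ∀ l, ∑ j, P l j * u j = (P *ᵥ u) l := fun l => rfl
  have h1 : ∀ i k, ∑ j, (∑ l, Γ i l k * P l j) * u j = ∑ l, Γ i l k * (P *ᵥ u) l := fun i k => by
    simp only [← hP, Finset.sum_mul, Finset.mul_sum, mul_assoc]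
    exact Finset.sum_comm
  have h2 : ∀ i k, ∑ j, (∑ l, Γ i l j * P k l) * u j = ∑ l, P k l * M l i := fun i k => by
    simp only [← hX, Finset.sum_mul, Finset.mul_sum]
    rw [Finset.sum_comm]
    exact Finset.sum_congr rfl fun _ _ => Finset.sum_congr rfl fun _ _ => by ring
  have h3 : ∑ i, ∑ k, G i k * ∑ l, Γ i l k * (P *ᵥ u) l = V ⬝ᵥ (P *ᵥ u) := by
    have : V ⬝ᵥ (P *ᵥ u) = ∑ l, (∑ i, ∑ k, G i k * Γ i l k) * (P *ᵥ u) l := by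
      simp only [hV, dotProduct]
    rw [this]
    simp only [Finset.sum_mul, Finset.mul_sum, mul_assoc]
    refine Eq.trans (Finset.sum_congr rfl fun _ _ => Finset.sum_comm) Finset.sum_comm
  have h4 : ∑ i, ∑ k, G i k * ∑ l, P k l * M l i = (G * (P * M)).trace := by
    simp only [Matrix.trace, Matrix.diag, Matrix.mul_apply]
  have h5 : ∀ F : Fin n → Fin n → Fin n → ℝ, ∑ j, (∑ i, ∑ k, F i k j) * u j =
      ∑ i, ∑ k, ∑ j, F i k j * u j := fun F => by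
    simp only [Finset.sum_mul]
    rw [Finset.sum_comm]
    exact Finset.sum_congr rfl fun _ _ => Finset.sum_comm
  rw [← h3, ← h4, h5]
  simp only [← h1, ← h2, ← Finset.sum_sub_distrib]
  refine Finset.sum_congr rfl fun i _ => Finset.sum_congr rfl fun k _ => ?_
  rw [Finset.mul_sum, Finset.mul_sum, ← Finset.sum_sub_distrib, ← Finset.sum_sub_distrib]
  exact Finset.sum_congr rfl fun j _ => by ring

theorem hd_mul {A B : ℝ → M4} {A' B' : M4} {t : ℝ}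
    (hA : ∀ a b, HasDerivAt (fun s => A s a b) (A' a b) t)
    (hB : ∀ a b, HasDerivAt (fun s => B s a b) (B' a b) t) (a b : Fin 4) :
    HasDerivAt (fun s => (A s * B s) a b) ((A' * B t + A t * B') a b) t := by
  simp only [Matrix.mul_apply, Matrix.add_apply, ← Finset.sum_add_distrib]
  exact HasDerivAt.fun_sum fun c _ => (hA a c).mul (hB c b)

theorem md_T {A : ℝ → M4} (h : ∀ s, (A s)ᵀ = A s) (t : ℝ) : (md A t)ᵀ = md A t := by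
  ext a b
  have : (fun s => A s b a) = fun s => A s a b := funext fun s => congrFun (congrFun (h s) a) b
  simp only [md, Matrix.transpose_apply, Matrix.of_apply, this]

theorem trace_skew {S A : Matrix (Fin n) (Fin n) ℝ} (hS : Sᵀ = S) (hA : Aᵀ = -A) :
    (S * A).trace = 0 := by
  have h : (S * A).trace = -(S * A).trace := by
    conv_lhs => rw [← Matrix.trace_transpose, Matrix.transpose_mul, hS, hA, Matrix.neg_mul,
      Matrix.trace_neg, Matrix.trace_mul_comm]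
  linarith

theorem trace_Tm {J : Fin 3 → Matrix (Fin n) (Fin n) ℝ} (hq : IsQuat J) {x : Pt n} (hx : x ≠ 0)
    (A Θ : M4) (a α β : ℝ) (r : Fin 4 → ℝ) :
    (blk J x A a * (Ym J x * Θ * (Ym J x)ᵀ
      + (α • (1 : Matrix (Fin n) (Fin n) ℝ) + β • Jo J r) * blk J x 0 1)).trace =
      (x ⬝ᵥ x) * (A * Θ).trace + α * (((n : ℝ) - 4) * a) := by
  have e1 : (blk J x A a * (Ym J x * Θ * (Ym J x)ᵀ)).trace = (x ⬝ᵥ x) * (A * Θ).trace := by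
    rw [← Matrix.mul_assoc, ← Matrix.mul_assoc, blk_Y hq hx, Matrix.trace_mul_comm,
      ← Matrix.mul_assoc, ← Matrix.mul_assoc, YtY hq, Matrix.smul_mul, Matrix.one_mul,
      Matrix.smul_mul, Matrix.trace_smul, smul_eq_mul]
  have e2 : (blk J x A a * ((α • (1 : Matrix (Fin n) (Fin n) ℝ) + β • Jo J r)
      * blk J x 0 1)).trace = α * (((n : ℝ) - 4) * a) := by
    have e3 : (blk J x 0 a * Jo J r).trace = 0 :=
      trace_skew (by rw [blk_T, Matrix.transpose_zero]) (Jo_T hq r)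
    rw [← Matrix.mul_assoc, Matrix.trace_mul_comm, ← Matrix.mul_assoc, blk_mul hq hx,
      Matrix.zero_mul, one_mul, Matrix.mul_add, Matrix.mul_smul, Matrix.mul_smul, Matrix.mul_one,
      Matrix.trace_add, Matrix.trace_smul, Matrix.trace_smul, e3, blk_trace hq hx,
      Matrix.trace_zero]
    simp
  rw [Matrix.mul_add, Matrix.trace_add, e1, e2]

theorem DD_shift (q t : ℝ) (G F P A : M4) (γ w κ : ℝ) (hGF : G * F = 1) :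
    DD q t G γ P (A - κ • F) w (G *ᵥ e0) = DD q t G γ P A w (G *ᵥ e0) - 2 * t * G 0 0 * κ := by
  have e1 : G *ᵥ ((A - κ • F - ph t P w) *ᵥ (G *ᵥ e0)) =
      G *ᵥ ((A - ph t P w) *ᵥ (G *ᵥ e0)) - κ • (G *ᵥ e0) := by
    have e2 : A - κ • F - ph t P w = (A - ph t P w) - κ • F := by abel
    rw [e2, Matrix.sub_mulVec (A - ph t P w), Matrix.mulVec_sub, Matrix.smul_mulVec,
      Matrix.mulVec_smul, Matrix.mulVec_mulVec (G *ᵥ e0) G F, hGF, Matrix.one_mulVec]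
  have e3 : (G *ᵥ e0) 0 = G 0 0 := by simp [e0]
  simp only [DD, e1, Pi.sub_apply, Pi.smul_apply, smul_eq_mul, e3]
  ring

end Cur

open Cur

theorem cur_pf (hJ : JetStmt) (hK : KStmt) (hC : ChrStmt) (hT : TmStmt) (hV : VStmt)
    (hD : DivStmt) (hJac : JacStmt) : CurStmt := by
  intro n J D x hq hx hF hC0
  have ht : 0 < x ⬝ᵥ x := dot_pos hx
  have hd : (D.F (x ⬝ᵥ x)).det ≠ 0 := hF.det_pos.ne'
  have hC' := hC0.ne'
  have hp : 0 < (D.F (x ⬝ᵥ x))⁻¹ 0 0 := hF.inv.diag_pos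
  set q : ℝ := (n : ℝ) - 4 with hqd
  obtain ⟨hI, -, hG, -⟩ := hJac.2 D.F (x ⬝ᵥ x) (D.hF _ ht) hd
  have hGF : (D.F (x ⬝ᵥ x))⁻¹ * D.F (x ⬝ᵥ x) = 1 :=
    Matrix.nonsing_inv_mul _ (isUnit_iff_ne_zero.mpr hd)
  have hGT : ((D.F (x ⬝ᵥ x))⁻¹)ᵀ = (D.F (x ⬝ᵥ x))⁻¹ := by
    rw [Matrix.transpose_nonsing_inv, D.sF]
  have hF'T := md_T D.sF (x ⬝ᵥ x)
  let T : ℝ → ℝ := fun s => TT q (D.F s)⁻¹ (D.K s) (D.C s) (D.c s)
  let Pm : ℝ → M4 := fun s => D.K s - T s • D.F s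
  let w : ℝ → ℝ := fun s => D.c s - T s * D.C s
  have hPT : ∀ s, (Pm s)ᵀ = Pm s := fun s => by
    simp only [Pm, Matrix.transpose_sub, Matrix.transpose_smul, D.sF, D.sK]
  have hm : ∀ y : Pt n, y ≠ 0 → (D.F (y ⬝ᵥ y)).det ≠ 0 → 0 < (D.F (y ⬝ᵥ y))⁻¹ 0 0 →
      D.C (y ⬝ᵥ y) ≠ 0 → mom (hopf J D.F D.C) (hopf J D.K D.c) y = hopf J Pm w y := by
    intro y h0 h1 h2 h3
    simp only [mom]
    rw [(hK n J D y hq h0 h1 h2 h3).1]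
    simp only [hopf]
    rw [blk_smul, blk_sub]
  have hc : Tendsto (fun y : Pt n => y ⬝ᵥ y) (𝓝 x) (𝓝 (x ⬝ᵥ x)) :=
    (by fun_prop : Continuous fun y : Pt n => y ⬝ᵥ y).continuousAt
  have hev : ∀ᶠ y in 𝓝 x, mom (hopf J D.F D.C) (hopf J D.K D.c) y = hopf J Pm w y := by
    filter_upwards [isOpen_ne.mem_nhds hx,
      hc.eventually ((Jac.cd_det D.F _ (D.hF _ ht)).continuousAt.eventually_ne hd),
      hc.eventually ((hI 0 0).continuousAt.eventually (lt_mem_nhds hp)),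
      hc.eventually ((D.hC _ ht).continuousAt.eventually_ne hC')] with y h0 h1 h2 h3
    exact hm y h0 h1 h2 h3
  have dF : ∀ a b, HasDerivAt (fun s => D.F s a b) (md D.F (x ⬝ᵥ x) a b) (x ⬝ᵥ x) := fun a b =>
    ((D.hF _ ht a b).differentiableAt (by simp)).hasDerivAt
  have dK : ∀ a b, HasDerivAt (fun s => D.K s a b) (md D.K (x ⬝ᵥ x) a b) (x ⬝ᵥ x) := fun a b =>
    ((D.hK _ ht a b).differentiableAt (by simp)).hasDerivAt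
  have dC := (D.hC _ ht).differentiableAt (by simp)
  have dc := (D.hc _ ht).differentiableAt (by simp)
  have dP : DifferentiableAt ℝ (toSca q D).P (x ⬝ᵥ x) :=
    (reg_pf hJac q D _ ht hF hC0).2.2.2.2.2.2.2.2.differentiableAt (by simp)
  have dG : ∀ a b, HasDerivAt (fun s => (D.F s)⁻¹ a b)
      ((-((D.F (x ⬝ᵥ x))⁻¹ * md D.F (x ⬝ᵥ x) * (D.F (x ⬝ᵥ x))⁻¹)) a b) (x ⬝ᵥ x) := hG
  have dN := hd_mul (hd_mul dG dK) dG 0 0
  have dk : HasDerivAt (fun s => ((D.F s)⁻¹ * D.K s * (D.F s)⁻¹) 0 0 / (D.F s)⁻¹ 0 0)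
      (k01 (D.F (x ⬝ᵥ x))⁻¹ (md D.F (x ⬝ᵥ x)) (D.K (x ⬝ᵥ x)) (md D.K (x ⬝ᵥ x))) (x ⬝ᵥ x) := by
    refine (dN.div (dG 0 0) hp.ne').congr_deriv ?_
    have hKT := D.sK (x ⬝ᵥ x)
    generalize (D.F (x ⬝ᵥ x))⁻¹ = G at hGT hp ⊢
    generalize md D.F (x ⬝ᵥ x) = F' at hF'T ⊢
    generalize md D.K (x ⬝ᵥ x) = K'
    generalize D.K (x ⬝ᵥ x) = K at hKT ⊢
    have e1 : (G * K * (G * F' * G)) 0 0 = (G * F' * G * K * G) 0 0 := by
      have e2 : (G * K * (G * F' * G))ᵀ = G * F' * G * K * G := by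
        simp only [Matrix.transpose_mul, hGT, hKT, hF'T, Matrix.mul_assoc]
      rw [← e2]
      rfl
    simp only [k01, Matrix.add_mul, Matrix.neg_mul, Matrix.mul_neg, Matrix.add_apply,
      Matrix.neg_apply, e1]
    field_simp
    ring
  have dT : HasDerivAt T (deriv (toSca q D).P (x ⬝ᵥ x)
      + k01 (D.F (x ⬝ᵥ x))⁻¹ (md D.F (x ⬝ᵥ x)) (D.K (x ⬝ᵥ x)) (md D.K (x ⬝ᵥ x))) (x ⬝ᵥ x) := by
    have e : T = fun s => (toSca q D).P s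
        + ((D.F s)⁻¹ * D.K s * (D.F s)⁻¹) 0 0 / (D.F s)⁻¹ 0 0 := by
      funext s
      simp only [T, TT, toSca]
      ring
    rw [e]
    exact dP.hasDerivAt.add dk
  have dPm : ∀ a b, HasDerivAt (fun s => Pm s a b)
      ((md D.K (x ⬝ᵥ x)
        - k01 (D.F (x ⬝ᵥ x))⁻¹ (md D.F (x ⬝ᵥ x)) (D.K (x ⬝ᵥ x)) (md D.K (x ⬝ᵥ x)) • D.F (x ⬝ᵥ x)
        - T (x ⬝ᵥ x) • md D.F (x ⬝ᵥ x) - deriv (toSca q D).P (x ⬝ᵥ x) • D.F (x ⬝ᵥ x)) a b)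
      (x ⬝ᵥ x) := fun a b => by
    refine ((dK a b).sub (dT.mul (dF a b))).congr_deriv ?_
    simp only [Matrix.sub_apply, Matrix.smul_apply, smul_eq_mul]
    ring
  have hmd : md Pm (x ⬝ᵥ x) = md D.K (x ⬝ᵥ x)
        - k01 (D.F (x ⬝ᵥ x))⁻¹ (md D.F (x ⬝ᵥ x)) (D.K (x ⬝ᵥ x)) (md D.K (x ⬝ᵥ x)) • D.F (x ⬝ᵥ x)
        - T (x ⬝ᵥ x) • md D.F (x ⬝ᵥ x) - deriv (toSca q D).P (x ⬝ᵥ x) • D.F (x ⬝ᵥ x) := by
    ext a b
    exact (dPm a b).deriv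
  have hpd : ∀ i k j, pd i (fun y => mom (hopf J D.F D.C) (hopf J D.K D.c) y k j) x =
      Dm J x (Pm (x ⬝ᵥ x)) (md Pm (x ⬝ᵥ x)) (w (x ⬝ᵥ x)) (deriv w (x ⬝ᵥ x))
        (Pi.single i 1) k j := fun i k j => by
    rw [← hJ n J Pm w x hx (fun a b => (dPm a b).differentiableAt)
      (dc.sub (dT.differentiableAt.mul dC))]
    unfold pd
    rw [Filter.EventuallyEq.fderiv_eq (f := fun y => hopf J Pm w y k j)
      (hev.mono fun y hy => by simp only [hy])]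
  obtain ⟨hT1, -, hT3⟩ := hT n J x (D.F (x ⬝ᵥ x)) (md D.F (x ⬝ᵥ x)) (D.C (x ⬝ᵥ x))
    (deriv D.C (x ⬝ᵥ x)) hq hx (D.sF _) hF'T
  have hX : ∀ k i, ∑ j, Gam J x (D.F (x ⬝ᵥ x)) (D.F (x ⬝ᵥ x))⁻¹ (md D.F (x ⬝ᵥ x)) (D.C (x ⬝ᵥ x))
      (deriv D.C (x ⬝ᵥ x)) (Pi.single i 1) k j * (Ym J x *ᵥ ((D.F (x ⬝ᵥ x))⁻¹ *ᵥ e0)) j =
      Gam J x (D.F (x ⬝ᵥ x)) (D.F (x ⬝ᵥ x))⁻¹ (md D.F (x ⬝ᵥ x)) (D.C (x ⬝ᵥ x))
      (deriv D.C (x ⬝ᵥ x)) (Ym J x *ᵥ ((D.F (x ⬝ᵥ x))⁻¹ *ᵥ e0)) k i := fun k i => by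
    have e1 : Gam J x (D.F (x ⬝ᵥ x)) (D.F (x ⬝ᵥ x))⁻¹ (md D.F (x ⬝ᵥ x)) (D.C (x ⬝ᵥ x))
        (deriv D.C (x ⬝ᵥ x)) (Pi.single i 1) *ᵥ (Ym J x *ᵥ ((D.F (x ⬝ᵥ x))⁻¹ *ᵥ e0)) =
        Gam J x (D.F (x ⬝ᵥ x)) (D.F (x ⬝ᵥ x))⁻¹ (md D.F (x ⬝ᵥ x)) (D.C (x ⬝ᵥ x))
        (deriv D.C (x ⬝ᵥ x)) (Ym J x *ᵥ ((D.F (x ⬝ᵥ x))⁻¹ *ᵥ e0)) *ᵥ Pi.single i 1 := by
      unfold Gam
      rw [← Matrix.mulVec_mulVec, ← Matrix.mulVec_mulVec, hT3]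
    have e2 := congrFun e1 k
    rw [Matrix.mulVec_single_one] at e2
    exact e2
  simp only [cur, hpd, hC n J D x hq hx hd hC', hm x hx hd hp hC']
  simp only [hopf, blk_inv hq hx hd hC']
  rw [cur_alg _ _ _ (fun i => Dm J x _ _ _ _ (Pi.single i 1))
    (fun i => Gam J x _ _ _ _ _ (Pi.single i 1)) _ _
    (hV n J x _ _ _ _ _ hq hx (D.sF _) hGT hF'T hGF hC') hX,
    (hD n J x _ _ _ _ hq hx (hPT _) (md_T hPT _)).1 _ _ _ hGT, blk_Yv hq hx, Y_dot_Y hq]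
  unfold Gam
  rw [← Matrix.mul_assoc, ← Matrix.mul_assoc, blk_mul hq hx, blk_mul hq hx, hT1, trace_Tm hq hx,
    hmd, DD_shift _ _ _ _ _ _ _ _ _ hGF]
  have e3 : ((D.F (x ⬝ᵥ x))⁻¹ *ᵥ e0) 0 = (D.F (x ⬝ᵥ x))⁻¹ 0 0 := by simp [e0]
  simp only [JJ, Pm, w, T, e3, ← hqd]
  field_simp
  ring

end Vale.Agent.P366S
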