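import Vale.Agent.P366S.Stm2

/-! The dominant energy condition in terms of the matrices. -/

namespace Vale.Agent.P366S

open scoped Matrix
open Matrix
open Vale.Agent.P366 (Pt Ten pd chr scal trg nsq mu cur curNorm IsQuat Hor)

theorem dec_pf (hS : ScalStmt) (hK : KStmt) (hC : CurStmt) (hCs : CsStmt) (hP : PosStmt) :
    DecStmt := by
  intro n J D x hn hJ hx hF hC0 hdec
  have hdet : (D.F (x ⬝ᵥ x)).det ≠ 0 := hF.det_pos.ne'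
  have hG : ((D.F (x ⬝ᵥ x))⁻¹).PosDef := hF.inv
  have hG0 : 0 < (D.F (x ⬝ᵥ x))⁻¹ 0 0 := hG.diag_pos
  have hinv : (hopf J D.F D.C x)⁻¹ = blk J x (D.F (x ⬝ᵥ x))⁻¹ (D.C (x ⬝ᵥ x))⁻¹ :=
    blk_inv hJ hx hdet hC0.ne'
  have hpos : (hopf J D.F D.C x).PosDef :=
    (hP n J x _ _ hn hJ hx (D.sF _)).2 ⟨hF, hC0⟩
  have h1 := hCs n (hopf J D.F D.C x)⁻¹ x
    (fun j => cur (hopf J D.F D.C) (hopf J D.K D.c) j x) hpos.inv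
  have h2 : (hopf J D.F D.C x)⁻¹ *ᵥ x = Ym J x *ᵥ ((D.F (x ⬝ᵥ x))⁻¹ *ᵥ e0) := by
    rw [hinv, blk_x hJ hx]
  have h3 : ((D.F (x ⬝ᵥ x))⁻¹ *ᵥ e0) 0 = (D.F (x ⬝ᵥ x))⁻¹ 0 0 := by
    rw [e0, Matrix.mulVec_single_one]; rfl
  rw [h2, x_dot_Y hJ, h3, hC n J D x hJ hx hF hC0] at h1
  obtain ⟨k1, k2, -⟩ := hK n J D x hJ hx hdet hG0 hC0.ne'
  have h4 := h1.trans hdec
  rw [mu, hS n J D x hJ hx hF hC0, k1, k2] at h4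
  exact h4

end Vale.Agent.P366S
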