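import Vale.Agent.P366S.Stm2
import Vale.Agent.P366.Decay

/-! Decay of the matrix data from asymptotic flatness (general `Sp(m+1)` case). -/

namespace Vale.Agent.P366S

open scoped Matrix ContDiff Topology
open Filter Set Matrix
open Vale.Agent.P366 (Pt Ten rad pd Decay IsQuat dot_pos dc_abs_le dc_trace dc_squeeze)

variable {n : ℕ} {J : Fin 3 → Matrix (Fin n) (Fin n) ℝ}

theorem dcs_Y (h : IsQuat J) (x : Pt n) (i : Fin n) (a : Fin 4) : |Ym J x i a| ≤ rad x := by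
  have h1 : (J4 J a *ᵥ x) ⬝ᵥ (J4 J a *ᵥ x) = x ⬝ᵥ x := by
    have h2 : ((Ym J x)ᵀ * Ym J x) a a = (J4 J a *ᵥ x) ⬝ᵥ (J4 J a *ᵥ x) := rfl
    rw [← h2, YtY h, Matrix.smul_apply, Matrix.one_apply_eq, smul_eq_mul, mul_one]
  have h3 := dc_abs_le (J4 J a *ᵥ x) i
  rw [rad, h1] at h3
  exact h3

theorem dcs_eig (h : IsQuat J) (hn : 4 < n) {x : Pt n} (hx : x ≠ 0) (F : M4) (C m : ℝ)
    (hN : ∀ i j, |blk J x F C i j| ≤ m) :
    (∀ a b, |F a b| ≤ (5 * (n : ℝ) ^ 2) * m) ∧ |C| ≤ (5 * (n : ℝ) ^ 2) * m := by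
  have ht := dot_pos hx
  have hr : 0 ≤ rad x := Real.sqrt_nonneg _
  have hrr : rad x * rad x = x ⬝ᵥ x := Real.mul_self_sqrt ht.le
  have hm : 0 ≤ m := (abs_nonneg _).trans (hN ⟨0, by omega⟩ ⟨0, by omega⟩)
  have hn' : (5 : ℝ) ≤ n := by exact_mod_cast hn
  have e : (Ym J x)ᵀ * blk J x F C * Ym J x = (x ⬝ᵥ x) • F := by
    rw [Y_blk h hx, Matrix.mul_assoc, YtY h, Matrix.mul_smul, Matrix.mul_one]
  have hF : ∀ a b, |F a b| ≤ (n : ℝ) ^ 2 * m := by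
    intro a b
    have e1 : (x ⬝ᵥ x) * F a b = ∑ j, (∑ i, Ym J x i a * blk J x F C i j) * Ym J x j b :=
      (congrFun (congrFun e a) b).symm
    have h1 : |(x ⬝ᵥ x) * F a b| ≤ ∑ _j : Fin n, (∑ _i : Fin n, rad x * m) * rad x := by
      rw [e1]
      refine (Finset.abs_sum_le_sum_abs _ _).trans (Finset.sum_le_sum fun j _ => ?_)
      rw [abs_mul]
      refine mul_le_mul ?_ (dcs_Y h x j b) (abs_nonneg _) (by positivity)
      refine (Finset.abs_sum_le_sum_abs _ _).trans (Finset.sum_le_sum fun i _ => ?_)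
      rw [abs_mul]
      exact mul_le_mul (dcs_Y h x i a) (hN i j) (abs_nonneg _) hr
    simp only [Finset.sum_const, Finset.card_univ, Fintype.card_fin, nsmul_eq_mul] at h1
    rw [abs_mul, abs_of_pos ht] at h1
    refine le_of_mul_le_mul_left (h1.trans (le_of_eq ?_)) ht
    rw [← hrr]; ring
  have h3 := dc_trace _ m hN
  rw [blk_trace h hx] at h3
  have h5 := dc_trace F _ hF
  have hnm : 0 ≤ (n : ℝ) ^ 2 * m := by positivity
  have hnn : (n : ℝ) * m ≤ (n : ℝ) ^ 2 * m := by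
    apply mul_le_mul_of_nonneg_right _ hm
    nlinarith
  refine ⟨fun a b => by linarith [hF a b], ?_⟩
  have h4 : |((n : ℝ) - 4) * C| ≤ 5 * (n : ℝ) ^ 2 * m := by
    rw [abs_le] at h3 h5 ⊢
    push_cast at h5
    constructor <;> linarith [h5.1, h5.2, h3.1, h3.2]
  rw [abs_mul, abs_of_nonneg (by linarith : (0 : ℝ) ≤ (n : ℝ) - 4)] at h4
  nlinarith [abs_nonneg C]

theorem dcs_point (hJ : JetStmt) (hD : DivStmt) (h : IsQuat J) (hn : 4 < n) (D : Dat) (M τ : ℝ)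
    (x : Pt n) (hx : x ≠ 0)
    (hb : ∀ i j k : Fin n,
      |hopf J D.F D.C x i j - (if i = j then 1 else 0)| ≤ M * rad x ^ (-τ) ∧
      |pd k (fun y => hopf J D.F D.C y i j) x| ≤ M * rad x ^ (-τ - 1) ∧
      |hopf J D.K D.c x i j| ≤ M * rad x ^ (-1 - τ)) :
    ((∀ a b, |D.F (x ⬝ᵥ x) a b - (1 : M4) a b| ≤ (5 * (n : ℝ) ^ 2 * M) * rad x ^ (-τ)) ∧
      |D.C (x ⬝ᵥ x) - 1| ≤ (5 * (n : ℝ) ^ 2 * M) * rad x ^ (-τ)) ∧
    ((∀ a b, |(x ⬝ᵥ x) * md D.F (x ⬝ᵥ x) a b| ≤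
        (5 * (n : ℝ) ^ 2 * (n * M / 2)) * rad x ^ (-τ)) ∧
      |(x ⬝ᵥ x) * deriv D.C (x ⬝ᵥ x)| ≤ (5 * (n : ℝ) ^ 2 * (n * M / 2)) * rad x ^ (-τ)) ∧
    (∀ a b, |rad x * D.K (x ⬝ᵥ x) a b| ≤ (5 * (n : ℝ) ^ 2 * M) * rad x ^ (-τ)) ∧
      |rad x * D.c (x ⬝ᵥ x)| ≤ (5 * (n : ℝ) ^ 2 * M) * rad x ^ (-τ) := by
  have ht := dot_pos hx
  have hr : 0 < rad x := Real.sqrt_pos.2 ht
  have e1 : rad x * rad x ^ (-τ - 1) = rad x ^ (-τ) := by
    rw [Real.rpow_sub_one hr.ne']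
    field_simp
  have e2 : rad x * rad x ^ (-1 - τ) = rad x ^ (-τ) := by
    rw [← e1, show -1 - τ = -τ - 1 by ring]
  have dF : ∀ a b, DifferentiableAt ℝ (fun s => D.F s a b) (x ⬝ᵥ x) := fun a b =>
    (D.hF _ ht a b).differentiableAt (by simp)
  have dC : DifferentiableAt ℝ D.C (x ⬝ᵥ x) := (D.hC _ ht).differentiableAt (by simp)
  have g1 := dcs_eig h hn hx (D.F (x ⬝ᵥ x) - 1) (D.C (x ⬝ᵥ x) - 1)
    (M * rad x ^ (-τ)) (fun i j => by
      rw [← blk_sub, blk_one, Matrix.sub_apply, Matrix.one_apply]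
      exact (hb i j i).1)
  have g2 := dcs_eig h hn hx ((x ⬝ᵥ x) • md D.F (x ⬝ᵥ x)) ((x ⬝ᵥ x) * deriv D.C (x ⬝ᵥ x))
    ((n * M / 2) * rad x ^ (-τ)) (fun i j => by
      have hs' : (md D.F (x ⬝ᵥ x))ᵀ = md D.F (x ⬝ᵥ x) := by
        ext a b
        exact congrArg (fun f => deriv f (x ⬝ᵥ x))
          (funext fun s => congrFun (congrFun (D.sF s) a) b)
      have e := (hD n J x (D.F (x ⬝ᵥ x)) (md D.F (x ⬝ᵥ x)) (D.C (x ⬝ᵥ x))
        (deriv D.C (x ⬝ᵥ x)) h hx (D.sF _) hs').2.1 i j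
      have hs : |∑ k, x k * Dm J x (D.F (x ⬝ᵥ x)) (md D.F (x ⬝ᵥ x)) (D.C (x ⬝ᵥ x))
          (deriv D.C (x ⬝ᵥ x)) (Pi.single k 1) i j| ≤ n * (M * rad x ^ (-τ)) := by
        refine (Finset.abs_sum_le_sum_abs _ _).trans ?_
        refine (Finset.sum_le_sum (g := fun _ => M * rad x ^ (-τ)) fun k _ => ?_).trans ?_
        · rw [← hJ n J D.F D.C x hx dF dC i j k, abs_mul, ← e1]
          calc |x k| * |pd k (fun y => hopf J D.F D.C y i j) x|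
              ≤ rad x * (M * rad x ^ (-τ - 1)) :=
                mul_le_mul (dc_abs_le x k) (hb i j k).2.1 (abs_nonneg _) hr.le
            _ = M * (rad x * rad x ^ (-τ - 1)) := by ring
        · simp only [Finset.sum_const, Finset.card_univ, Fintype.card_fin, nsmul_eq_mul, le_refl]
      rw [e, mul_assoc, abs_mul, abs_two] at hs
      rw [← blk_smul, Matrix.smul_apply, smul_eq_mul]
      linarith)
  have g3 := dcs_eig h hn hx (rad x • D.K (x ⬝ᵥ x)) (rad x * D.c (x ⬝ᵥ x)) (M * rad x ^ (-τ))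
    (fun i j => by
      rw [← blk_smul, Matrix.smul_apply, smul_eq_mul, abs_mul, abs_of_pos hr, ← e2]
      calc rad x * |blk J x (D.K (x ⬝ᵥ x)) (D.c (x ⬝ᵥ x)) i j|
          ≤ rad x * (M * rad x ^ (-1 - τ)) := mul_le_mul_of_nonneg_left (hb i j i).2.2 hr.le
        _ = M * (rad x * rad x ^ (-1 - τ)) := by ring)
  simp only [← mul_assoc] at g1 g2 g3
  exact ⟨g1, g2, g3⟩

theorem decay_pf (hJ : JetStmt) (hD : DivStmt) : DecayStmt := by
  intro n J D R τ hn h _ hτ hdec T hT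
  obtain ⟨M, hM⟩ := hdec
  have hp : 2 * (((n : ℝ) - 2) / 4) < τ := by linarith
  have key : ∀ᶠ t : ℝ in atTop,
      ((∀ a b, |D.F t a b - (1 : M4) a b| ≤ (5 * (n : ℝ) ^ 2 * M) * √t ^ (-τ)) ∧
        |D.C t - 1| ≤ (5 * (n : ℝ) ^ 2 * M) * √t ^ (-τ)) ∧
      ((∀ a b, |t * md D.F t a b| ≤ (5 * (n : ℝ) ^ 2 * (n * M / 2)) * √t ^ (-τ)) ∧
        |t * deriv D.C t| ≤ (5 * (n : ℝ) ^ 2 * (n * M / 2)) * √t ^ (-τ)) ∧
      (∀ a b, |√t * D.K t a b| ≤ (5 * (n : ℝ) ^ 2 * M) * √t ^ (-τ)) ∧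
        |√t * D.c t| ≤ (5 * (n : ℝ) ^ 2 * M) * √t ^ (-τ) := by
    filter_upwards [eventually_gt_atTop (0 : ℝ), eventually_ge_atTop (R ^ 2)] with t ht hR
    let i0 : Fin n := ⟨0, by omega⟩
    let x : Pt n := Pi.single i0 (√t)
    have hxx : x ⬝ᵥ x = t := by
      simp only [x, single_dotProduct, Pi.single_eq_same]
      exact Real.mul_self_sqrt ht.le
    have hx : x ≠ 0 := by
      intro h0
      rw [h0, dotProduct_zero] at hxx
      exact ht.ne hxx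
    have hr : rad x = √t := by rw [rad, hxx]
    have hRx : R ≤ rad x := by
      rw [hr]
      exact Real.le_sqrt_of_sq_le hR
    have := dcs_point hJ hD h hn D M τ x hx (fun i j k =>
      ⟨(hM x hRx i j k k).1, (hM x hRx i j k k).2.1, (hM x hRx i j k k).2.2.2.1⟩)
    rwa [hxx, hr] at this
  subst hT
  exact ⟨fun a b => dc_squeeze _ τ _ hp _ (key.mono fun t h => h.1.1 a b),
    fun a b => dc_squeeze _ τ _ hp _ (key.mono fun t h => h.2.1.1 a b),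
    fun a b => dc_squeeze _ τ _ hp _ (key.mono fun t h => h.2.2.1 a b),
    dc_squeeze _ τ _ hp _ (key.mono fun t h => h.1.2),
    dc_squeeze _ τ _ hp _ (key.mono fun t h => h.2.1.2),
    dc_squeeze _ τ _ hp _ (key.mono fun t h => h.2.2.2)⟩

end Vale.Agent.P366S
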