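import Vale.Agent.P366S.Stm2

/-! Determinant and positivity of a block matrix, and a Cauchy-Schwarz inequality. -/

namespace Vale.Agent.P366S

open scoped Matrix
open Matrix
open Vale.Agent.P366 (Pt IsQuat Hor dot_pos sum_mul_mul)

theorem det_pf : DetStmt := by
  intro n J x F C hn h hx hC
  have ht := (dot_pos hx).ne'
  have e1 : blk J x F C = C • (1 + Ym J x * (C⁻¹ • (ph (x ⬝ᵥ x) F C * (Ym J x)ᵀ))) := by
    rw [blk_eq, smul_add, Matrix.mul_smul, smul_smul, mul_inv_cancel₀ hC, one_smul,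
      Matrix.mul_assoc]
  have e2 : 1 + C⁻¹ • (ph (x ⬝ᵥ x) F C * (Ym J x)ᵀ) * Ym J x = C⁻¹ • F := by
    rw [Matrix.smul_mul, Matrix.mul_assoc, YtY h, Matrix.mul_smul, Matrix.mul_one, ph,
      smul_smul (x ⬝ᵥ x), mul_inv_cancel₀ ht, one_smul, smul_sub, smul_smul,
      inv_mul_cancel₀ hC, one_smul, add_sub_cancel]
  obtain ⟨m, rfl⟩ : ∃ m, n = m + 4 := ⟨n - 4, by omega⟩
  rw [e1, Matrix.det_smul, Matrix.det_one_add_mul_comm, e2, Matrix.det_smul]
  simp only [Fintype.card_fin, Nat.add_sub_cancel]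
  field_simp
  ring

theorem Det_form {n : ℕ} {J : Fin 3 → Matrix (Fin n) (Fin n) ℝ} (h : IsQuat J) {x v : Pt n}
    (hx : x ≠ 0) (hv : Hor J x v) (F : M4) (C : ℝ) (p : Fin 4 → ℝ) :
    (v + Ym J x *ᵥ p) ⬝ᵥ (blk J x F C *ᵥ (v + Ym J x *ᵥ p)) =
      C * (v ⬝ᵥ v) + (x ⬝ᵥ x) * (p ⬝ᵥ (F *ᵥ p)) := by
  have e : ∀ r, v ⬝ᵥ (Ym J x *ᵥ r) = 0 := fun r => by
    rw [Matrix.dotProduct_mulVec, ← Matrix.mulVec_transpose, (hor_iff _ _).1 hv, zero_dotProduct]
  rw [Matrix.mulVec_add, blk_hor hv, blk_Yv h hx, add_dotProduct, dotProduct_add, dotProduct_add,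
    e, Y_dot_Y h, dotProduct_smul, dotProduct_smul, dotProduct_comm (Ym J x *ᵥ p), e]
  simp

theorem pos_pf : PosStmt := by
  intro n J x F C hn h hx hF
  have ht := dot_pos hx
  have hz : Hor J x 0 := (hor_iff _ _).2 (Matrix.mulVec_zero _)
  constructor
  · intro hb
    refine ⟨Matrix.PosDef.of_dotProduct_mulVec_pos hF fun p hp => ?_, ?_⟩
    · have := hb.dotProduct_mulVec_pos (x := 0 + Ym J x *ᵥ p) fun e => hp (by
        have k := YtY_mulVec h x p
        rw [zero_add] at e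
        rw [e, Matrix.mulVec_zero] at k
        exact (smul_eq_zero.1 k.symm).resolve_left ht.ne')
      rw [star_trivial, Det_form h hx hz, zero_dotProduct, mul_zero, zero_add] at this
      exact (mul_pos_iff_of_pos_left ht).1 this
    · obtain ⟨u, hu⟩ : ∃ u, blk J x 0 1 *ᵥ u ≠ 0 := by
        by_contra! k
        have e := blk_trace h hx 0 1
        have : (4 : ℝ) < n := by exact_mod_cast hn
        rw [Matrix.ext_of_mulVec_single (M := blk J x 0 1) (N := 0) fun i => by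
          rw [k, Matrix.zero_mulVec]] at e
        simp at e
        linarith
      have := hb.dotProduct_mulVec_pos hu
      rw [star_trivial, blk_hor (blk_hor_mem h hx u), dotProduct_smul] at this
      exact (mul_pos_iff_of_pos_right (dot_pos hu)).1 this
  · rintro ⟨h1, h2⟩
    refine Matrix.PosDef.of_dotProduct_mulVec_pos (show (blk J x F C)ᵀ = _ by rw [blk_T, hF])
      fun u hu => ?_
    have hv := blk_hor_mem h hx u
    have e := decomp J x u
    generalize blk J x 0 1 *ᵥ u = v at hv e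
    generalize (x ⬝ᵥ x)⁻¹ • ((Ym J x)ᵀ *ᵥ u) = p at e
    rw [star_trivial, e, Det_form h hx hv]
    by_cases hp : p = 0
    · have := dot_pos (x := v) fun k => hu (by rw [e, k, hp, Matrix.mulVec_zero, add_zero])
      rw [hp, zero_dotProduct, mul_zero, add_zero]
      positivity
    · have k : 0 < p ⬝ᵥ (F *ᵥ p) := h1.dotProduct_mulVec_pos hp
      have : 0 ≤ v ⬝ᵥ v := Finset.sum_nonneg fun i _ => mul_self_nonneg _
      positivity

theorem cs_pf : CsStmt := by
  intro n G x v hG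
  have h0 : ∀ u : Pt n, 0 ≤ u ⬝ᵥ (G *ᵥ u) := fun u => hG.posSemidef.dotProduct_mulVec_nonneg u
  have hs : x ⬝ᵥ (G *ᵥ v) = v ⬝ᵥ (G *ᵥ x) := by
    rw [Matrix.dotProduct_mulVec, ← Matrix.mulVec_transpose, show Gᵀ = G from hG.1,
      dotProduct_comm]
  have := discrim_le_zero (a := x ⬝ᵥ (G *ᵥ x)) (b := 2 * (v ⬝ᵥ (G *ᵥ x))) (c := v ⬝ᵥ (G *ᵥ v))
    fun s => (h0 (v + s • x)).trans_eq (by
      simp only [Matrix.mulVec_add, Matrix.mulVec_smul, add_dotProduct, dotProduct_add,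
        smul_dotProduct, dotProduct_smul, smul_eq_mul, hs]
      ring)
  rw [sum_mul_mul]
  refine div_le_of_le_mul₀ (Real.sqrt_nonneg _) (Real.sqrt_nonneg _) ?_
  rw [← Real.sqrt_mul (h0 v)]
  refine Real.abs_le_sqrt ?_
  rw [discrim] at this
  change (v ⬝ᵥ (G *ᵥ x)) ^ 2 ≤ _
  linarith

end Vale.Agent.P366S
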