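import Vale.Agent.P366S.Stm

/-! Eventual positivity of the two null expansions. -/

namespace Vale.Agent.P366S

open scoped Matrix ContDiff Topology
open Filter Set Matrix
open Vale.Agent.P366 (ll)

theorem evPos_div {p : ℝ} (hp : 0 < p) {f : ℝ → ℝ}
    (h : Tendsto (fun t : ℝ => t ^ p * f t) atTop (𝓝 0)) : Tendsto f atTop (𝓝 0) := by
  have h2 := (tendsto_rpow_neg_atTop hp).mul h
  rw [mul_zero] at h2
  refine h2.congr' ?_
  filter_upwards [eventually_gt_atTop (0 : ℝ)] with t ht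
  rw [← mul_assoc, ← Real.rpow_add ht, neg_add_cancel, Real.rpow_zero, one_mul]

theorem evPos_one {f : ℝ → ℝ} (h : Tendsto (fun t : ℝ => f t - 1) atTop (𝓝 0)) :
    Tendsto f atTop (𝓝 1) := by
  simpa using h.add_const 1

theorem evPos_pf : EvPosStmt := by
  intro n S hn hS
  obtain ⟨a1, -, -, -, -, a6, a7, a8, a9, a10⟩ := hS _ rfl
  have hn' : (4 : ℝ) < n := by exact_mod_cast hn
  have hp : (0 : ℝ) < ((n : ℝ) - 2) / 4 := by linarith
  have b1 := evPos_one (evPos_div hp a1)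
  have b6 := evPos_one (evPos_div hp a6)
  have b7 := evPos_div hp a7
  have b8 := evPos_div hp a8
  simp only [mul_assoc] at a9
  have b9 := (evPos_div hp (evPos_div hp a9)).add b8
  have b10 := evPos_div hp a10
  simp only [sub_add_cancel] at b9
  obtain ⟨q, hq⟩ : ∃ q : ℝ, q = (n : ℝ) - 4 := ⟨_, rfl⟩
  have q0 : 0 < q := by linarith
  rw [← hq]
  have hlC : Tendsto (ll S.C) atTop (𝓝 (1 + 0 / 1)) :=
    tendsto_const_nhds.add (b7.div b6 one_ne_zero)
  have hh1 : Tendsto (hh q S) atTop (𝓝 (3 + (0 + 0) + q * (1 + 0 / 1))) :=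
    (tendsto_const_nhds.add b9).add (hlC.const_mul q)
  have hH := hh1.mul b1.sqrt
  rw [Real.sqrt_one] at hH
  filter_upwards [(hH.add b10).eventually (lt_mem_nhds (show (0 : ℝ) < _ by linarith)),
    (hH.sub b10).eventually (lt_mem_nhds (show (0 : ℝ) < _ by linarith)),
    eventually_gt_atTop (0 : ℝ)] with t g1 g2 ht
  have hs : 0 < √t := Real.sqrt_pos.2 ht
  have k1 : √t * H1 q S t = hh q S t * √(S.p t) := by
    rw [H1, sg, Real.sqrt_div' _ ht.le]
    field_simp
  exact ⟨(mul_pos_iff_of_pos_left hs).1 (by rw [mul_add, k1]; exact g1),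
    (mul_pos_iff_of_pos_left hs).1 (by rw [mul_sub, k1]; exact g2)⟩

end Vale.Agent.P366S
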