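import Vale.Agent.P366S.Stm2
import Vale.Agent.P366.Sph

/-! The fluxes and the area for the general ansatz. -/

namespace Vale.Agent.P366S

open scoped Matrix ContDiff Topology
open Filter Set Matrix MeasureTheory
open Vale.Agent.P366 (Pt Ten rad pd trg mom sph omega cn area energyFlux momFlux IsQuat dot_pos
  sum_mul_mul)

theorem sphOdd_pf : SphOddStmt := by
  intro n r f hr h
  have e := (P366.SphAux.neg_pres (n := n)).integral_comp' fun w => f (r • w.1.ofLp)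
  have e2 : ∀ w : Metric.sphere (0 : EuclideanSpace ℝ (Fin n)) 1,
      f (r • ((MeasurableEquiv.neg _) w).1.ofLp) = -f (r • w.1.ofLp) := fun w => by
    rw [← h _ (P366.SphAux.rad_eq hr w)]
    refine congrArg f ?_
    show r • (-w.1).ofLp = _
    simp
  simp only [e2, integral_neg] at e
  rw [sph, self_eq_neg.1 e.symm, mul_zero]

namespace FluxA

variable {n : ℕ} {J : Fin 3 → Matrix (Fin n) (Fin n) ℝ}

theorem rad_sq {x : Pt n} {r : ℝ} (hr : 0 < r) (h : rad x = r) : x ≠ 0 ∧ x ⬝ᵥ x = r ^ 2 := by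
  have h0 : 0 < x ⬝ᵥ x := Real.sqrt_pos.1 (lt_of_lt_of_eq hr h.symm)
  refine ⟨fun q => ?_, ?_⟩
  · rw [q, dotProduct_zero] at h0
    exact lt_irrefl _ h0
  · rw [← h, rad, Real.sq_sqrt h0.le]

theorem dd_one (q t : ℝ) (F F' : M4) (C : ℝ) (ht : t ≠ 0) :
    DD q t 1 1 F F' C e0 = q * (F 0 0 - C) + 2 * t * F' 0 0 + 3 * F 0 0
      - (F.submatrix Fin.succ Fin.succ).trace := by
  have h1 : ∀ G : M4, (G *ᵥ e0) 0 = G 0 0 := fun G => by simp [e0]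
  have h2 : ∀ (p : Fin 4 → ℝ) (c : Fin 4), e0 ⬝ᵥ (Lq p *ᵥ Pi.single c 1) = Lq p 0 c := fun p c => by
    simp [e0]
  have h3 : ∀ (G : M4) (d a : Fin 4), (G *ᵥ Pi.single d 1) a = G a d := fun G d a => by simp
  have h4 : ∀ c : Fin 4, ∑ d, (1 : M4) c d * Lq (ph t F C *ᵥ Pi.single d 1) 0 c =
      Lq (ph t F C *ᵥ Pi.single c 1) 0 c := fun c => by
    rw [Finset.sum_eq_single c (fun k _ hk => by rw [Matrix.one_apply_ne hk.symm, zero_mul])
      (fun q => absurd (Finset.mem_univ c) q), Matrix.one_apply_eq, one_mul]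
  have l0 : ∀ p : Fin 4 → ℝ, Lq p 0 0 = p 0 := fun p => rfl
  have l1 : ∀ p : Fin 4 → ℝ, Lq p 0 1 = -p 1 := fun p => rfl
  have l2 : ∀ p : Fin 4 → ℝ, Lq p 0 2 = -p 2 := fun p => rfl
  have l3 : ∀ p : Fin 4 → ℝ, Lq p 0 3 = -p 3 := fun p => rfl
  have hp : ∀ a, ph t F C a a = t⁻¹ * (F a a - C) := fun a => by simp [ph]
  have h5 : (F.submatrix Fin.succ Fin.succ).trace = F 1 1 + F 2 2 + F 3 3 := by
    rw [Matrix.trace, Fin.sum_univ_three]
    rfl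
  rw [DD, Matrix.one_mulVec, h1, h1, Matrix.trace_one, Fintype.card_fin, h5]
  simp only [h2, h4]
  rw [Fin.sum_univ_four, l0, l1, l2, l3, h3, h3, h3, h3, Matrix.sub_apply, hp, hp, hp, hp]
  field_simp
  push_cast
  ring

theorem dens (hJ : JetStmt) (hD : DivStmt) (hH : HhStmt) (hq : IsQuat J) (D : Dat) {x : Pt n}
    (hx : x ≠ 0) (hF : (D.F (x ⬝ᵥ x)).PosDef) (r : ℝ) :
    ∑ i, ∑ j, (pd j (fun y => hopf J D.F D.C y i j) x -
      pd i (fun y => hopf J D.F D.C y j j) x) * (x i / r) =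
      F1 ((n : ℝ) - 4) (toSca ((n : ℝ) - 4) D) (x ⬝ᵥ x) / r := by
  have ht : 0 < x ⬝ᵥ x := dot_pos hx
  have hj := hJ n J D.F D.C x hx (fun a b => (D.hF _ ht a b).differentiableAt (by simp))
    ((D.hC _ ht).differentiableAt (by simp))
  have hm : (md D.F (x ⬝ᵥ x))ᵀ = md D.F (x ⬝ᵥ x) := by
    ext a b
    show deriv (fun s => D.F s b a) _ = deriv (fun s => D.F s a b) _
    refine congrArg (fun f => deriv f (x ⬝ᵥ x)) (funext fun s => ?_)
    exact congrFun (congrFun (D.sF s) a) b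
  obtain ⟨h1, h2, h4⟩ := hD n J x (D.F (x ⬝ᵥ x)) (md D.F (x ⬝ᵥ x)) (D.C (x ⬝ᵥ x))
    (deriv D.C (x ⬝ᵥ x)) hq hx (D.sF _) hm
  have h1' := h1 1 1 e0 Matrix.transpose_one
  rw [blk_one, Ym_e0, dd_one _ _ _ _ _ ht.ne'] at h1'
  have h3 := blk_trace hq hx (md D.F (x ⬝ᵥ x)) (deriv D.C (x ⬝ᵥ x))
  have h6 := (hH ((n : ℝ) - 4) D _ ht hF.det_pos.ne' (hF.inv.diag_pos (i := 0)).ne').2.2
  have h7 : (md D.F (x ⬝ᵥ x)).trace =
      md D.F (x ⬝ᵥ x) 0 0 + deriv (toSca ((n : ℝ) - 4) D).e1 (x ⬝ᵥ x) := by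
    rw [h6, Matrix.trace, Fin.sum_univ_succ]
    rfl
  generalize Dm J x (D.F (x ⬝ᵥ x)) (md D.F (x ⬝ᵥ x)) (D.C (x ⬝ᵥ x)) (deriv D.C (x ⬝ᵥ x)) = M
    at hj h1' h2 h4
  have e1 : ∑ i, ∑ j, M (Pi.single j 1) j i * x i =
      ((n : ℝ) - 4) * (D.F (x ⬝ᵥ x) 0 0 - D.C (x ⬝ᵥ x)) + 2 * (x ⬝ᵥ x) * md D.F (x ⬝ᵥ x) 0 0
        + 3 * D.F (x ⬝ᵥ x) 0 0 - ((D.F (x ⬝ᵥ x)).submatrix Fin.succ Fin.succ).trace := by
    rw [← h1', Finset.sum_comm]
    refine Finset.sum_congr rfl fun i _ => Eq.symm ?_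
    rw [Finset.sum_eq_single i (fun k _ hk => Finset.sum_eq_zero fun j _ => by
      rw [Matrix.one_apply_ne hk.symm, zero_mul, zero_mul]) (fun q => absurd (Finset.mem_univ i) q)]
    exact Finset.sum_congr rfl fun j _ => by rw [Matrix.one_apply_eq, one_mul]
  have e2 : ∑ i, ∑ j, M (Pi.single i 1) j j * x i = 2 * (x ⬝ᵥ x) *
      ((md D.F (x ⬝ᵥ x)).trace + ((n : ℝ) - 4) * deriv D.C (x ⬝ᵥ x)) := by
    rw [← h3, Finset.sum_comm, Matrix.trace, Finset.mul_sum]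
    refine Finset.sum_congr rfl fun j _ => ?_
    rw [Matrix.diag_apply, ← h2]
    exact Finset.sum_congr rfl fun i _ => mul_comm _ _
  have e3 : ∑ i, ∑ j, (pd j (fun y => hopf J D.F D.C y i j) x -
      pd i (fun y => hopf J D.F D.C y j j) x) * (x i / r) =
      ((∑ i, ∑ j, M (Pi.single j 1) j i * x i) - ∑ i, ∑ j, M (Pi.single i 1) j j * x i) / r := by
    rw [← Finset.sum_sub_distrib, Finset.sum_div]
    refine Finset.sum_congr rfl fun i _ => ?_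
    rw [← Finset.sum_sub_distrib, Finset.sum_div]
    refine Finset.sum_congr rfl fun j _ => ?_
    have h8 : M (Pi.single j 1) i j = M (Pi.single j 1) j i :=
      congrFun (congrFun (h4 (Pi.single j 1)) j) i
    rw [hj, hj, h8]
    ring
  rw [e3, e1, e2, h7, F1]
  show _ = ((((n : ℝ) - 4) + 3) * D.F (x ⬝ᵥ x) 0 0 - ((n : ℝ) - 4) * D.C (x ⬝ᵥ x)
    - ((D.F (x ⬝ᵥ x)).submatrix Fin.succ Fin.succ).trace - 2 * (x ⬝ᵥ x) *
      (deriv (toSca ((n : ℝ) - 4) D).e1 (x ⬝ᵥ x) + ((n : ℝ) - 4) * deriv D.C (x ⬝ᵥ x))) / r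
  ring

theorem hopf_neg (J : Fin 3 → Matrix (Fin n) (Fin n) ℝ) (F : ℝ → M4) (C : ℝ → ℝ) (x : Pt n) :
    hopf J F C (-x) = hopf J F C x := by
  have h : Ym J (-x) = -Ym J x := by
    rw [← neg_one_smul ℝ x, Ym_smul, neg_one_smul]
  simp only [hopf, blk, neg_dotProduct_neg, h, Matrix.transpose_neg, Matrix.neg_mul, Matrix.mul_neg,
    neg_neg]

end FluxA

open FluxA in
theorem flux_pf (hS : P366.SphStmt) (hO : SphOddStmt) (hJ : JetStmt) (hD : DivStmt)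
    (hdet : DetStmt) (hH : HhStmt) (hJac : JacStmt) : FluxStmt := by
  intro n J D r hn hq hr hF hC
  obtain ⟨hω, hs⟩ := hS n (by omega)
  have hn1 : (0 : ℝ) < (n : ℝ) - 1 := by
    have : (4 : ℝ) < n := by exact_mod_cast hn
    linarith
  refine ⟨?_, fun i => ?_, ?_⟩
  · rw [energyFlux, (hs r _ (F1 ((n : ℝ) - 4) (toSca ((n : ℝ) - 4) D) (r ^ 2) / r) hr).1
      fun x hx => by
        rw [dens hJ hD hH hq D (rad_sq hr hx).1 ((rad_sq hr hx).2 ▸ hF), (rad_sq hr hx).2], cn,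
      show n - 1 = n - 2 + 1 by omega, pow_succ]
    field_simp
  · rw [momFlux, hO n r _ hr fun x _ => ?_, mul_zero]
    have h1 : mom (hopf J D.F D.C) (hopf J D.K D.c) (-x) =
        mom (hopf J D.F D.C) (hopf J D.K D.c) x := by
      simp only [mom, trg, hopf_neg]
    rw [h1, ← Finset.sum_neg_distrib]
    refine Finset.sum_congr rfl fun j _ => ?_
    rw [Pi.neg_apply]
    ring
  · rw [area, (hs r _ √((toSca ((n : ℝ) - 4) D).e3 (r ^ 2) * D.C (r ^ 2) ^ (n - 4)) hr).1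
      fun x hx => ?_, ar1, Real.sqrt_sq hr.le]
    · show _ = r ^ (n - 1) * √((toSca ((n : ℝ) - 4) D).e3 (r ^ 2) * D.C (r ^ 2) ^ (n - 4))
      field_simp
    obtain ⟨h0, h1⟩ := rad_sq hr hx
    have h2 : ∑ i, ∑ j, (hopf J D.F D.C x)⁻¹ i j * (x i / r) * (x j / r) =
        (∑ i, ∑ j, (hopf J D.F D.C x)⁻¹ i j * x i * x j) / r ^ 2 := by
      rw [Finset.sum_div]
      refine Finset.sum_congr rfl fun i _ => ?_
      rw [Finset.sum_div]
      refine Finset.sum_congr rfl fun j _ => ?_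
      ring
    have h3 : ((D.F (r ^ 2))⁻¹ *ᵥ e0) 0 = (D.F (r ^ 2))⁻¹ 0 0 := by simp [e0]
    have h4 : (toSca ((n : ℝ) - 4) D).e3 (r ^ 2) = (D.F (r ^ 2)).det * (D.F (r ^ 2))⁻¹ 0 0 :=
      (hJac.1 _ hF.det_pos.ne').symm
    rw [h2, sum_mul_mul, hopf, h1, blk_inv hq h0 hF.det_pos.ne' hC.ne', blk_x hq h0,
      hdet n J x _ _ hn hq h0 hC.ne', x_dot_Y hq, h1, h3, h4]
    refine congrArg Real.sqrt ?_
    field_simp

end Vale.Agent.P366S
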