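import Vale.Agent.P366S.Stm2

/-! Contractions of the first jet (general `Sp(m+1)` case). -/

namespace Vale.Agent.P366S

open scoped Matrix
open Matrix
open Vale.Agent.P366 (Pt IsQuat Hor dot_pos)

namespace GxDivAux

variable {n : ℕ} {J : Fin 3 → Matrix (Fin n) (Fin n) ℝ}

theorem rq_lq (p a : Fin 4 → ℝ) : Rq p *ᵥ a = Lq a *ᵥ p := by
  ext i
  fin_cases i <;> simp [Rq, Lq, Matrix.mulVec, dotProduct, Fin.sum_univ_four] <;> ring

theorem sum_lq {Γ : M4} (hΓ : Γᵀ = Γ) (a : Fin 4 → ℝ) :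
    ∑ c, ∑ d, Γ c d * (Pi.single d 1 ⬝ᵥ (Lq a *ᵥ Pi.single c 1)) = a 0 * Γ.trace := by
  have e : ∀ c d, Γ c d = Γ d c := fun c d => (congrFun (congrFun hΓ c) d).symm
  simp only [single_dotProduct, one_mul, Matrix.mulVec_single_one, Matrix.col_apply,
    Fin.sum_univ_four, Matrix.trace, Matrix.diag_apply]
  simp [Lq]
  rw [e 1 0, e 2 0, e 3 0, e 2 1, e 3 1, e 3 2]
  ring

theorem sum_fst (Γ : M4) (m : Fin 4 → ℝ) :
    ∑ c, ∑ d, Γ c d * ((Pi.single c 1 : Fin 4 → ℝ) 0 * (Pi.single d 1 ⬝ᵥ m)) = (Γ *ᵥ m) 0 := by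
  simp [Fin.sum_univ_four, Matrix.mulVec, dotProduct, Pi.single_apply]

theorem ph_T (t : ℝ) {F : M4} (hF : Fᵀ = F) (C : ℝ) : (ph t F C)ᵀ = ph t F C := by
  rw [ph, transpose_smul, transpose_sub, transpose_smul, transpose_one, hF]

/-- `Dm` as a linear map. -/
noncomputable def DL (J : Fin 3 → Matrix (Fin n) (Fin n) ℝ) (x : Pt n) (F F' : M4) (C C' : ℝ) :
    Pt n →ₗ[ℝ] Matrix (Fin n) (Fin n) ℝ where
  toFun := Dm J x F F' C C'
  map_add' u v := by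
    simp only [Dm, Ym_add, dotProduct_add, transpose_add, Matrix.add_mul, Matrix.mul_add]
    module
  map_smul' c u := by
    simp only [Dm, Ym_smul, dotProduct_smul, transpose_smul, Matrix.smul_mul, Matrix.mul_smul,
      RingHom.id_apply, smul_eq_mul]
    module

theorem dm_self {x : Pt n} (hx : x ≠ 0) (F F' : M4) (C C' : ℝ) :
    Dm J x F F' C C' x = (2 * (x ⬝ᵥ x)) • blk J x F' C' := by
  have ht := (dot_pos hx).ne'
  simp only [Dm, blk, Matrix.mul_sub, Matrix.sub_mul]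
  match_scalars <;> field_simp <;> ring

theorem dm_Y (h : IsQuat J) {x : Pt n} (hx : x ≠ 0) (F F' : M4) (C C' : ℝ) (u : Pt n)
    (s : Fin 4 → ℝ) : Dm J x F F' C C' u *ᵥ (Ym J x *ᵥ s) =
      (2 * (x ⬝ᵥ u)) • (Ym J x *ᵥ ((F' - ph (x ⬝ᵥ x) F C) *ᵥ s))
        + (x ⬝ᵥ x) • (Ym J u *ᵥ (ph (x ⬝ᵥ x) F C *ᵥ s))
        + Ym J x *ᵥ (ph (x ⬝ᵥ x) F C *ᵥ ((Ym J u)ᵀ *ᵥ (Ym J x *ᵥ s))) := by
  rw [Dm, Matrix.add_mulVec, Matrix.add_mulVec, Matrix.smul_mulVec, blk_Yv h hx]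
  simp only [← Matrix.mulVec_mulVec, YtY_mulVec h, Matrix.mulVec_smul]

theorem b_hor (h : IsQuat J) {x : Pt n} (hx : x ≠ 0) (F F' : M4) (C C' : ℝ) (s : Fin 4 → ℝ)
    {v : Pt n} (hv : Hor J x v) : v ⬝ᵥ (Dm J x F F' C C' v *ᵥ (Ym J x *ᵥ s)) =
      (x ⬝ᵥ x) * (ph (x ⬝ᵥ x) F C *ᵥ s) 0 * (v ⬝ᵥ v) := by
  have e : ∀ a, v ⬝ᵥ (Ym J x *ᵥ a) = 0 := fun a => by
    rw [Matrix.dotProduct_mulVec, ← Matrix.mulVec_transpose, (hor_iff x v).1 hv, zero_dotProduct]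
  rw [dm_Y h hx, dotProduct_add, dotProduct_add, dotProduct_smul, dotProduct_smul, e, e,
    x_dot_Y h, smul_eq_mul, smul_eq_mul]
  ring

theorem b_Y (h : IsQuat J) {x : Pt n} (hx : x ≠ 0) {F : M4} (hF : Fᵀ = F) (F' : M4) (C C' : ℝ)
    (s p r : Fin 4 → ℝ) :
    (Ym J x *ᵥ r) ⬝ᵥ (Dm J x F F' C C' (Ym J x *ᵥ p) *ᵥ (Ym J x *ᵥ s)) =
      (x ⬝ᵥ x) ^ 2 * (2 * (p 0 * (r ⬝ᵥ ((F' - ph (x ⬝ᵥ x) F C) *ᵥ s)))
        + r ⬝ᵥ (Lq (ph (x ⬝ᵥ x) F C *ᵥ s) *ᵥ p) + s ⬝ᵥ (Lq (ph (x ⬝ᵥ x) F C *ᵥ r) *ᵥ p)) := by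
  have e : r ⬝ᵥ (ph (x ⬝ᵥ x) F C *ᵥ ((Rq p)ᵀ *ᵥ s)) = s ⬝ᵥ (Lq (ph (x ⬝ᵥ x) F C *ᵥ r) *ᵥ p) := by
    rw [← rq_lq, Matrix.dotProduct_mulVec r, ← Matrix.mulVec_transpose, ph_T _ hF,
      Matrix.dotProduct_mulVec s, ← Matrix.mulVec_transpose, dotProduct_comm]
  rw [dm_Y h hx, Ym_Y h, x_dot_Y h, transpose_mul]
  simp only [← Matrix.mulVec_mulVec, YtY_mulVec h, Matrix.mulVec_smul, dotProduct_add,
    dotProduct_smul, Y_dot_Y h, smul_eq_mul, rq_lq, e]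
  ring

end GxDivAux

open GxDivAux

theorem div_pf : DivStmt := by
  intro n J x F F' C C' h hx hF hF'
  have ht := (dot_pos hx).ne'
  refine ⟨fun Γ γ s hΓ => ?_, fun i j => ?_, fun u => ?_⟩
  · have key := contract h hx (LinearMap.mk₂ ℝ
      (fun u v => v ⬝ᵥ (DL J x F F' C C' u *ᵥ (Ym J x *ᵥ s)))
      (fun a b v => by rw [map_add, Matrix.add_mulVec, dotProduct_add])
      (fun c a v => by rw [map_smul, Matrix.smul_mulVec, dotProduct_smul])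
      (fun u a b => add_dotProduct _ _ _) (fun c u a => smul_dotProduct _ _ _)) Γ γ
      ((x ⬝ᵥ x) * (ph (x ⬝ᵥ x) F C *ᵥ s) 0) (fun v hv => b_hor h hx F F' C C' s hv)
    have e : ∀ i k, ∑ j, blk J x Γ γ i k * Dm J x F F' C C' (Pi.single i 1) k j *
        (Ym J x *ᵥ s) j = blk J x Γ γ i k *
          (Pi.single k 1 ⬝ᵥ (Dm J x F F' C C' (Pi.single i 1) *ᵥ (Ym J x *ᵥ s))) := by
      intro i k
      rw [single_dotProduct, one_mul, Matrix.mulVec, dotProduct, Finset.mul_sum]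
      simp only [mul_assoc]
    simp only [e]
    refine key.trans ?_
    change (x ⬝ᵥ x)⁻¹ * ∑ c, ∑ d, Γ c d * ((Ym J x *ᵥ Pi.single d 1) ⬝ᵥ
      (Dm J x F F' C C' (Ym J x *ᵥ Pi.single c 1) *ᵥ (Ym J x *ᵥ s))) + _ = _
    simp only [b_Y h hx hF]
    have e2 : ∀ (a b c g t : ℝ), g * (t * (2 * a + b + c)) =
        t * 2 * (g * a) + t * (g * b) + t * (g * c) := fun a b c g t => by ring
    simp only [e2, Finset.sum_add_distrib, ← Finset.mul_sum, sum_fst, sum_lq hΓ, DD]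
    field_simp
    ring
  · have e : Dm J x F F' C C' x = ∑ k, x k • Dm J x F F' C C' (Pi.single k 1) := by
      change DL J x F F' C C' x = ∑ k, x k • DL J x F F' C C' (Pi.single k 1)
      simp only [← map_smul, ← map_sum]
      rw [← pi_eq_sum_univ' x]
    have e2 := congrFun (congrFun (e.symm.trans (dm_self hx F F' C C')) i) j
    simpa [Matrix.sum_apply] using e2
  · simp only [Dm, transpose_add, transpose_smul, transpose_mul, transpose_transpose, blk_T,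
      transpose_sub, ph_T _ hF, hF', Matrix.mul_assoc]
    abel

end Vale.Agent.P366S
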