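import Vale.Agent.P366S.Stm2

/-! The mean curvature of the coordinate spheres (general `Sp(m+1)` case). -/

namespace Vale.Agent.P366S

open scoped Matrix ContDiff Topology
open Filter Set Matrix
open Vale.Agent.P366 (Pt Ten pd chr IsQuat Hor meanCurv gradNorm nu dot_pos sum_mul_mul)

namespace HAux

theorem rq_dot (z a : Fin 4 → ℝ) : z ⬝ᵥ (Rq z *ᵥ a) = a 0 * (z ⬝ᵥ z) := by
  simp [Rq, dotProduct, Matrix.mulVec, Fin.sum_univ_four]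
  ring

theorem lq_dot (z a : Fin 4 → ℝ) : z ⬝ᵥ (Lq a *ᵥ z) = a 0 * (z ⬝ᵥ z) := by
  simp [Lq, dotProduct, Matrix.mulVec, Fin.sum_univ_four]
  ring

theorem e0_dot (z : Fin 4 → ℝ) : e0 ⬝ᵥ z = z 0 := by simp [e0]

theorem dot_e0 (z : Fin 4 → ℝ) : z ⬝ᵥ e0 = z 0 := by simp [e0]

theorem th_zz (t : ℝ) (F F' : M4) (C : ℝ) (z : Fin 4 → ℝ) :
    z ⬝ᵥ (Th t F F' C z *ᵥ z) = z 0 * (z ⬝ᵥ ((F' - ph t F C) *ᵥ z))
      + (z ⬝ᵥ (ph t F C *ᵥ e0)) * (z ⬝ᵥ z) := by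
  unfold Th
  generalize ph t F C = φ
  generalize F' - φ = M
  simp only [Matrix.add_mulVec, Matrix.sub_mulVec, Matrix.smul_mulVec, Matrix.one_mulVec,
    ← Matrix.mulVec_mulVec, Matrix.vecMulVec_mulVec, op_smul_eq_smul, dotProduct_add,
    dotProduct_sub, dotProduct_smul, smul_eq_mul, rq_dot, lq_dot, e0_dot, dot_e0]
  rw [dotProduct_comm (M *ᵥ z) z]
  ring

theorem th_val (t : ℝ) (F G F' : M4) (C : ℝ) (hF : Fᵀ = F) (hG : Gᵀ = G) (h : F * G = 1) :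
    (G *ᵥ e0) ⬝ᵥ (Th t F F' C (G *ᵥ e0) *ᵥ (G *ᵥ e0)) =
      G 0 0 * (G * F' * G) 0 0 + t⁻¹ * ((G *ᵥ e0) ⬝ᵥ (G *ᵥ e0) - G 0 0 ^ 2) := by
  have z0 : (G *ᵥ e0) 0 = G 0 0 := by simp [e0]
  have h1 : (G *ᵥ e0) ⬝ᵥ (F' *ᵥ (G *ᵥ e0)) = (G * F' * G) 0 0 := by
    rw [dotProduct_comm, Matrix.dotProduct_mulVec, ← Matrix.mulVec_transpose, hG, dot_e0,
      Matrix.mulVec_mulVec, Matrix.mulVec_mulVec]
    simp [e0]
  have h2 : F *ᵥ (G *ᵥ e0) = e0 := by rw [Matrix.mulVec_mulVec, h, Matrix.one_mulVec]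
  have h3 : (G *ᵥ e0) ⬝ᵥ (F *ᵥ e0) = 1 := by
    rw [Matrix.dotProduct_mulVec, ← Matrix.mulVec_transpose, hF, h2]
    simp [e0]
  rw [th_zz]
  unfold ph
  simp only [Matrix.sub_mulVec, Matrix.smul_mulVec, Matrix.one_mulVec, dotProduct_sub,
    dotProduct_smul, smul_eq_mul, h1, h2, h3, dot_e0, z0]
  ring

theorem num {n : ℕ} (M : Matrix (Fin n) (Fin n) ℝ) (W x : Pt n) (s : ℝ)
    (Γ : Fin n → Fin n → Fin n → ℝ) :
    ∑ i, ∑ j, (M i j - W i / s * (W j / s)) * ((if i = j then 1 else 0) - ∑ k, Γ k i j * x k) =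
      M.trace - ∑ k, (∑ i, ∑ j, M i j * Γ k i j) * x k - (W ⬝ᵥ W) / (s * s)
        + (∑ k, (∑ i, (∑ j, Γ k i j * W j) * W i) * x k) / (s * s) := by
  have e1 : ∑ k, (∑ i, ∑ j, M i j * Γ k i j) * x k = ∑ i, ∑ j, M i j * ∑ k, Γ k i j * x k := by
    simp only [Finset.sum_mul, Finset.mul_sum]
    rw [Finset.sum_comm]
    refine Finset.sum_congr rfl fun i _ => ?_
    rw [Finset.sum_comm]
    exact Finset.sum_congr rfl fun k _ => Finset.sum_congr rfl fun l _ => by ring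
  have e2 : (∑ k, (∑ i, (∑ j, Γ k i j * W j) * W i) * x k) / (s * s) =
      ∑ i, ∑ j, W i / s * (W j / s) * ∑ k, Γ k i j * x k := by
    simp only [Finset.sum_mul, Finset.mul_sum, Finset.sum_div]
    rw [Finset.sum_comm]
    refine Finset.sum_congr rfl fun i _ => ?_
    rw [Finset.sum_comm]
    exact Finset.sum_congr rfl fun k _ => Finset.sum_congr rfl fun l _ => by ring
  have e3 : (W ⬝ᵥ W) / (s * s) = ∑ i, W i / s * (W i / s) := by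
    simp only [dotProduct, Finset.sum_div]
    exact Finset.sum_congr rfl fun k _ => by ring
  rw [e1, e2, e3, Matrix.trace]
  simp only [mul_sub, sub_mul, Finset.sum_sub_distrib, mul_ite, mul_one, mul_zero,
    Finset.sum_ite_eq, Finset.mem_univ, if_true, Matrix.diag_apply]
  ring

end HAux

open HAux

theorem h_pf (hC : ChrStmt) (hT : TmStmt) (hV : VStmt) (h0 : V0Stmt) (hH : HhStmt) : HStmt := by
  intro n J D x h hx hF hC0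
  have ht := dot_pos hx
  have hdet : (D.F (x ⬝ᵥ x)).det ≠ 0 := hF.det_pos.ne'
  have hp : 0 < (D.F (x ⬝ᵥ x))⁻¹ 0 0 := hF.inv.diag_pos
  have sF := D.sF (x ⬝ᵥ x)
  have sG : ((D.F (x ⬝ᵥ x))⁻¹)ᵀ = (D.F (x ⬝ᵥ x))⁻¹ := by rw [Matrix.transpose_nonsing_inv, sF]
  have sF' : (md D.F (x ⬝ᵥ x))ᵀ = md D.F (x ⬝ᵥ x) := by
    ext a b
    show deriv (fun s => D.F s b a) _ = deriv (fun s => D.F s a b) _
    refine congrArg (fun f => deriv f _) (funext fun s => ?_)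
    exact congrFun (congrFun (D.sF s) a) b
  have GF := Matrix.nonsing_inv_mul _ (Ne.isUnit hdet)
  have FG := Matrix.mul_nonsing_inv _ (Ne.isUnit hdet)
  have hg : (hopf J D.F D.C x)⁻¹ = blk J x (D.F (x ⬝ᵥ x))⁻¹ (D.C (x ⬝ᵥ x))⁻¹ :=
    blk_inv h hx hdet hC0.ne'
  have hc := hC n J D x h hx hdet hC0.ne'
  have hh1 := (hH ((n : ℝ) - 4) D _ ht hdet hp.ne').1
  unfold meanCurv nu gradNorm H1 sg
  rw [hh1, hg]
  simp only [hc]
  show _ = _ * √((D.F (x ⬝ᵥ x))⁻¹ 0 0 / (x ⬝ᵥ x))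
  generalize (D.F (x ⬝ᵥ x))⁻¹ = G at *
  generalize md D.F (x ⬝ᵥ x) = F' at *
  generalize deriv D.C (x ⬝ᵥ x) = C' at *
  generalize D.F (x ⬝ᵥ x) = F at *
  generalize D.C (x ⬝ᵥ x) = C at *
  have hv := hV n J x F G F' C C' h hx sF sG sF' GF hC0.ne'
  obtain ⟨t1, -, t3⟩ := hT n J x F F' C C' h hx sF sF'
  have v1 := (h0 ((n : ℝ) - 4) _ F G F' C C' ht.ne' hC0.ne' sF sG sF' GF).1
  have z0 : (G *ᵥ e0) 0 = G 0 0 := by simp [e0]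
  have eW : ∀ i, ∑ j, blk J x G C⁻¹ i j * x j = (Ym J x *ᵥ (G *ᵥ e0)) i := fun i =>
    congrFun (blk_x h hx G C⁻¹) i
  have eN : ∑ i, ∑ j, blk J x G C⁻¹ i j * x i * x j = (x ⬝ᵥ x) * G 0 0 := by
    rw [sum_mul_mul, blk_x h hx, x_dot_Y h, z0]
  have hs : 0 < (x ⬝ᵥ x) * G 0 0 := mul_pos ht hp
  have e1 : ∑ k, (Ym J x *ᵥ Vh ((n : ℝ) - 4) (x ⬝ᵥ x) F G F' C C') k * x k =
      v0 ((n : ℝ) - 4) (x ⬝ᵥ x) G F' C C' := by
    rw [← v1, ← x_dot_Y h]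
    exact dotProduct_comm _ x
  have e2 : ∀ (W : Pt n) k, ∑ i, (∑ j, Gam J x F G F' C C' (Pi.single i 1) k j * W j) * W i =
      (blk J x G C⁻¹ *ᵥ (Tm J x F F' C C' W *ᵥ W)) k := by
    intro W k
    rw [Matrix.mulVec_mulVec]
    refine Finset.sum_congr rfl fun i _ => congrArg (· * W i) ?_
    show (Gam J x F G F' C C' (Pi.single i 1) *ᵥ W) k = _
    unfold Gam
    rw [← Matrix.mulVec_mulVec, t3, Matrix.mulVec_mulVec, Matrix.mulVec_single_one]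
    rfl
  have e3 : ∑ k, (blk J x G C⁻¹ *ᵥ (Tm J x F F' C C' (Ym J x *ᵥ (G *ᵥ e0)) *ᵥ
      (Ym J x *ᵥ (G *ᵥ e0)))) k * x k = (x ⬝ᵥ x) * ((x ⬝ᵥ x) *
      (G 0 0 * (G * F' * G) 0 0 + (x ⬝ᵥ x)⁻¹ * ((G *ᵥ e0) ⬝ᵥ (G *ᵥ e0) - G 0 0 ^ 2))) := by
    show (blk J x G C⁻¹ *ᵥ _) ⬝ᵥ x = _
    rw [dotProduct_comm, Matrix.dotProduct_mulVec, ← Matrix.mulVec_transpose, blk_T, sG,
      blk_x h hx, t1, Matrix.add_mulVec, ← Matrix.mulVec_mulVec _ _ (blk J x 0 1), blk_Yv h hx,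
      Matrix.zero_mulVec, Matrix.mulVec_zero, Matrix.mulVec_zero, add_zero,
      ← Matrix.mulVec_mulVec _ _ (Ym J x)ᵀ, YtY_mulVec h, ← Matrix.mulVec_mulVec _ (Ym J x),
      Y_dot_Y h, Matrix.mulVec_smul, dotProduct_smul, smul_eq_mul, th_val _ F G F' C sF sG FG]
  simp only [eW, eN]
  rw [num _ _ x _ fun k i j => Gam J x F G F' C C' (Pi.single i 1) k j]
  simp only [hv, e2]
  rw [e1, e3, Y_dot_Y h, blk_trace h hx, Real.mul_self_sqrt hs.le]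
  have e4 : √(G 0 0 / (x ⬝ᵥ x)) = G 0 0 / √((x ⬝ᵥ x) * G 0 0) := by
    rw [Real.sqrt_eq_iff_mul_self_eq (by positivity) (by positivity), div_mul_div_comm,
      Real.mul_self_sqrt hs.le]
    field_simp
  rw [e4, ← mul_div_assoc]
  congr 1
  unfold v0 hA
  have := hp.ne'
  have := ht.ne'
  field_simp
  ring

end Vale.Agent.P366S
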