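import Vale.Agent.P366S.Stm2

/-! The function `hh` and the traces of `K` in terms of the matrices. -/

namespace Vale.Agent.P366S

open scoped Matrix ContDiff Topology
open Filter Set Matrix
open Vale.Agent.P366 (Pt Ten trg nsq trS nu gradNorm IsQuat ll dot_pos sum_mul_mul sum_mul_trace)

theorem hh_pf (hJ : JacStmt) : HhStmt := by
  intro q D t ht hd hp
  obtain ⟨-, -, j3, j4⟩ := hJ.2 D.F t (D.hF t ht) hd
  have ev : (toSca q D).e3 =ᶠ[𝓝 t] fun s => (D.F s).det * (D.F s)⁻¹ 0 0 := by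
    filter_upwards [j4.continuousAt.eventually_ne hd] with s hs
    exact (hJ.1 _ hs).symm
  have e0' : (toSca q D).e3 t = (D.F t).det * (D.F t)⁻¹ 0 0 := ev.self_of_nhds
  have d3 : deriv (toSca q D).e3 t = (toSca q D).e3 t * (((D.F t)⁻¹ * md D.F t).trace
      - ((D.F t)⁻¹ * md D.F t * (D.F t)⁻¹) 0 0 / (D.F t)⁻¹ 0 0) := by
    rw [ev.deriv_eq, (j4.fun_mul (j3 0 0)).deriv, e0']
    field_simp
    ring
  refine ⟨?_, d3, ?_⟩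
  · have h3 : (toSca q D).e3 t ≠ 0 := e0' ▸ mul_ne_zero hd hp
    have hC : (toSca q D).C = D.C := rfl
    rw [hh, d3, hA, ww, ll, hC, mul_div_assoc, mul_div_cancel_left₀ _ h3]
    ring
  · have e1 : (toSca q D).e1 = fun s => ∑ a : Fin 3, D.F s a.succ a.succ := rfl
    rw [e1, deriv_fun_sum fun a _ => (D.hF t ht _ _).differentiableAt (by simp)]
    rfl

namespace HhAux

variable {n : ℕ}

theorem nsq_eq (G K : Matrix (Fin n) (Fin n) ℝ) :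
    ∑ i, ∑ j, ∑ k, ∑ l, G i k * G j l * K i j * K k l = (Kᵀ * (G * K * Gᵀ)).trace := by
  rw [← sum_mul_trace]
  refine Finset.sum_congr rfl fun i _ => Finset.sum_congr rfl fun j _ => ?_
  simp only [Matrix.mul_apply, Matrix.transpose_apply, Finset.sum_mul, Finset.mul_sum]
  rw [Finset.sum_comm]
  exact Finset.sum_congr rfl fun k _ => Finset.sum_congr rfl fun l _ => by ring

theorem quad {G : M4} (hG : Gᵀ = G) (K : M4) :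
    (G *ᵥ e0) ⬝ᵥ (K *ᵥ (G *ᵥ e0)) = (G * K * G) 0 0 := by
  have g : ∀ a, G a 0 = G 0 a := fun a => congrFun (congrFun hG 0) a
  simp [e0, Matrix.mul_apply, mulVec, dotProduct, Fin.sum_univ_four, g]
  ring

end HhAux

open HhAux in
theorem k_pf : KStmt := by
  intro n J D x h hx hd hp hC
  have ht := dot_pos hx
  have hg : (hopf J D.F D.C x)⁻¹ = blk J x (D.F (x ⬝ᵥ x))⁻¹ (D.C (x ⬝ᵥ x))⁻¹ :=
    blk_inv h hx hd hC
  have hK : hopf J D.K D.c x = blk J x (D.K (x ⬝ᵥ x)) (D.c (x ⬝ᵥ x)) := rfl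
  have sG : ((D.F (x ⬝ᵥ x))⁻¹)ᵀ = (D.F (x ⬝ᵥ x))⁻¹ := by
    rw [Matrix.transpose_nonsing_inv, D.sF]
  have h1 : trg (hopf J D.F D.C) (hopf J D.K D.c) x =
      TT ((n : ℝ) - 4) (D.F (x ⬝ᵥ x))⁻¹ (D.K (x ⬝ᵥ x)) (D.C (x ⬝ᵥ x)) (D.c (x ⬝ᵥ x)) := by
    unfold trg TT
    rw [hg, hK, sum_mul_trace, blk_T, blk_mul h hx, blk_trace h hx, sG]
    ring
  refine ⟨h1, ?_, ?_⟩
  · unfold nsq
    rw [hg, hK, nsq_eq, blk_T, blk_T, blk_mul h hx, blk_mul h hx, blk_mul h hx, blk_trace h hx, sG,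
      D.sK, Matrix.trace_mul_comm, Matrix.mul_assoc (_ * _)]
    ring
  · have hn : gradNorm (hopf J D.F D.C) x = √((x ⬝ᵥ x) * (D.F (x ⬝ᵥ x))⁻¹ 0 0) := by
      unfold gradNorm
      rw [hg, sum_mul_mul, blk_x h hx, x_dot_Y h]
      simp [e0]
    have hnu : ∀ i, nu (hopf J D.F D.C) x i =
        (Ym J x *ᵥ ((D.F (x ⬝ᵥ x))⁻¹ *ᵥ e0)) i / √((x ⬝ᵥ x) * (D.F (x ⬝ᵥ x))⁻¹ 0 0) := by
      intro i
      unfold nu
      rw [hn, hg, ← blk_x h hx _ (D.C (x ⬝ᵥ x))⁻¹]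
      rfl
    have h2 : ∑ i, ∑ j, nu (hopf J D.F D.C) x i * nu (hopf J D.F D.C) x j * hopf J D.K D.c x i j =
        ((D.F (x ⬝ᵥ x))⁻¹ * D.K (x ⬝ᵥ x) * (D.F (x ⬝ᵥ x))⁻¹) 0 0 / (D.F (x ⬝ᵥ x))⁻¹ 0 0 := by
      have e := sum_mul_mul (hopf J D.K D.c x) (Ym J x *ᵥ ((D.F (x ⬝ᵥ x))⁻¹ *ᵥ e0))
        (Ym J x *ᵥ ((D.F (x ⬝ᵥ x))⁻¹ *ᵥ e0))
      rw [show hopf J D.K D.c x *ᵥ (Ym J x *ᵥ ((D.F (x ⬝ᵥ x))⁻¹ *ᵥ e0)) = _ from
        blk_Yv h hx _ _ _, Y_dot_Y h, quad sG] at e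
      rw [← mul_div_mul_left _ _ ht.ne', ← e, Finset.sum_div]
      refine Finset.sum_congr rfl fun i _ => ?_
      rw [Finset.sum_div]
      refine Finset.sum_congr rfl fun j _ => ?_
      rw [hnu, hnu, div_mul_div_comm, Real.mul_self_sqrt (mul_pos ht hp).le]
      ring
    have h3 : (toSca ((n : ℝ) - 4) D).P (x ⬝ᵥ x) =
        ((D.F (x ⬝ᵥ x))⁻¹ * D.K (x ⬝ᵥ x)).trace
          - ((D.F (x ⬝ᵥ x))⁻¹ * D.K (x ⬝ᵥ x) * (D.F (x ⬝ᵥ x))⁻¹) 0 0 / (D.F (x ⬝ᵥ x))⁻¹ 0 0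
          + ((n : ℝ) - 4) * (D.c (x ⬝ᵥ x) / D.C (x ⬝ᵥ x)) := rfl
    unfold trg TT at h1
    unfold trS
    simp only [sub_mul, Finset.sum_sub_distrib]
    rw [h1, h2, h3]
    ring

end Vale.Agent.P366S
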