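import Vale.Agent.P366S.Stm2
import Vale.Agent.P366.Jet

/-! First derivatives and smoothness of the ansatz (general `Sp(m+1)` case). -/

namespace Vale.Agent.P366S

open scoped Matrix ContDiff Topology
open Filter Set Matrix
open Vale.Agent.P366 (Pt Ten pd IsQuat JHD jet_dot_ne)

namespace JetA

variable {n : ℕ}

theorem ent (A B : Matrix (Fin n) (Fin 4) ℝ) (P : M4) (i j : Fin n) :
    (A * P * Bᵀ) i j = ∑ b, ∑ a, A i a * P a b * B j b := by
  simp only [Matrix.mul_apply, Matrix.transpose_apply, Finset.sum_mul]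

theorem ph_ent (t : ℝ) (F : M4) (C : ℝ) (a b : Fin 4) :
    ph t F C a b = t⁻¹ * (F a b - C * (1 : M4) a b) := rfl

theorem blk_ent (J : Fin 3 → Matrix (Fin n) (Fin n) ℝ) (y : Pt n) (F : M4) (C : ℝ) (i j : Fin n) :
    blk J y F C i j = C * (1 : Matrix (Fin n) (Fin n) ℝ) i j
      + ∑ b, ∑ a, Ym J y i a * ph (y ⬝ᵥ y) F C a b * Ym J y j b := by
  rw [blk_eq, Matrix.add_apply, ent]
  rfl

theorem dY (J : Fin 3 → Matrix (Fin n) (Fin n) ℝ) (x u : Pt n) (i : Fin n) (a : Fin 4) :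
    JHD (fun y => Ym J y i a) x u (Ym J u i a) := JHD.mv (J4 J a) i

theorem tr0 {M : Matrix (Fin n) (Fin n) ℝ} (h : Mᵀ = -M) (k : Fin n) :
    (M *ᵥ Pi.single k 1) k = 0 := by
  have h1 : M k k = -M k k := congrFun (congrFun h k) k
  rw [Matrix.mulVec_single_one]
  change M k k = 0
  linarith

end JetA

open JetA in
theorem jet_pf : JetStmt := by
  intro n J F C x hx hF hC i j k
  have ht := jet_dot_ne hx
  obtain ⟨u, hu⟩ : ∃ u : Pt n, u = Pi.single k 1 := ⟨_, rfl⟩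
  have d0 : JHD (fun y => y ⬝ᵥ y) x u (2 * (x ⬝ᵥ u)) := JHD.dot
  have dC := d0.comp hC.hasDerivAt
  have dI := d0.comp (hasDerivAt_inv ht)
  have dE : ∀ a b, JHD (fun y => ph (y ⬝ᵥ y) (F (y ⬝ᵥ y)) (C (y ⬝ᵥ y)) a b) x u
      (2 * (x ⬝ᵥ u) * ph (x ⬝ᵥ x) (md F (x ⬝ᵥ x) - ph (x ⬝ᵥ x) (F (x ⬝ᵥ x)) (C (x ⬝ᵥ x)))
        (deriv C (x ⬝ᵥ x)) a b) := fun a b => by
    refine (dI.mul ((d0.comp (hF a b).hasDerivAt).sub
      (dC.mul (JHD.const ((1 : M4) a b))))).congr ?_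
    rw [ph_ent, Matrix.sub_apply, ph_ent]
    have e : md F (x ⬝ᵥ x) a b = deriv (fun s => F s a b) (x ⬝ᵥ x) := rfl
    rw [e]
    field_simp
    ring
  have dT := (dC.mul (JHD.const ((1 : Matrix (Fin n) (Fin n) ℝ) i j))).add
    (JHD.sum Finset.univ fun b => JHD.sum Finset.univ fun a =>
      ((dY J x u i a).mul (dE a b)).mul (dY J x u j b))
  have e : (fun y => hopf J F C y i j) = _ := funext fun y => blk_ent J y _ _ i j
  subst hu
  rw [e, dT.pd_eq]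
  simp only [Dm, Matrix.add_apply, Matrix.smul_apply, smul_eq_mul, blk_ent, ent, mul_add,
    Finset.mul_sum, add_assoc, ← Finset.sum_add_distrib, mul_zero, zero_add]
  refine congrArg₂ (· + ·) (by ring) ?_
  exact Finset.sum_congr rfl fun b _ => Finset.sum_congr rfl fun a _ => by ring

open JetA in
theorem smooth_pf : SmoothStmt := by
  intro n J F C x hx hF hC i j
  have ht := jet_dot_ne hx
  have ap : ∀ l : Fin n, ContDiffAt ℝ 2 (fun y : Pt n => y l) x := fun l =>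
    (contDiff_apply ℝ ℝ l).contDiffAt
  have d0 : ContDiffAt ℝ 2 (fun y : Pt n => y ⬝ᵥ y) x :=
    ContDiffAt.sum fun l _ => (ap l).mul (ap l)
  have mv : ∀ (l : Fin n) (a : Fin 4), ContDiffAt ℝ 2 (fun y : Pt n => Ym J y l a) x :=
    fun l a => ContDiffAt.sum (s := Finset.univ) (f := fun m (y : Pt n) => J4 J a l m * y m)
      fun m _ => contDiffAt_const.mul (ap m)
  have h2 : (2 : WithTop ℕ∞) ≤ ∞ := WithTop.coe_le_coe.2 (le_top (a := (2 : ℕ∞)))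
  have dC : ContDiffAt ℝ 2 (fun y : Pt n => C (y ⬝ᵥ y)) x :=
    ContDiffAt.comp (f := fun y : Pt n => y ⬝ᵥ y) x (hC.of_le h2) d0
  have dE : ∀ a b, ContDiffAt ℝ 2
      (fun y : Pt n => ph (y ⬝ᵥ y) (F (y ⬝ᵥ y)) (C (y ⬝ᵥ y)) a b) x := fun a b =>
    (d0.inv ht).mul ((ContDiffAt.comp (f := fun y : Pt n => y ⬝ᵥ y) x ((hF a b).of_le h2) d0).sub
      (dC.mul (contDiffAt_const (c := (1 : M4) a b))))
  have dT := (dC.mul (contDiffAt_const (c := (1 : Matrix (Fin n) (Fin n) ℝ) i j))).add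
    (ContDiffAt.sum (s := Finset.univ) fun b _ => ContDiffAt.sum (s := Finset.univ) fun a _ =>
      ((mv i a).mul (dE a b)).mul (mv j b))
  have e : (fun y => hopf J F C y i j) = _ := funext fun y => blk_ent J y _ _ i j
  rw [e]
  exact dT

open JetA in
theorem radY_pf : RadYStmt := by
  intro n J f x hJ hf
  have k1 : ∀ k, pd k (fun y => (Ym J y *ᵥ f (y ⬝ᵥ y)) k) x =
      f (x ⬝ᵥ x) 0 + 2 * (x k * (Ym J x *ᵥ fun a => deriv (fun s => f s a) (x ⬝ᵥ x)) k) := by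
    intro k
    have d0 : JHD (fun y => y ⬝ᵥ y) x (Pi.single k 1) (2 * (x ⬝ᵥ Pi.single k 1)) := JHD.dot
    have dT := JHD.sum Finset.univ fun a =>
      (dY J x (Pi.single k 1) k a).mul (d0.comp (hf a).hasDerivAt)
    have e : (fun y => (Ym J y *ᵥ f (y ⬝ᵥ y)) k) =
      fun y => ∑ a, Ym J y k a * f (y ⬝ᵥ y) a := rfl
    have e1 : (Ym J x *ᵥ fun a => deriv (fun s => f s a) (x ⬝ᵥ x)) k =
      ∑ a, Ym J x k a * deriv (fun s => f s a) (x ⬝ᵥ x) := rfl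
    have y0 : Ym J (Pi.single k 1) k 0 = 1 :=
      (congrFun (J4_0 J (Pi.single k 1)) k).trans (Pi.single_eq_same _ _)
    have y1 : Ym J (Pi.single k 1) k 1 = 0 := tr0 (hJ.1 0) k
    have y2 : Ym J (Pi.single k 1) k 2 = 0 := tr0 (hJ.1 1) k
    have y3 : Ym J (Pi.single k 1) k 3 = 0 := tr0 (hJ.1 2) k
    rw [e, dT.pd_eq, e1, Fin.sum_univ_four, Fin.sum_univ_four, y0, y1, y2, y3, dotProduct_single]
    ring
  have k2 := x_dot_Y hJ x fun a => deriv (fun s => f s a) (x ⬝ᵥ x)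
  rw [Finset.sum_congr rfl fun k _ => k1 k, Finset.sum_add_distrib, ← Finset.mul_sum,
    Finset.sum_const, Finset.card_univ, Fintype.card_fin, nsmul_eq_mul]
  have k3 : ∑ k, x k * (Ym J x *ᵥ fun a => deriv (fun s => f s a) (x ⬝ᵥ x)) k =
    x ⬝ᵥ (Ym J x *ᵥ fun a => deriv (fun s => f s a) (x ⬝ᵥ x)) := rfl
  rw [k3, k2]
  ring

end Vale.Agent.P366S
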