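import Vale.Agent.P366S.Stm2

/-! The Raychaudhuri-type inequalities for a diagonal vertical metric. -/

namespace Vale.Agent.P366S

open scoped Matrix ContDiff Topology
open Filter Set Matrix
open Vale.Agent.P366 (ll)

namespace KeyDiag

theorem dbl (A K : Fin 3 → Fin 3 → ℝ) (g : Fin 3 → ℝ) (hg : ∀ a, 0 < g a) (σ ε : ℝ)
    (he : ε ^ 2 = 1) :
    ∑ a, (A a a / g a * σ + ε * (K a a / g a)) ^ 2 ≤
      σ ^ 2 * ∑ i, ∑ j, A i j ^ 2 / (g i * g j) + 2 * ε * σ * ∑ i, ∑ j, A i j * K i j / (g i * g j)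
        + ∑ i, ∑ j, K i j ^ 2 / (g i * g j) := by
  have e : σ ^ 2 * ∑ i, ∑ j, A i j ^ 2 / (g i * g j)
      + 2 * ε * σ * ∑ i, ∑ j, A i j * K i j / (g i * g j) + ∑ i, ∑ j, K i j ^ 2 / (g i * g j) =
      ∑ i, ∑ j, (A i j * σ + ε * K i j) ^ 2 / (g i * g j) := by
    simp only [Finset.mul_sum, ← Finset.sum_add_distrib]
    refine Finset.sum_congr rfl fun i _ => Finset.sum_congr rfl fun j _ => ?_
    linear_combination (-(K i j ^ 2 / (g i * g j))) * he
  rw [e]
  refine Finset.sum_le_sum fun a _ => le_trans (le_of_eq ?_)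
    (Finset.single_le_sum (f := fun j => (A a j * σ + ε * K a j) ^ 2 / (g a * g j))
      (fun j _ => div_nonneg (sq_nonneg _) (mul_pos (hg a) (hg j)).le) (Finset.mem_univ a))
  have := (hg a).ne'
  field_simp

theorem alg {q t N σ ε h h' W P P' R k0 U l kh SA SAK SK S : ℝ} (ht : 0 < t) (hN : 0 < N)
    (hσ : 0 < σ) (e : σ ^ 2 = 1 / N / t) (he : ε = 1 ∨ ε = -1) (hU : 0 ≤ U)
    (hS : S ≤ σ ^ 2 * SA + 2 * ε * σ * SAK + SK)
    (hD : |-2 * t * (1 / N) * P' + (h * k0 - SAK - q * l * kh) / N| / (t * σ) ≤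
      (-4 * (1 / N) * h' + (R + 2 * h * W + 2 * h / (t * N) - h ^ 2 / (t * N)
        - (SA + q * l ^ 2) / (t * N)) + (k0 + P) ^ 2
        - (k0 ^ 2 + 2 * N * U + SK + q * kh ^ 2)) / 2) :
    2 * (1 / N) * h' + h * (-W - σ ^ 2) + ε * (2 * t * σ * P') ≤
      R / 2 + ε * k0 * (h * σ + ε * P) - ((h * σ) ^ 2 - P ^ 2) / 2
        - (S + q * (l * σ + ε * kh) ^ 2) / 2 := by
  have e1 : 1 / N = t * σ ^ 2 := by rw [e]; field_simp
  have e2 : ∀ x : ℝ, x / (t * N) = x * σ ^ 2 := fun x => by rw [e]; field_simp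
  have e3 : (-2 * t * (1 / N) * P' + (h * k0 - SAK - q * l * kh) / N) / (t * σ) =
      σ * (-2 * t * P' + (h * k0 - SAK - q * l * kh)) := by
    rw [div_eq_mul_one_div (h * k0 - SAK - q * l * kh) N, e1]
    field_simp
  rw [← abs_of_pos (mul_pos ht hσ), ← abs_div, e3, e2, e2, e2] at hD
  obtain ⟨d1, d2⟩ := abs_le.1 hD
  have hNU := mul_nonneg hN.le hU
  rcases he with rfl | rfl
  · nlinarith
  · nlinarith

theorem md_symm {F : ℝ → M4} (h : ∀ t, (F t)ᵀ = F t) (t : ℝ) : (md F t)ᵀ = md F t := by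
  ext a b
  show deriv (fun s => F s b a) t = deriv (fun s => F s a b) t
  congr 1
  funext s
  exact congrFun (congrFun (h s) a) b

theorem form {F : M4} (hs : Fᵀ = F) (hF : F.PosDef) (h12 : F 1 2 = 0) (h13 : F 1 3 = 0)
    (h23 : F 2 3 = 0) : ∃ (N : ℝ) (b g : Fin 3 → ℝ), 0 < N ∧ (∀ a, 0 < g a) ∧ F = FD N b g := by
  have s : ∀ a b, F b a = F a b := fun a b => congrFun (congrFun hs a) b
  have p1 : 0 < F 1 1 := hF.diag_pos
  have p2 : 0 < F 2 2 := hF.diag_pos
  have p3 : 0 < F 3 3 := hF.diag_pos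
  have e : F = FD (F 0 0 - F 0 1 ^ 2 / F 1 1 - F 0 2 ^ 2 / F 2 2 - F 0 3 ^ 2 / F 3 3)
      ![F 0 1 / F 1 1, F 0 2 / F 2 2, F 0 3 / F 3 3] ![F 1 1, F 2 2, F 3 3] := by
    have a1 := s 0 1
    have a2 := s 0 2
    have a3 := s 0 3
    have a4 := (s 1 2).trans h12
    have a5 := (s 1 3).trans h13
    have a6 := (s 2 3).trans h23
    ext i j
    fin_cases i <;> fin_cases j <;> simp [FD, a1, a2, a3, a4, a5, a6, h12, h13, h23] <;>
      field_simp <;> ring
  refine ⟨_, _, _, ?_, fun a => ?_, e⟩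
  · have z := hF.dotProduct_mulVec_pos
      (x := ![1, -(F 0 1 / F 1 1), -(F 0 2 / F 2 2), -(F 0 3 / F 3 3)])
      fun h => one_ne_zero (congrFun h 0)
    refine z.trans_eq ?_
    simp [dotProduct, mulVec, Fin.sum_univ_four, s 0 1, s 0 2, s 0 3, s 1 2, s 1 3, s 2 3, h12, h13,
      h23]
    field_simp
    ring
  · fin_cases a
    · exact p1
    · exact p2
    · exact p3

end KeyDiag

theorem keyDiag_pf (hR : AlgRStmt) (hJ : AlgJStmt) (hK : AlgKStmt) (hH : HhStmt) (hJac : JacStmt)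
    (hReg : RegStmt) : KeyDiagStmt := by
  intro q D t hq ht hF hC h12 h13 h23 hD
  obtain ⟨N, b, g, hN, hg, e⟩ := KeyDiag.form (D.sF t) hF h12 h13 h23
  have sF' := KeyDiag.md_symm D.sF t
  have sK' := KeyDiag.md_symm D.sK t
  have g0 : ∀ a, g a ≠ 0 := fun a => (hg a).ne'
  obtain ⟨k1, k2, k3, k4, k5⟩ := hK q t N b g (md D.F t) (D.K t) (D.C t) (deriv D.C t) hN.ne' g0
    sF' (D.sK t)
  have r1 := hR q t N b g (md D.F t) (D.C t) (deriv D.C t) ht.ne' hN.ne' g0 hC.ne' sF'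
  have j1 := hJ q t N b g (md D.F t) (D.K t) (md D.K t) (D.C t) (deriv D.C t) (D.c t) ht.ne' hN.ne'
    g0 hC.ne' sF' (D.sK t) sK'
  have eG : (D.F t)⁻¹ = GD N b g := by rw [e]; exact inv_eq_left_inv k1
  have G00 : GD N b g 0 0 = 1 / N := rfl
  have ep : (D.F t)⁻¹ 0 0 = 1 / N := by rw [eG, G00]
  have hdet := hF.det_pos.ne'
  obtain ⟨h1, h2, h3⟩ := hH q D t ht hdet (by rw [ep]; positivity)
  obtain ⟨-, -, dp, -⟩ := hJac.2 D.F t (D.hF t ht) hdet
  obtain ⟨p0, -, e30, -, -, -, c3, cC, -⟩ := hReg q D t ht hF hC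
  have dP : HasDerivAt (toSca q D).p (-(GD N b g * md D.F t * GD N b g) 0 0) t := by
    rw [← eG]; exact dp 0 0
  have ep' : (toSca q D).p t = 1 / N := ep
  have d3 : DifferentiableAt ℝ (deriv (toSca q D).e3) t :=
    (c3.derivWithin (m := 1) le_rfl).differentiableAt one_ne_zero
  have dC : DifferentiableAt ℝ (deriv (toSca q D).C) t :=
    (cC.derivWithin (m := 1) le_rfl).differentiableAt one_ne_zero
  have dh : DifferentiableAt ℝ (hh q (toSca q D)) t :=
    (((differentiableAt_id.mul d3).div (c3.differentiableAt two_ne_zero) e30.ne').const_add 3).add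
      ((((differentiableAt_id.mul dC).div (cC.differentiableAt two_ne_zero) hC.ne').const_add
        1).const_mul q)
  have q0 : 0 < (toSca q D).p t / t := div_pos p0 ht
  have s0 : 0 < sg (toSca q D) t := Real.sqrt_pos.2 q0
  have s2 : sg (toSca q D) t ^ 2 = 1 / N / t := by rw [← ep']; exact Real.sq_sqrt q0.le
  have dH : HasDerivAt (H1 q (toSca q D)) _ t :=
    dh.hasDerivAt.fun_mul ((dP.fun_div (hasDerivAt_id' t) ht.ne').sqrt q0.ne')
  have eH : 2 * t * sg (toSca q D) t * deriv (H1 q (toSca q D)) t =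
      2 * (1 / N) * deriv (hh q (toSca q D)) t + hh q (toSca q D) t *
        (-(GD N b g * md D.F t * GD N b g) 0 0 - sg (toSca q D) t ^ 2) := by
    have e1 : 1 / N = t * sg (toSca q D) t ^ 2 := by rw [s2]; field_simp
    rw [dH.deriv, ep', e1]
    have e2 : √(t * sg (toSca q D) t ^ 2 / t) = sg (toSca q D) t := by
      rw [mul_div_cancel_left₀ _ ht.ne', Real.sqrt_sq s0.le]
    rw [e2]
    field_simp
  have es : √(t * (1 / N)) = t * sg (toSca q D) t := by
    rw [Real.sqrt_eq_iff_mul_self_eq (by positivity) (by positivity)]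
    have : t * sg (toSca q D) t * (t * sg (toSca q D) t) = t ^ 2 * sg (toSca q D) t ^ 2 := by ring
    rw [this, s2]
    field_simp
  have eP : (toSca q D).P t = ∑ a : Fin 3, D.K t a.succ a.succ / g a + q * (D.c t / D.C t) := by
    rw [← k4]
    show ((D.F t)⁻¹ * D.K t).trace - ((D.F t)⁻¹ * D.K t * (D.F t)⁻¹) 0 0 / (D.F t)⁻¹ 0 0
      + q * (D.c t / D.C t) = _
    rw [eG, G00, div_div_eq_mul_div, div_one]
  have eT : TT q (GD N b g) (D.K t) (D.C t) (D.c t) =
      (GD N b g * D.K t * GD N b g) 0 0 * N + (toSca q D).P t := by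
    rw [eP, ← k4, TT]
    ring
  have eA : ∀ a : Fin 3, 1 + t * md D.F t a.succ a.succ / g a =
      AA t b g (md D.F t) a a / g a := fun a => by
    rw [eq_div_iff (g0 a), add_mul, one_mul, div_mul_cancel₀ _ (g0 a)]
    fin_cases a <;> rfl
  refine ⟨g, fun a => md D.F t a.succ a.succ, fun a => D.K t a.succ a.succ / g a,
    (GD N b g * D.K t * GD N b g) 0 0 * N, D.c t / D.C t, hg, ?_, ?_, h3, ?_, eP, fun ε he => ?_⟩
  · show ((D.F t).submatrix Fin.succ Fin.succ).trace = _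
    rw [e, trace_fin_three, Fin.sum_univ_three]
    rfl
  · show ((D.F t).submatrix Fin.succ Fin.succ).det = _
    rw [e, det_fin_three, Fin.prod_univ_three]
    simp [FD]
  · rw [h2, ← k3, eG, G00, div_div_eq_mul_div, div_one]
  · unfold DecM at hD
    rw [eG, G00, es, eT, k5] at hD
    rw [eG] at h1
    rw [← e, ← h1] at r1 j1
    rw [r1, j1] at hD
    rw [eH]
    simp only [eA]
    exact KeyDiag.alg ht hN s0 s2 he
      (Finset.sum_nonneg fun a _ => div_nonneg (sq_nonneg _) (hg a).le)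
      (KeyDiag.dbl (AA t b g (md D.F t)) (fun i j => D.K t i.succ j.succ) g hg _ ε
        (by rcases he with rfl | rfl <;> norm_num)) hD

end Vale.Agent.P366S
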