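import Vale.Agent.P366S.Stm
import Vale.Agent.P366.Lim

/-! The limit of the mass at infinity. -/

namespace Vale.Agent.P366S

open scoped Matrix ContDiff Topology
open Filter Set
open Vale.Agent.P366 (ll)
open Vale.Agent.P366.LimAux (to_zero to_one sq_one sq_dec tt_eq ar_eq mass_alg)

namespace LimAux

theorem six {x : ℝ} (hx : 0 ≤ x) : (x ^ ((1 : ℝ) / 6)) ^ 6 = x := by
  rw [← Real.rpow_natCast, ← Real.rpow_mul hx]
  norm_num

theorem three {x : ℝ} (hx : 0 ≤ x) : √x = (x ^ ((1 : ℝ) / 6)) ^ 3 := by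
  rw [← Real.rpow_natCast, ← Real.rpow_mul hx, Real.sqrt_eq_rpow]
  norm_num

theorem rt_one {f : ℝ → ℝ} (h : Tendsto f atTop (𝓝 1)) :
    Tendsto (fun t => f t ^ ((1 : ℝ) / 6)) atTop (𝓝 1) := by
  have := h.rpow_const (p := (1 : ℝ) / 6) (Or.inl one_ne_zero)
  rwa [Real.one_rpow] at this

theorem rt_dec {T f : ℝ → ℝ} (hT : Tendsto T atTop atTop)
    (h : Tendsto (fun t => T t * (f t - 1)) atTop (𝓝 0)) :
    Tendsto (fun t => T t * (f t ^ ((1 : ℝ) / 6) - 1)) atTop (𝓝 0) := by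
  have h1 := to_one hT h
  have hs := rt_one h1
  have h2 := h.div ((((((hs.pow 5).add (hs.pow 4)).add (hs.pow 3)).add (hs.pow 2)).add hs).add_const
    1) (by norm_num)
  rw [zero_div] at h2
  refine h2.congr' ?_
  filter_upwards [h1.eventually_const_lt (show (0 : ℝ) < 1 by norm_num)] with t ht
  have h3 : 0 < f t ^ ((1 : ℝ) / 6) := Real.rpow_pos_of_pos ht _
  have h4 := six ht.le
  simp only [Pi.div_apply]
  generalize f t ^ ((1 : ℝ) / 6) = s at h3 h4
  rw [← h4, div_eq_iff (by positivity)]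
  ring

/-- The second order remainder. -/
noncomputable def rem (q X Y Z U V W m1 m2 m3 a s C : ℝ) : ℝ :=
  3 * (Y * (s ^ 2 + s + 1)) ^ 2 * (s ^ 3 + 2) / (2 * s ^ 3) - 3 / 2 * m2
    - U * (Y * (s ^ 2 + s + 1)) / s ^ 3 + q / 2 * (Y ^ 2 / s - Y * Z / C + Z ^ 2 / C)
    - (q + 3) * X ^ 2 * (2 * a + 1) / (2 * a ^ 2) + (q + 3) / 2 * m1 - m3 - W * X
    + q * V * (Z - X) / C

theorem rem_eq (q T a s C e1 β γ D3 f0 : ℝ) (ha : a ≠ 0) (hs : s ≠ 0) (hC : C ≠ 0) :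
    T * T * ((e1 / s ^ 3 + q / 2 * (1 / s + s / C)) - (3 + D3 + q * (1 + γ / C)) * a) =
      rem q (T * (a - 1)) (T * (s - 1)) (T * (C - 1)) (T * (e1 - 3)) (T * γ) (T * D3)
        (T * T * ((a ^ 2)⁻¹ - f0)) (T * T * (s ^ 6 - 1 - (e1 - 3))) (T * T * (D3 - β)) a s C
        + T * T * ((q + 3) * f0 - q * C - e1 - 2 * (β + q * γ)) / 2 := by
  unfold rem
  field_simp
  ring

theorem rem_lim (q : ℝ) {X Y Z U V W m1 m2 m3 a s C : ℝ → ℝ} (hX : Tendsto X atTop (𝓝 0))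
    (hY : Tendsto Y atTop (𝓝 0)) (hZ : Tendsto Z atTop (𝓝 0)) (hU : Tendsto U atTop (𝓝 0))
    (hV : Tendsto V atTop (𝓝 0)) (hW : Tendsto W atTop (𝓝 0)) (h1 : Tendsto m1 atTop (𝓝 0))
    (h2 : Tendsto m2 atTop (𝓝 0)) (h3 : Tendsto m3 atTop (𝓝 0)) (ha : Tendsto a atTop (𝓝 1))
    (hs : Tendsto s atTop (𝓝 1)) (hC : Tendsto C atTop (𝓝 1)) :
    Tendsto (fun t => rem q (X t) (Y t) (Z t) (U t) (V t) (W t) (m1 t) (m2 t) (m3 t) (a t) (s t)
      (C t)) atTop (𝓝 0) := by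
  have g0 := hY.mul (((hs.pow 2).add hs).add_const 1)
  have g1 := (((g0.pow 2).const_mul 3).mul ((hs.pow 3).add_const 2)).div ((hs.pow 3).const_mul 2)
    (by norm_num)
  have g2 := (hU.mul g0).div (hs.pow 3) (by norm_num)
  have g3 := ((((hY.pow 2).div hs one_ne_zero).sub ((hY.mul hZ).div hC one_ne_zero)).add
    ((hZ.pow 2).div hC one_ne_zero)).const_mul (q / 2)
  have g4 := (((hX.pow 2).const_mul (q + 3)).mul ((ha.const_mul 2).add_const 1)).div
    ((ha.pow 2).const_mul 2) (by norm_num)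
  have g5 := ((hV.const_mul q).mul (hZ.sub hX)).div hC one_ne_zero
  have g6 := (((((((g1.sub (h2.const_mul (3 / 2))).sub g2).add g3).sub g4).add
    (h1.const_mul ((q + 3) / 2))).sub h3).sub (hW.mul hX)).add g5
  simp only [ne_eq, OfNat.ofNat_ne_zero, not_false_eq_true, zero_pow, mul_zero, zero_mul, zero_div,
    sub_zero, add_zero] at g6
  exact g6

end LimAux

open LimAux

theorem lim_pf : LimStmt := by
  intro n S E hn hA hE
  obtain ⟨hp, hm1, he1, he3, hm2, hC, hC', he1', hm3, hP⟩ := hA _ rfl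
  have hn' : (4 : ℝ) < n := by exact_mod_cast hn
  have hT : Tendsto (fun t : ℝ => t ^ (((n : ℝ) - 2) / 4)) atTop atTop :=
    tendsto_rpow_atTop (by linarith)
  set q : ℝ := (n : ℝ) - 4 with hq
  have hq0 : 0 < q := by linarith
  have hd : (n : ℝ) - 1 = q + 3 := by linarith
  have p1 := to_one hT hp
  have e31 := to_one hT he3
  have C1 := to_one hT hC
  have e13 : Tendsto S.e1 atTop (𝓝 3) := by
    simpa using (to_zero hT he1).add_const 3
  have sa := sq_one p1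
  have ss := rt_one e31
  have hW : Tendsto (fun t : ℝ => t ^ (((n : ℝ) - 2) / 4) * (t * deriv S.e3 t / S.e3 t)) atTop
      (𝓝 0) := by
    have h1 := (to_zero hT (f := fun t : ℝ => t ^ (((n : ℝ) - 2) / 4) *
      (t * deriv S.e3 t / S.e3 t - t * deriv S.e1 t))
      (hm3.congr fun t => mul_assoc _ _ _)).add he1'
    rw [add_zero] at h1
    exact h1.congr fun t => by ring
  have hR := rem_lim q (sq_dec hT hp) (rt_dec hT he3) hC he1 hC' hW hm1 hm2 hm3 sa ss C1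
  have hw : Tendsto (fun t => S.e1 t / √(S.e3 t) +
      q / 2 * (1 / S.e3 t ^ ((1 : ℝ) / 6) + S.e3 t ^ ((1 : ℝ) / 6) / S.C t)) atTop (𝓝 (q + 3)) := by
    have := (e13.div (sq_one e31) one_ne_zero).add
      ((((tendsto_const_nhds (x := (1 : ℝ))).div ss one_ne_zero).add
        (ss.div C1 one_ne_zero)).const_mul (q / 2))
    rw [show (3 : ℝ) / 1 + q / 2 * (1 / 1 + 1 / 1) = q + 3 by ring] at this
    exact this
  have hH : Tendsto (fun t => hh q S t * √(S.p t)) atTop (𝓝 (q + 3)) := by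
    have := ((((to_zero hT hW).const_add 3).add
      ((((to_zero hT hC').div C1 one_ne_zero).const_add 1).const_mul q)).mul sa)
    rw [show (3 + 0 + q * (1 + 0 / 1)) * 1 = q + 3 by ring] at this
    exact this
  have hS : Tendsto (fun t => √(S.e3 t * S.C t ^ (n - 4)) ^ (((n : ℝ) - 2) / ((n : ℝ) - 1)))
      atTop (𝓝 1) := by
    have h1 : Tendsto (fun t => S.e3 t * S.C t ^ (n - 4)) atTop (𝓝 1) := by
      simpa using e31.mul (C1.pow (n - 4))
    simpa using (sq_one h1).rpow_const (p := ((n : ℝ) - 2) / ((n : ℝ) - 1)) (Or.inl one_ne_zero)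
  have hq3 : q + 3 ≠ 0 := by linarith
  have key := (hS.const_mul (1 / 2)).mul ((((hR.add (hE.const_mul (q + 3))).mul (hw.add hH)).add
    (hP.pow 2)).div (hw.pow 2) (pow_ne_zero 2 hq3))
  have hval : 1 / 2 * 1 * (((0 + (q + 3) * E) * (q + 3 + (q + 3)) + 0 ^ 2) / (q + 3) ^ 2) = E := by
    field_simp
    ring
  rw [hval] at key
  refine key.congr' ?_
  have one : (0 : ℝ) < 1 := one_pos
  filter_upwards [eventually_gt_atTop (0 : ℝ), p1.eventually_const_lt one,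
    e31.eventually_const_lt one, C1.eventually_const_lt one,
    e13.eventually_const_lt (show (0 : ℝ) < 3 by norm_num)] with t ht hpt h3t hCt h1t
  have hr : 0 < √t := Real.sqrt_pos.2 ht
  have ha : 0 < √(S.p t) := Real.sqrt_pos.2 hpt
  have hb0 : 0 < √(S.e3 t) := Real.sqrt_pos.2 h3t
  have hs0 : 0 < S.e3 t ^ ((1 : ℝ) / 6) := Real.rpow_pos_of_pos h3t _
  have hw0 : 0 < S.e1 t / √(S.e3 t) +
      q / 2 * (1 / S.e3 t ^ ((1 : ℝ) / 6) + S.e3 t ^ ((1 : ℝ) / 6) / S.C t) := by positivity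
  have eH : H1 q S t = hh q S t * √(S.p t) / √t := by
    unfold H1 sg
    rw [Real.sqrt_div hpt.le, mul_div_assoc]
  have eR := rem_eq q (t ^ (((n : ℝ) - 2) / 4)) (√(S.p t)) (S.e3 t ^ ((1 : ℝ) / 6)) (S.C t)
    (S.e1 t) (t * deriv S.e1 t) (t * deriv S.C t) (t * deriv S.e3 t / S.e3 t) (S.f0 t)
    ha.ne' hs0.ne' hCt.ne'
  rw [Real.sq_sqrt hpt.le, six h3t.le, ← three h3t.le] at eR
  unfold mass ar1 w1
  rw [ar_eq n hn _ _ hr (Real.sqrt_nonneg _), ← hq, eH]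
  simp only [Pi.div_apply]
  rw [← tt_eq n hn t ht, mass_alg _ _ _ _ _ _ hr.ne' hw0.ne', mul_assoc _ (√t) (S.P t)]
  have e1 : ∀ T : ℝ, T * T * ((q + 3) * S.f0 t - q * S.C t - S.e1 t -
      2 * (t * deriv S.e1 t + q * (t * deriv S.C t))) / 2 =
      (q + 3) * (T * T * F1 q S t / (2 * ((n : ℝ) - 1))) := by
    intro T
    rw [hd]
    unfold F1
    field_simp
  rw [e1] at eR
  rw [← eR]
  rfl

end Vale.Agent.P366S
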