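import Vale.Agent.P366S.Stm

/-! From matrix asymptotics to scalar asymptotics. -/

namespace Vale.Agent.P366S

open scoped Matrix ContDiff Topology
open Filter Set Matrix

namespace M2SAux

lemma lim0 {T f : ℝ → ℝ} (hT : Tendsto T atTop atTop)
    (h : Tendsto (fun t => T t * f t) atTop (𝓝 0)) : Tendsto f atTop (𝓝 0) := by
  have h1 := hT.inv_tendsto_atTop.mul h
  rw [mul_zero] at h1
  refine h1.congr' ((hT.eventually_ne_atTop 0).mono fun t ht => ?_)
  simp only [Pi.inv_apply]
  rw [← mul_assoc, inv_mul_cancel₀ ht, one_mul]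

lemma lim1 {T f : ℝ → ℝ} {a : ℝ} (hT : Tendsto T atTop atTop)
    (h : Tendsto (fun t => T t * (f t - a)) atTop (𝓝 0)) : Tendsto f atTop (𝓝 a) :=
  tendsto_sub_nhds_zero_iff.1 (lim0 hT h)

lemma mat {ι : Type} {A : ℝ → Matrix ι ι ℝ} {B : Matrix ι ι ℝ} :
    Tendsto A atTop (𝓝 B) ↔ ∀ a b, Tendsto (fun t => A t a b) atTop (𝓝 (B a b)) :=
  ⟨fun h a b => tendsto_pi_nhds.1 (tendsto_pi_nhds.1 h a) b,
    fun h => tendsto_pi_nhds.2 fun a => tendsto_pi_nhds.2 fun b => h a b⟩

lemma tr {ι : Type} [Fintype ι] {A : ℝ → Matrix ι ι ℝ} (h : Tendsto A atTop (𝓝 0)) :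
    Tendsto (fun t => (A t).trace) atTop (𝓝 0) := by
  have := ((continuous_id.matrix_trace (A := fun A : Matrix ι ι ℝ => A)).tendsto 0).comp h
  simpa [Function.comp_def] using this

lemma dt {ι : Type} [Fintype ι] [DecidableEq ι] {A : ℝ → Matrix ι ι ℝ}
    (h : Tendsto A atTop (𝓝 1)) : Tendsto (fun t => (A t).det) atTop (𝓝 1) := by
  have := ((continuous_id.matrix_det (A := fun A : Matrix ι ι ℝ => A)).tendsto 1).comp h
  simpa [Function.comp_def] using this

lemma iv {ι : Type} [Fintype ι] [DecidableEq ι] {A : ℝ → Matrix ι ι ℝ}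
    (h : Tendsto A atTop (𝓝 1)) : Tendsto (fun t => (A t)⁻¹) atTop (𝓝 1) := by
  have h1 : ContinuousAt (Inv.inv : Matrix ι ι ℝ → Matrix ι ι ℝ) 1 := by
    refine continuousAt_matrix_inv _ ?_
    rw [det_one, Ring.inverse_eq_inv']
    exact continuousAt_inv₀ one_ne_zero
  have := h1.tendsto.comp h
  simpa [Function.comp_def] using this

lemma jac3 {A : ℝ → Matrix (Fin 3) (Fin 3) ℝ} {A' : Matrix (Fin 3) (Fin 3) ℝ} {t : ℝ}
    (h : ∀ a b, HasDerivAt (fun s => A s a b) (A' a b) t) :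
    HasDerivAt (fun s => (A s).det) (adjugate (A t) * A').trace t := by
  simp only [det_fin_three]
  refine ((((((((h 0 0).fun_mul (h 1 1)).fun_mul (h 2 2)).fun_sub
    (((h 0 0).fun_mul (h 1 2)).fun_mul (h 2 1))).fun_sub
    (((h 0 1).fun_mul (h 1 0)).fun_mul (h 2 2))).fun_add
    (((h 0 1).fun_mul (h 1 2)).fun_mul (h 2 0))).fun_add
    (((h 0 2).fun_mul (h 1 0)).fun_mul (h 2 1))).fun_sub
    (((h 0 2).fun_mul (h 1 1)).fun_mul (h 2 0))).congr_deriv ?_
  simp only [trace_fin_three, mul_apply, Fin.sum_univ_three]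
  simp [adjugate_fin_three]
  ring

lemma tr3 {A : ℝ → Matrix (Fin 3) (Fin 3) ℝ} {A' : Matrix (Fin 3) (Fin 3) ℝ} {t : ℝ}
    (h : ∀ a b, HasDerivAt (fun s => A s a b) (A' a b) t) :
    HasDerivAt (fun s => (A s).trace) A'.trace t := by
  simp only [trace_fin_three]
  exact ((h 0 0).fun_add (h 1 1)).fun_add (h 2 2)

lemma quad (A : Matrix (Fin 3) (Fin 3) ℝ) (T : ℝ) :
    T * T * (A.det - 1 - (A.trace - 3)) =
      ((T • (A - 1)).trace * (T • (A - 1)).trace - ((T • (A - 1)) * (T • (A - 1))).trace) / 2 +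
        (adjugate (T • (A - 1)) * (A - 1)).trace / 3 := by
  simp only [trace_fin_three, det_fin_three, mul_apply, Fin.sum_univ_three]
  simp [adjugate_fin_three]
  ring

lemma key9 (A A' : Matrix (Fin 3) (Fin 3) ℝ) (T t : ℝ) (h : A.det ≠ 0) :
    T * T * (t * (adjugate A * A').trace / A.det - t * A'.trace) =
      -(adjugate A * (T • (A - 1)) * (T • t • A')).trace / A.det := by
  simp only [Matrix.mul_smul, Matrix.smul_mul, Matrix.mul_sub, Matrix.sub_mul, adjugate_mul,
    Matrix.mul_one, Matrix.one_mul, trace_smul, trace_sub, smul_eq_mul]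
  field_simp
  ring

end M2SAux

open M2SAux in
theorem m2s_pf (hJ : JacStmt) : M2SStmt := by
  intro n D hn hM T hTd
  obtain ⟨h1, h2, h3, h4, h5, h6⟩ := hM T hTd
  have hT : Tendsto T atTop atTop := by
    rw [hTd]
    have : (4 : ℝ) < n := by exact_mod_cast hn
    exact tendsto_rpow_atTop (by linarith)
  have hF : Tendsto D.F atTop (𝓝 1) := mat.2 fun a b => lim1 hT (h1 a b)
  have hY : Tendsto (fun t => T t • (D.F t - 1)) atTop (𝓝 0) := mat.2 fun a b => h1 a b
  have hW : Tendsto (fun t => T t • √t • D.K t) atTop (𝓝 0) := mat.2 fun a b => h3 a b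
  have hG := iv hF
  have hG0 : Tendsto (fun t => (D.F t)⁻¹ 0 0) atTop (𝓝 1) := mat.1 hG 0 0
  have hd : ∀ᶠ t in atTop, (D.F t).det ≠ 0 := (dt hF).eventually_ne one_ne_zero
  have hC : Tendsto D.C atTop (𝓝 1) := lim1 hT h4
  have hGY : Tendsto (fun t => T t • ((D.F t)⁻¹ - 1)) atTop (𝓝 0) := by
    have := (hG.mul hY).neg
    rw [mul_zero, neg_zero] at this
    refine this.congr' (hd.mono fun t ht => ?_)
    simp only [Matrix.mul_smul, Matrix.mul_sub, Matrix.mul_one,
      nonsing_inv_mul _ (isUnit_iff_ne_zero.2 ht), ← smul_neg, neg_sub]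
  set A : ℝ → Matrix (Fin 3) (Fin 3) ℝ := fun t => (D.F t).submatrix Fin.succ Fin.succ with hA
  set A' : ℝ → Matrix (Fin 3) (Fin 3) ℝ := fun t => (md D.F t).submatrix Fin.succ Fin.succ with hA'
  have e1 : ∀ a b : Fin 3, (1 : M4) a.succ b.succ = (1 : Matrix (Fin 3) (Fin 3) ℝ) a b :=
    fun a b => by simp [one_apply]
  have hAY : Tendsto (fun t => T t • (A t - 1)) atTop (𝓝 0) := mat.2 fun a b => by
    have := h1 a.succ b.succ
    rw [e1] at this
    exact this
  have hA1 : Tendsto A atTop (𝓝 1) := mat.2 fun a b => lim1 hT (mat.1 hAY a b)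
  have hAZ : Tendsto (fun t => T t • t • A' t) atTop (𝓝 0) := mat.2 fun a b => h2 a.succ b.succ
  have hder : ∀ t, 0 < t → ∀ a b, HasDerivAt (fun s => A s a b) (A' t a b) t := fun t ht a b =>
    ((D.hF t ht a.succ b.succ).differentiableAt (by simp)).hasDerivAt
  have hadj : Continuous fun B : Matrix (Fin 3) (Fin 3) ℝ => adjugate B :=
    continuous_id.matrix_adjugate
  have k3 : Tendsto (fun t => T t * ((A t).trace - 3)) atTop (𝓝 0) :=
    (tr hAY).congr fun t => by simp [trace_smul, trace_sub]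
  have k5 : Tendsto (fun t => T t * T t * ((A t).det - 1 - ((A t).trace - 3))) atTop (𝓝 0) := by
    have a1 := hAY.mul hAY
    have a2 := ((hadj.tendsto 0).comp hAY).mul (tendsto_sub_nhds_zero_iff.2 hA1)
    rw [mul_zero] at a1 a2
    have := ((((tr hAY).mul (tr hAY)).sub (tr a1)).div_const 2).add ((tr a2).div_const 3)
    simp only [mul_zero, sub_zero, zero_div, add_zero] at this
    exact this.congr fun t => (quad (A t) (T t)).symm
  refine ⟨mat.1 hGY 0 0, ?_, k3, ?_, k5, h4, h5, ?_, ?_, ?_⟩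
  · have a1 := (tendsto_finsetSum Finset.univ fun (a : Fin 3) _ =>
      (mat.1 hGY 0 a.succ).mul (mat.1 hY a.succ 0)).div hG0 one_ne_zero
    simp only [Matrix.zero_apply, mul_zero, Finset.sum_const_zero, zero_div] at a1
    refine a1.congr' ?_
    filter_upwards [hd, hG0.eventually_ne one_ne_zero] with t ht ht'
    have a2 := congrFun (congrFun (nonsing_inv_mul _ (isUnit_iff_ne_zero.2 ht)) 0) 0
    rw [mul_apply, Fin.sum_univ_succ, one_apply_eq] at a2
    have a3 : ∑ a : Fin 3, (T t • ((D.F t)⁻¹ - 1)) 0 a.succ * (T t • (D.F t - 1)) a.succ 0 =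
        T t * T t * ∑ a : Fin 3, (D.F t)⁻¹ 0 a.succ * D.F t a.succ 0 := by
      rw [Finset.mul_sum]
      refine Finset.sum_congr rfl fun a _ => ?_
      simp only [Matrix.smul_apply, Matrix.sub_apply, smul_eq_mul, one_apply_ne (Fin.succ_ne_zero a),
        one_apply_ne (Fin.succ_ne_zero a).symm]
      ring
    simp only [Pi.div_apply, toSca]
    rw [a3, eq_sub_of_add_eq' a2]
    field_simp
  · have a1 := (lim0 hT (k5.congr fun t => mul_assoc _ _ _)).add k3
    rw [add_zero] at a1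
    refine a1.congr fun t => ?_
    simp only [toSca, hA]
    ring
  · refine (tr hAZ).congr' ((eventually_gt_atTop 0).mono fun t ht => ?_)
    have a1 : deriv (toSca ((n : ℝ) - 4) D).e1 t = _ := (tr3 (hder t ht)).deriv
    simp only [a1, trace_smul, smul_eq_mul]
  · have a1 := ((((hadj.tendsto 1).comp hA1).mul hAY).mul hAZ)
    rw [mul_zero] at a1
    have a2 := (tr a1).neg.div (dt hA1) one_ne_zero
    rw [neg_zero, zero_div] at a2
    refine a2.congr' ?_
    filter_upwards [eventually_gt_atTop 0, (dt hA1).eventually_ne one_ne_zero] with t ht ht'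
    have b1 : deriv (toSca ((n : ℝ) - 4) D).e1 t = _ := (tr3 (hder t ht)).deriv
    have b2 : deriv (toSca ((n : ℝ) - 4) D).e3 t = _ := (jac3 (hder t ht)).deriv
    rw [b1, b2]
    exact (key9 (A t) (A' t) (T t) t ht').symm
  · have a1 := hG.mul hW
    have a2 := (hG.mul hW).mul hG
    rw [mul_zero] at a1
    rw [mul_zero, zero_mul] at a2
    have a3 := ((tr a1).sub ((mat.1 a2 0 0).div hG0 one_ne_zero)).add
      ((h6.div hC one_ne_zero).const_mul ((n : ℝ) - 4))
    simp only [Matrix.zero_apply, zero_div, sub_zero, mul_zero, add_zero] at a3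
    refine a3.congr fun t => ?_
    simp only [toSca, Pi.div_apply, Matrix.mul_smul, Matrix.smul_mul, trace_smul, Matrix.smul_apply,
      smul_eq_mul]
    ring

end Vale.Agent.P366S
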