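import Vale.Agent.P366S.Stm

/-! Monotonicity of the mass function (general case). -/

namespace Vale.Agent.P366S

open scoped Matrix ContDiff Topology
open Filter Set Matrix
open Vale.Agent.P366 (ll)

namespace Mono

theorem d_der {f : ℝ → ℝ} {t : ℝ} (h : ContDiffAt ℝ 2 f t) : DifferentiableAt ℝ (deriv f) t := by
  have k := (h.fderiv_right (m := 1) (by norm_num)).differentiableAt (by simp)
  exact k.clm_apply (differentiableAt_const (1 : ℝ))

theorem d_ar (m : ℕ) (S : Sca) {t : ℝ} (ht : 0 < t) (h3 : 0 < S.e3 t) (hC : 0 < S.C t)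
    (d3 : HasDerivAt S.e3 (deriv S.e3 t) t) (dC : HasDerivAt S.C (deriv S.C t) t) :
    HasDerivAt (ar1 (m + 5) S) (ar1 (m + 5) S t * (hh (m + 1) S t / (2 * t))) t := by
  have p : 0 < S.e3 t * S.C t ^ (m + 1) := by positivity
  refine (((Real.hasDerivAt_sqrt ht.ne').fun_pow (m + 4)).fun_mul
    ((d3.fun_mul (dC.fun_pow (m + 1))).sqrt p.ne')).congr_deriv ?_
  have e1 := Real.sq_sqrt ht.le
  have e2 := Real.sq_sqrt p.le
  have r0 := Real.sqrt_pos.2 ht
  have s0 := Real.sqrt_pos.2 p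
  show _ = √t ^ (m + 4) * √(S.e3 t * S.C t ^ (m + 1)) * _
  rw [hh, ll, show deriv S.e3 t * S.C t ^ (m + 1) +
      S.e3 t * (((m + 1 : ℕ) : ℝ) * S.C t ^ (m + 1 - 1) * deriv S.C t) =
      S.e3 t * S.C t ^ (m + 1) * (deriv S.e3 t / S.e3 t + (m + 1) * deriv S.C t / S.C t) by
    push_cast; field_simp; ring]
  generalize deriv S.e3 t = B', deriv S.C t = C', S.e3 t * S.C t ^ (m + 1) = z at *
  generalize √z = Z, S.e3 t = B, S.C t = C at *
  generalize √t = r at *
  subst e1 e2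
  rw [show m + 4 - 1 = m + 3 from rfl]
  push_cast
  field_simp
  ring

theorem alg_R {r s t C : ℝ} (q : ℝ) (g : Fin 3 → ℝ) (hr : 0 < r) (hs : 0 < s) (hC : 0 < C)
    (et : r ^ 2 = t) (eg : g 0 * g 1 * g 2 = s ^ 6) :
    RS q t C g = 2 * (g 0 / (r * s ^ 3) + g 1 / (r * s ^ 3) + g 2 / (r * s ^ 3)) ^ 2
      - 4 * ((g 0 / (r * s ^ 3)) ^ 2 + (g 1 / (r * s ^ 3)) ^ 2 + (g 2 / (r * s ^ 3)) ^ 2)
      + q * (q + 8) * (1 / (r * s) * (s / (r * C)))
      - q * ((g 0 / (r * s ^ 3) + g 1 / (r * s ^ 3) + g 2 / (r * s ^ 3)) * (s / (r * C)) ^ 2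
        / (1 / (r * s))) := by
  rw [RS, eg, ← et]
  field_simp
  ring

end Mono

theorem mono_pf (h1 : MonoAbsStmt) (h2 : HJStmt) : MonoStmt := by
  intro n S t hn ht hR hK hp hq hm
  obtain ⟨hp0, he1, he3, hC, cp, c1, c3, cC, cP⟩ := hR
  obtain ⟨m, rfl⟩ : ∃ m, n = m + 5 := ⟨n - 5, by omega⟩
  have dp := (cp.differentiableAt (by simp)).hasDerivAt
  have d1 := (c1.differentiableAt (by simp)).hasDerivAt
  have d3 := (c3.differentiableAt (by simp)).hasDerivAt
  have dC := (cC.differentiableAt (by simp)).hasDerivAt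
  have dP := (cP.differentiableAt (by simp)).hasDerivAt
  have dar := Mono.d_ar m S ht he3 hC d3 dC
  have ek : (((m + 5 : ℕ) : ℝ) - 2) / (((m + 5 : ℕ) : ℝ) - 1) = (m + 1 + 2) / (m + 1 + 3) := by
    push_cast
    congr 1 <;> ring
  have eq : ((m + 5 : ℕ) : ℝ) - 4 = m + 1 := by push_cast; ring
  unfold mass at hm ⊢
  rw [eq] at hK hp hq
  rw [eq, ek] at hm ⊢
  clear ek eq
  have q0 : (0 : ℝ) < m + 1 := by positivity
  have a0 : 0 < ar1 (m + 5) S t := by unfold ar1; positivity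
  generalize (m : ℝ) + 1 = q at *
  generalize ar1 (m + 5) S = ar at *
  obtain ⟨g, g', κ, k0, kh, g0, x1, x3, y1, y3, xP, hK⟩ := hK
  have dll : DifferentiableAt ℝ (ll S.C) t :=
    ((differentiableAt_id.mul (Mono.d_der cC)).div dC.differentiableAt hC.ne').const_add 1
  have dh : DifferentiableAt ℝ (hh q S) t :=
    (((differentiableAt_id.mul (Mono.d_der c3)).div d3.differentiableAt he3.ne').const_add 3).add
      (dll.const_mul q)
  have pt : 0 < S.p t / t := div_pos hp0 ht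
  have dsg : DifferentiableAt ℝ (sg S) t :=
    (dp.differentiableAt.div differentiableAt_id ht.ne').sqrt pt.ne'
  have dH : HasDerivAt (H1 q S) (deriv (H1 q S) t) t := (dh.mul dsg).hasDerivAt
  have r0 := Real.sqrt_pos.2 ht
  have b0 := Real.sqrt_pos.2 he3
  have L0 : 0 < sg S t := Real.sqrt_pos.2 pt
  have s0 := Real.rpow_pos_of_pos he3 ((1 : ℝ) / 6)
  have s6 : (S.e3 t ^ ((1 : ℝ) / 6)) ^ 6 = S.e3 t := by
    rw [← Real.rpow_natCast, ← Real.rpow_mul he3.le]; norm_num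
  have s3 : √(S.e3 t) = (S.e3 t ^ ((1 : ℝ) / 6)) ^ 3 := by
    rw [Real.sqrt_eq_iff_mul_self_eq he3.le (by positivity), ← pow_add]; exact s6.symm
  have ds := d3.rpow_const (p := (1 : ℝ) / 6) (.inl he3.ne')
  have db := d3.sqrt he3.ne'
  have dw : HasDerivAt (w1 q S) _ t :=
    ((d1.fun_div db b0.ne').fun_add
      ((((hasDerivAt_const t (1 : ℝ)).fun_div ds s0.ne').fun_add
        (ds.fun_div dC hC.ne')).const_mul (q / 2))).fun_div (Real.hasDerivAt_sqrt ht.ne') r0.ne'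
  have w0 : 0 < w1 q S t := by unfold w1; positivity
  have dm := ((dar.rpow_const (p := (q + 2) / (q + 3)) (.inl a0.ne')).const_mul (1 / 2)).fun_mul
    ((((dH.fun_pow 2).fun_sub (dP.fun_pow 2)).fun_div (dw.fun_pow 2) (by positivity)).const_sub 1)
  refine ⟨dm.differentiableAt, ?_⟩
  rw [dm.deriv, ← dw.deriv]
  have p0 := Real.rpow_pos_of_pos a0 ((q + 2) / (q + 3))
  have et := Real.sq_sqrt ht.le
  have ew := dw.deriv
  rw [Real.rpow_sub_one he3.ne', s3] at ew
  have ew0 : w1 q S t = (S.e1 t / (S.e3 t ^ ((1 : ℝ) / 6)) ^ 3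
      + q / 2 * (1 / S.e3 t ^ ((1 : ℝ) / 6) + S.e3 t ^ ((1 : ℝ) / 6) / S.C t)) / √t := by
    rw [w1, s3]
  have eH : H1 q S t = (3 + t * deriv S.e3 t / S.e3 t + q * ll S.C t) * sg S t := rfl
  have eh : hh q S t = H1 q S t / sg S t := (mul_div_cancel_right₀ _ L0.ne').symm
  have hM : H1 q S t ^ 2 - S.P t ^ 2 ≤ w1 q S t ^ 2 :=
    (div_le_one (by positivity)).1 (sub_nonneg.1
      ((mul_nonneg_iff_of_pos_left (by positivity)).1 hm))
  have K1 := hK 1 (.inl rfl)
  have K2 := hK (-1) (.inr rfl)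
  have G0 := g0 0
  have G1 := g0 1
  have G2 := g0 2
  simp only [Fin.sum_univ_three, Fin.prod_univ_three] at x1 x3 y1 y3 xP K1 K2
  rw [Real.rpow_sub_one a0.ne', eh]
  generalize S.e3 t ^ ((1 : ℝ) / 6) = s at *
  generalize √t = r at *
  have eR := Mono.alg_R q g r0 s0 hC et (x3.symm.trans s6.symm)
  have hJ := h2 q (g 0 / (r * s ^ 3)) (g 1 / (r * s ^ 3)) (g 2 / (r * s ^ 3)) _ (1 / (r * s))
    (s / (r * S.C t)) q0.le (by positivity) (by positivity) (by positivity) (by positivity)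
    (by positivity) (by
      rw [div_mul_div_comm, div_mul_div_comm, ← x3, ← s6]; field_simp) rfl
  rw [← eR] at hJ
  have eW : w1 q S t = g 0 / (r * s ^ 3) + g 1 / (r * s ^ 3) + g 2 / (r * s ^ 3)
      + q / 2 * (1 / (r * s) + s / (r * S.C t)) := by
    rw [ew0, x1]; field_simp
  have k := h1 ![1, 1, 1, q]
    ![(1 + t * g' 0 / g 0) * sg S t, (1 + t * g' 1 / g 1) * sg S t, (1 + t * g' 2 / g 2) * sg S t,
      ll S.C t * sg S t] ![κ 0, κ 1, κ 2, kh]
    ![2 * (g 0 / (r * s ^ 3)) - (g 0 / (r * s ^ 3) + g 1 / (r * s ^ 3) + g 2 / (r * s ^ 3))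
        + q / 6 * (s / (r * S.C t) - 1 / (r * s)),
      2 * (g 1 / (r * s ^ 3)) - (g 0 / (r * s ^ 3) + g 1 / (r * s ^ 3) + g 2 / (r * s ^ 3))
        + q / 6 * (s / (r * S.C t) - 1 / (r * s)),
      2 * (g 2 / (r * s ^ 3)) - (g 0 / (r * s ^ 3) + g 1 / (r * s ^ 3) + g 2 / (r * s ^ 3))
        + q / 6 * (s / (r * S.C t) - 1 / (r * s)), -(s / (r * S.C t))]
    (q + 3) (H1 q S t) (S.P t) (w1 q S t) (2 * t * sg S t * deriv (w1 q S) t)
    (2 * t * sg S t * deriv (H1 q S) t) (2 * t * sg S t * deriv S.P t) k0 (RS q t (S.C t) g)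
    (by intro i; fin_cases i <;> simp [q0.le])
    (by simp only [Fin.sum_univ_four, Matrix.cons_val]; ring) (by positivity)
    (by
      simp only [Fin.sum_univ_four, Matrix.cons_val]
      rw [eH, y3]; field_simp; ring)
    (by simp only [Fin.sum_univ_four, Matrix.cons_val]; rw [xP]; ring)
    (by simp only [Fin.sum_univ_four, Matrix.cons_val]; rw [eW]; ring) w0
    (by
      simp only [Fin.sum_univ_four, Matrix.cons_val]
      rw [ew, y1, y3, x1, ll]
      clear * - et s6 hC r0 s0 G0 G1 G2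
      generalize deriv S.C t = C', sg S t = σ
      generalize S.C t = C, S.e3 t = e at *
      subst et s6
      field_simp
      ring)
    (by simp only [Fin.sum_univ_four, Matrix.cons_val]; rw [eW]; linarith)
    (by simp only [Fin.sum_univ_four, Matrix.cons_val]; linarith)
    (by simp only [Fin.sum_univ_four, Matrix.cons_val]; linarith) hp hq hM
  refine (mul_nonneg_iff_of_pos_left (show 0 < 2 * t * sg S t by positivity)).1
    ((mul_nonneg (half_pos p0).le k).trans_eq ?_)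
  push_cast
  field_simp
  ring

end Vale.Agent.P366S
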