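import Vale.Agent.P366S.Stm

/-! The algebraic inequalities behind the monotonicity of the mass. -/

namespace Vale.Agent.P366S

theorem MonoAbs_pt {H P w c l k : ℝ} (hp : 0 < H + P) (hm : 0 < H - P) (hw : 0 < w)
    (huw : H ^ 2 - P ^ 2 ≤ w ^ 2) : 0 ≤ H * w * c ^ 2 +
      w * ((H - P) * (l + k) ^ 2 + (H + P) * (l - k) ^ 2) / 2 + 2 * (H ^ 2 - P ^ 2) * (c * l) := by
  have hH : 0 < H := by linarith
  have hu : 0 ≤ H ^ 2 - P ^ 2 := by nlinarith [mul_pos hp hm]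
  refine (mul_nonneg_iff_of_pos_left (mul_pos hH hw)).1 ?_
  have e : H * w * (H * w * c ^ 2 +
      w * ((H - P) * (l + k) ^ 2 + (H + P) * (l - k) ^ 2) / 2 + 2 * (H ^ 2 - P ^ 2) * (c * l)) =
      (H ^ 2 - P ^ 2) * (w * l + H * c) ^ 2 + (w ^ 2 - (H ^ 2 - P ^ 2)) * (H * c) ^ 2 +
        w ^ 2 * ((H - P) * (l + k) - (H + P) * (l - k)) ^ 2 / 4 := by ring
  have a := mul_nonneg (sub_nonneg.2 huw) (sq_nonneg (H * c))
  rw [e]
  positivity

theorem monoAbs_pf : MonoAbsStmt := by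
  intro m lam kap gam d H P w ws Hs Ps k0 R hm hd d0 hH hP hw w0 hws hR h1 h2 hp hn huw
  have H0 : 0 < H := by linarith
  have q := Finset.sum_nonneg fun i (_ : i ∈ Finset.univ) => mul_nonneg (hm i)
    (MonoAbs_pt (c := gam i + w / d) (l := lam i - H / d) (k := kap i - P / d) hp hn w0 huw)
  have e : ∀ a b e : ℝ, ∑ i, m i * (H * w * (gam i + e) ^ 2 + w * ((H - P) *
      (lam i - a + (kap i - b)) ^ 2 + (H + P) * (lam i - a - (kap i - b)) ^ 2) / 2 +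
      2 * (H ^ 2 - P ^ 2) * ((gam i + e) * (lam i - a))) =
      H * w * ∑ i, m i * gam i ^ 2 + w * ((H - P) * ∑ i, m i * (lam i + kap i) ^ 2 +
        (H + P) * ∑ i, m i * (lam i - kap i) ^ 2) / 2 +
        2 * (H ^ 2 - P ^ 2) * ∑ i, m i * gam i * lam i +
      (2 * (H ^ 2 - P ^ 2) * e - w * ((H - P) * (a + b) + (H + P) * (a - b))) *
        ∑ i, m i * lam i +
      w * ((H + P) * (a - b) - (H - P) * (a + b)) * ∑ i, m i * kap i -
      (2 * H * w * e - 2 * (H ^ 2 - P ^ 2) * a) * (-∑ i, m i * gam i) +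
      (H * w * e ^ 2 + w * ((H - P) * (a + b) ^ 2 + (H + P) * (a - b) ^ 2) / 2 -
        2 * (H ^ 2 - P ^ 2) * e * a) * ∑ i, m i := fun a b e => by
    simp only [Fin.sum_univ_four]
    ring
  rw [e, ← hH, ← hP, ← hw, ← hd, ← hws] at q
  generalize ∑ i, m i * gam i ^ 2 = G at q hR
  generalize ∑ i, m i * (lam i + kap i) ^ 2 = Np at q h1
  generalize ∑ i, m i * (lam i - kap i) ^ 2 = Nm at q h2
  have e1 : (2 * (H ^ 2 - P ^ 2) * (w / d) - w * ((H - P) * (H / d + P / d) +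
      (H + P) * (H / d - P / d))) * H +
      w * ((H + P) * (H / d - P / d) - (H - P) * (H / d + P / d)) * P -
      (2 * H * w * (w / d) - 2 * (H ^ 2 - P ^ 2) * (H / d)) * w +
      (H * w * (w / d) ^ 2 + w * ((H - P) * (H / d + P / d) ^ 2 +
        (H + P) * (H / d - P / d) ^ 2) / 2 - 2 * (H ^ 2 - P ^ 2) * (w / d) * (H / d)) * d =
      -(H * w * (w ^ 2 - (H ^ 2 - P ^ 2)) / d) := by
    field_simp
    ring
  have e2 : (d - 1) / d * H * (1 - (H ^ 2 - P ^ 2) / w ^ 2) - (2 * H * Hs - 2 * P * Ps) / w ^ 2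
      + 2 * (H ^ 2 - P ^ 2) * ws / w ^ 3 = (H * w * (w ^ 2 - (H ^ 2 - P ^ 2)) -
        H * w * (w ^ 2 - (H ^ 2 - P ^ 2)) / d - w * ((H - P) * (Hs + Ps) + (H + P) * (Hs - Ps)) +
        2 * (H ^ 2 - P ^ 2) * ws) / w ^ 3 := by
    field_simp
    ring
  rw [e2]
  refine div_nonneg ?_ (by positivity)
  have b1 := mul_le_mul_of_nonneg_left h1 (mul_pos w0 hn).le
  have b2 := mul_le_mul_of_nonneg_left h2 (mul_pos w0 hp).le
  have b3 := mul_le_mul_of_nonneg_left hR (mul_pos H0 w0).le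
  generalize H * w * (w ^ 2 - (H ^ 2 - P ^ 2)) / d = Z at e1 ⊢
  linarith

theorem hj_pf : HJStmt := by
  intro q v0 v1 v2 W G Y hq h0 h1 h2 hG hY hv hW
  have a : 3 * G ≤ W := by
    by_contra h
    have b : W ^ 3 < (3 * G) ^ 3 :=
      pow_lt_pow_left₀ (not_le.1 h) (by rw [hW]; positivity) (by norm_num)
    have c : 27 * (v0 * v1 * v2) ≤ (v0 + v1 + v2) ^ 3 := by
      nlinarith [mul_nonneg h0.le (sq_nonneg (v1 - v2)), mul_nonneg h1.le (sq_nonneg (v0 - v2)),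
        mul_nonneg h2.le (sq_nonneg (v0 - v1)), mul_nonneg (by positivity : 0 ≤ v0 + v1 + v2)
          (by positivity : 0 ≤ (v0 - v1) ^ 2 + (v1 - v2) ^ 2 + (v0 - v2) ^ 2)]
    rw [← hW, hv] at c
    nlinarith
  have e : (W + q / 2 * (G + Y)) ^ 2 - ((2 * v0 - W + q / 6 * (Y - G)) ^ 2
        + (2 * v1 - W + q / 6 * (Y - G)) ^ 2 + (2 * v2 - W + q / 6 * (Y - G)) ^ 2 + q * Y ^ 2) -
      (2 * W ^ 2 - 4 * (v0 ^ 2 + v1 ^ 2 + v2 ^ 2) + q * (q + 8) * (G * Y) - q * (W * Y ^ 2 / G)) =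
      q * ((2 + q / 6) * (G - Y) ^ 2 + (W - 3 * G) * (2 * G / 3 + 4 * Y / 3 + Y ^ 2 / G)) := by
    rw [hW]
    field_simp
    ring
  have b : 0 ≤ W - 3 * G := sub_nonneg.2 a
  have c : 0 ≤ q * ((2 + q / 6) * (G - Y) ^ 2 +
    (W - 3 * G) * (2 * G / 3 + 4 * Y / 3 + Y ^ 2 / G)) := by positivity
  linarith

end Vale.Agent.P366S
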