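import Vale.Agent.P366S.Stm2

/-! The quadratic term in the Christoffel symbols (general `Sp(m+1)` case). -/

namespace Vale.Agent.P366S

open scoped Matrix
open Matrix
open Vale.Agent.P366 (Pt IsQuat Hor dot_pos)

namespace QAux

variable {n : ℕ} {J : Fin 3 → Matrix (Fin n) (Fin n) ℝ} {x : Pt n}

theorem trL (p q : Pt n) (N : Matrix (Fin n) (Fin n) ℝ) :
    (vecMulVec p q * N).trace = q ⬝ᵥ (N *ᵥ p) := by
  rw [trace_mul_comm, mul_vecMulVec, trace_vecMulVec, dotProduct_comm]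

theorem trR (p q : Pt n) (N : Matrix (Fin n) (Fin n) ℝ) :
    (N * vecMulVec p q).trace = q ⬝ᵥ (N *ᵥ p) := by
  rw [trace_mul_comm, trL]

/-- The Christoffel symbols as a linear map. -/
noncomputable def gamL (J : Fin 3 → Matrix (Fin n) (Fin n) ℝ) (x : Pt n) (F G F' : M4)
    (C C' : ℝ) : Pt n →ₗ[ℝ] Matrix (Fin n) (Fin n) ℝ where
  toFun := Gam J x F G F' C C'
  map_add' u v := by
    rw [Gam, Gam, Gam, ← Matrix.mul_add]
    refine congrArg _ ?_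
    simp only [Tm, Jo, Ym_add, mulVec_add, vecMulVec_add, add_vecMulVec, dotProduct_add,
      Pi.add_apply, Matrix.add_mul, Matrix.sub_mul]
    module
  map_smul' c u := by
    rw [Gam, Gam, RingHom.id_apply, ← Matrix.mul_smul]
    refine congrArg _ ?_
    simp only [Tm, Jo, Ym_smul, mulVec_smul, vecMulVec_smul, smul_vecMulVec, dotProduct_smul,
      smul_eq_mul, Pi.smul_apply, Matrix.smul_mul, Matrix.sub_mul]
    module

theorem blk_ker {m : Type} (F : M4) (C : ℝ) {N : Matrix (Fin n) m ℝ} (hN : (Ym J x)ᵀ * N = 0) :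
    blk J x F C * N = C • N := by
  rw [blk_eq, Matrix.add_mul, Matrix.mul_assoc, hN, Matrix.mul_zero, add_zero, Matrix.smul_mul,
    Matrix.one_mul]

theorem yp (h : IsQuat J) (hx : x ≠ 0) : (Ym J x)ᵀ * blk J x 0 1 = 0 := by
  rw [Y_blk h hx, Matrix.zero_mul]

theorem yjp (h : IsQuat J) (hx : x ≠ 0) (a : Fin 4 → ℝ) :
    (Ym J x)ᵀ * (Jo J a * blk J x 0 1) = 0 := by
  have := congrArg transpose (Jo_Y h x a)
  rw [transpose_mul, transpose_mul, Jo_T h, Matrix.mul_neg, neg_eq_iff_eq_neg] at this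
  rw [← Matrix.mul_assoc, this, Matrix.neg_mul, Matrix.mul_assoc, yp h hx, Matrix.mul_zero,
    neg_zero]

theorem tr1 (h : IsQuat J) (a : Fin 4 → ℝ) : (Jo J a * blk J x 0 1).trace = 0 := by
  have := trace_transpose (Jo J a * blk J x 0 1)
  rw [transpose_mul, Jo_T h, blk_T, transpose_zero, Matrix.mul_neg, trace_neg,
    trace_mul_comm] at this
  linarith

theorem tr2 (h : IsQuat J) (hx : x ≠ 0) (a b : Fin 4 → ℝ) :
    (Jo J a * (Jo J b * blk J x 0 1)).trace = -((a ⬝ᵥ b - a 0 * b 0) * ((n : ℝ) - 4)) := by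
  have e1 := trace_transpose (Jo J a * (Jo J b * blk J x 0 1))
  rw [transpose_mul, transpose_mul, Jo_T h, Jo_T h, blk_T, transpose_zero, Matrix.mul_neg,
    Matrix.mul_neg, Matrix.neg_mul, neg_neg, Matrix.mul_assoc, trace_mul_comm,
    Matrix.mul_assoc] at e1
  have e2 := congrArg (fun M => (M * blk J x 0 1).trace) (Jo_mul_add h a b)
  simp only [Matrix.add_mul, trace_add, Matrix.mul_assoc, Matrix.smul_mul, Matrix.one_mul,
    trace_smul, blk_trace h hx, trace_zero, smul_eq_mul] at e2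
  linarith

theorem f_y (H : TmStmt) (h : IsQuat J) (hx : x ≠ 0) {F F' : M4} (G : M4) (C C' : ℝ)
    (hF : Fᵀ = F) (hF' : F'ᵀ = F') (p r : Fin 4 → ℝ) :
    (Gam J x F G F' C C' (Ym J x *ᵥ r) * Gam J x F G F' C C' (Ym J x *ᵥ p)).trace =
      (x ⬝ᵥ x) ^ 2 * (G * Th (x ⬝ᵥ x) F F' C r * (G * Th (x ⬝ᵥ x) F F' C p)).trace +
        (x ⬝ᵥ x) ^ 2 * C⁻¹ ^ 2 * ((n : ℝ) - 4) * (r 0 * p 0 * C' ^ 2 -
          ((ph (x ⬝ᵥ x) F C *ᵥ r) ⬝ᵥ (ph (x ⬝ᵥ x) F C *ᵥ p) -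
            (ph (x ⬝ᵥ x) F C *ᵥ r) 0 * (ph (x ⬝ᵥ x) F C *ᵥ p) 0)) := by
  have e : ∀ p, Gam J x F G F' C C' (Ym J x *ᵥ p) =
      Ym J x * (G * Th (x ⬝ᵥ x) F F' C p * (Ym J x)ᵀ) + (C⁻¹ * ((x ⬝ᵥ x) * p 0 * C')) • blk J x 0 1
        + (C⁻¹ * (x ⬝ᵥ x)) • (Jo J (ph (x ⬝ᵥ x) F C *ᵥ p) * blk J x 0 1) := fun p => by
    rw [Gam, (H n J x F F' C C' h hx hF hF').1, Matrix.mul_add, ← Matrix.mul_assoc,
      ← Matrix.mul_assoc, blk_Y h hx]
    simp only [Matrix.add_mul, Matrix.smul_mul, Matrix.one_mul, Matrix.mul_add, Matrix.mul_smul,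
      blk_ker G C⁻¹ (yp h hx), blk_ker G C⁻¹ (yjp h hx _), Matrix.mul_assoc]
    module
  have z1 : ∀ M : Matrix (Fin 4) (Fin n) ℝ, blk J x 0 1 * (Ym J x * M) = 0 := fun M => by
    rw [← Matrix.mul_assoc, blk_Y h hx, Matrix.mul_zero, Matrix.zero_mul]
  have z2 : ∀ M : Matrix (Fin 4) (Fin n) ℝ, (Ym J x)ᵀ * (Ym J x * M) = (x ⬝ᵥ x) • M := fun M => by
    rw [← Matrix.mul_assoc, YtY h, Matrix.smul_mul, Matrix.one_mul]
  have z3 : ∀ A : M4, (Ym J x * (A * (Ym J x)ᵀ)).trace = (x ⬝ᵥ x) * A.trace := fun A => by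
    rw [trace_mul_comm, Matrix.mul_assoc, YtY h, Matrix.mul_smul, Matrix.mul_one, trace_smul,
      smul_eq_mul]
  rw [e, e]
  generalize G * Th (x ⬝ᵥ x) F F' C p = A
  generalize G * Th (x ⬝ᵥ x) F F' C r = B
  have z4 := z3 (B * A)
  rw [Matrix.mul_assoc] at z4
  simp only [Matrix.add_mul, Matrix.mul_add, Matrix.smul_mul, Matrix.mul_smul, Matrix.mul_assoc,
    z1, z2, yp h hx, yjp h hx, blk_ker 0 1 (yp h hx), blk_ker 0 1 (yjp h hx _), one_smul,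
    Matrix.mul_zero, smul_zero, trace_add, trace_smul, trace_zero, z4, tr1 h, tr2 h hx,
    blk_trace h hx, smul_eq_mul]
  ring

theorem f_v (H : TmStmt) (h : IsQuat J) (hx : x ≠ 0) {F F' : M4} (G : M4) (C C' : ℝ)
    (hF : Fᵀ = F) (hF' : F'ᵀ = F') {v : Pt n} (hv : Hor J x v) :
    (Gam J x F G F' C C' v * Gam J x F G F' C C' v).trace =
      2 * (x ⬝ᵥ x) * pv (x ⬝ᵥ x) F G C C' 0 * C' * C⁻¹ * (v ⬝ᵥ v) := by
  have h0 := (hor_iff _ _).1 hv
  have h1 : (Ym J x)ᵀ * (Ym J v - vecMulVec v e0) = 0 := by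
    rw [Matrix.mul_sub, YtY_hor h hv, mul_vecMulVec, h0, zero_vecMulVec, sub_zero]
  have h2 : ∀ w, v ⬝ᵥ ((Ym J v - vecMulVec v e0) *ᵥ w) = 0 := fun w => by
    rw [sub_mulVec, dotProduct_sub, x_dot_Y h, vecMulVec_mulVec, op_smul_eq_smul, dotProduct_smul,
      e0, single_one_dotProduct, smul_eq_mul, mul_comm, sub_self]
  have h3 : ∀ w, v ⬝ᵥ (Ym J x *ᵥ w) = 0 := fun w => by
    rw [dotProduct_mulVec, ← mulVec_transpose, h0, zero_dotProduct]
  have e : Gam J x F G F' C C' v = vecMulVec (Ym J x *ᵥ pv (x ⬝ᵥ x) F G C C') v +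
      C⁻¹ • ((Ym J v - vecMulVec v e0) * (ph (x ⬝ᵥ x) F C * (Ym J x)ᵀ)) +
      (C' * C⁻¹) • vecMulVec v x := by
    rw [Gam, (H n J x F F' C C' h hx hF hF').2.1 v hv, Matrix.mul_add, Matrix.mul_add,
      Matrix.mul_assoc, ← Matrix.mul_assoc (blk J x G C⁻¹), blk_ker G C⁻¹ h1, mul_vecMulVec,
      blk_Yv h hx, Matrix.mul_smul, mul_vecMulVec, blk_hor hv, smul_vecMulVec, smul_smul,
      Matrix.smul_mul, pv]
  rw [e]
  generalize Ym J v - vecMulVec v e0 = Z at h1 h2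
  have h4 : ∀ M : Matrix (Fin 4) (Fin n) ℝ, (Ym J x)ᵀ * (Z * M) = 0 := fun M => by
    rw [← Matrix.mul_assoc, h1, Matrix.zero_mul]
  simp only [Matrix.add_mul, Matrix.mul_add, Matrix.smul_mul, Matrix.mul_smul, trace_add,
    trace_smul, trL, trR, smul_eq_mul]
  simp only [Matrix.mul_assoc, h4, Matrix.mul_zero, trace_zero, ← mulVec_mulVec, h0, h2, h3,
    mulVec_zero, dotProduct_zero, vecMulVec_mulVec, op_smul_eq_smul, dotProduct_smul, smul_eq_mul,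
    hv.1, x_dot_Y h]
  ring

end QAux

open QAux

theorem q_pf (H : TmStmt) : QStmt := by
  intro n J x F G F' C C' h hx hF _ hF' _ hC
  have ht := (dot_pos hx).ne'
  have key := contract h hx (LinearMap.mk₂ ℝ
    (fun u v => (gamL J x F G F' C C' v * gamL J x F G F' C C' u).trace)
    (fun _ _ _ => by rw [map_add, Matrix.mul_add, trace_add])
    (fun _ _ _ => by rw [map_smul, Matrix.mul_smul, trace_smul])
    (fun _ _ _ => by rw [map_add, Matrix.add_mul, trace_add])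
    (fun _ _ _ => by rw [map_smul, Matrix.smul_mul, trace_smul])) G C⁻¹ _
    fun v hv => f_v H h hx G C C' hF hF' hv
  refine key.trans ?_
  have hs : ∀ a b, ph (x ⬝ᵥ x) F C a b = ph (x ⬝ᵥ x) F C b a := fun a b => by
    have : (ph (x ⬝ᵥ x) F C)ᵀ = ph (x ⬝ᵥ x) F C := by
      rw [ph, transpose_smul, transpose_sub, transpose_smul, transpose_one, hF]
    exact (congrFun (congrFun this a) b).symm
  simp only [LinearMap.mk₂_apply, gamL, LinearMap.coe_mk, AddHom.coe_mk, f_y H h hx G C C' hF hF',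
    QQ, mul_add, Finset.sum_add_distrib]
  generalize ph (x ⬝ᵥ x) F C = φ at hs
  have e1 : ∀ (s : ℝ) (T : Fin 4 → Fin 4 → ℝ), ∑ c, ∑ d, G c d * (s * T c d) =
      s * ∑ c, ∑ d, G c d * T c d := fun s T => by
    simp only [Finset.mul_sum, mul_left_comm]
  have e2 : ∑ c : Fin 4, ∑ d : Fin 4, G c d * ((Pi.single d 1 : Fin 4 → ℝ) 0 *
      (Pi.single c 1 : Fin 4 → ℝ) 0 * C' ^ 2 - ((φ *ᵥ Pi.single d 1) ⬝ᵥ (φ *ᵥ Pi.single c 1) -
        (φ *ᵥ Pi.single d 1) 0 * (φ *ᵥ Pi.single c 1) 0)) =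
      G 0 0 * C' ^ 2 - ((φ * G * φ).trace - (φ * G * φ) 0 0) := by
    simp only [mulVec_single_one, col_apply, dotProduct, trace, diag, mul_apply, Fin.sum_univ_four,
      Pi.single_apply, hs 1 0, hs 2 0, hs 3 0, hs 2 1, hs 3 1, hs 3 2]
    simp
    ring
  rw [e1, e1, e2]
  field_simp
  ring

end Vale.Agent.P366S
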