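import Vale.Agent.P366S.Stm2

/-! The scalar curvature of the ansatz (general `Sp(m+1)` case). -/

namespace Vale.Agent.P366S

open scoped Matrix ContDiff Topology
open Filter Set Matrix
open Vale.Agent.P366 (Pt Ten pd chr scal IsQuat ll dot_pos sum_mul_mul)

namespace ScalAux

/-- entrywise differentiability -/
def DM (A : ℝ → M4) (t : ℝ) : Prop := ∀ a b, DifferentiableAt ℝ (fun s => A s a b) t

def DV (v : ℝ → Fin 4 → ℝ) (t : ℝ) : Prop := ∀ a, DifferentiableAt ℝ (fun s => v s a) t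

variable {A B : ℝ → M4} {u v : ℝ → Fin 4 → ℝ} {c : ℝ → ℝ} {t : ℝ}

theorem DM.const (M : M4) : DM (fun _ => M) t := fun _ _ => differentiableAt_const _
theorem DV.const (p : Fin 4 → ℝ) : DV (fun _ => p) t := fun _ => differentiableAt_const _
theorem DM.add (h : DM A t) (h' : DM B t) : DM (fun s => A s + B s) t :=
  fun a b => (h a b).add (h' a b)
theorem DM.sub (h : DM A t) (h' : DM B t) : DM (fun s => A s - B s) t :=
  fun a b => (h a b).sub (h' a b)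
theorem DM.smul (hc : DifferentiableAt ℝ c t) (h : DM A t) : DM (fun s => c s • A s) t :=
  fun a b => hc.mul (h a b)
theorem DM.mul (h : DM A t) (h' : DM B t) : DM (fun s => A s * B s) t :=
  fun a b => DifferentiableAt.fun_sum (u := Finset.univ) fun k _ => (h a k).fun_mul (h' k b)
theorem DM.trace (h : DM A t) : DifferentiableAt ℝ (fun s => (A s).trace) t :=
  DifferentiableAt.fun_sum fun k _ => h k k
theorem DM.mulVec (h : DM A t) (h' : DV v t) : DV (fun s => A s *ᵥ v s) t :=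
  fun a => DifferentiableAt.fun_sum (u := Finset.univ) fun k _ => (h a k).fun_mul (h' k)
theorem DV.vmv (h : DV u t) (h' : DV v t) : DM (fun s => vecMulVec (u s) (v s)) t :=
  fun a b => (h a).mul (h' b)
theorem DV.add (h : DV u t) (h' : DV v t) : DV (fun s => u s + v s) t := fun a => (h a).add (h' a)
theorem DV.sub (h : DV u t) (h' : DV v t) : DV (fun s => u s - v s) t := fun a => (h a).sub (h' a)
theorem DV.smul (hc : DifferentiableAt ℝ c t) (h : DV v t) : DV (fun s => c s • v s) t :=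
  fun a => hc.mul (h a)
theorem DV.sum {f : Fin 4 → ℝ → Fin 4 → ℝ} (h : ∀ i, DV (f i) t) :
    DV (fun s => ∑ i, f i s) t := fun a => by
  simp only [Finset.sum_apply]
  exact DifferentiableAt.fun_sum fun i _ => h i a
theorem DV.lq (h : DV v t) : DM (fun s => Lq (v s)) t := fun a b => by
  fin_cases a <;> fin_cases b <;> first | exact h _ | exact (h _).neg

theorem dv_Vh {F G F' : ℝ → M4} {C C' : ℝ → ℝ} (q : ℝ) (ht : t ≠ 0) (hF : DM F t) (hG : DM G t)
    (hF' : DM F' t) (hC : DifferentiableAt ℝ C t) (hC' : DifferentiableAt ℝ C' t) (h0 : C t ≠ 0) :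
    DV (fun s => Vh q s (F s) (G s) (F' s) (C s) (C' s)) t := by
  have h1 : DM (fun s => ph s (F s) (C s)) t :=
    DM.smul (differentiableAt_inv ht) (hF.sub (DM.smul hC (DM.const 1)))
  have h2 := hF'.sub h1
  have h3 : ∀ p, DM (fun s => Th s (F s) (F' s) (C s) p) t := fun p =>
    (((((DM.smul (differentiableAt_const _) h2).add ((h2.mulVec (DV.const p)).vmv
      (DV.const e0))).sub ((DV.const e0).vmv (h2.mulVec (DV.const p)))).add
      ((h1.mulVec (DV.const e0)).vmv (DV.const p))).add ((DM.const _).mul h1)).add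
      ((h1.mulVec (DV.const p)).lq.sub (DM.smul (h1.mulVec (DV.const p) 0) (DM.const 1)))
  exact (hG.mulVec (DV.sum fun c => DV.sum fun d => DV.smul (hG c d)
    ((h3 _).mulVec (DV.const _)))).add (DV.smul ((differentiableAt_const q).div hC h0)
      (hG.mulVec ((h1.mulVec (DV.const e0)).sub (DV.smul hC' (DV.const e0)))))

theorem alg {q t p w w' W W' T T' C C' V V' Q h' : ℝ} (ht : t ≠ 0) (hp : p ≠ 0) (hC : C ≠ 0)
    (h1 : t * V = 2 * t * w - (q + 4) * p - t * W * p + T + q / C)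
    (h2 : V + t * V' = 2 * w + 2 * t * w' + (q + 4) * w - (W + t * W') * p + t * W * w - T'
      - q * C' / C ^ 2)
    (h3 : h' = W + t * W' - ((w + t * w') * p + t * w * w) / p ^ 2) :
    2 * t * V' + (q + 4) * V - (2 * W' * (t * p) + W * (T + q * C⁻¹)) + W * (t * V) + Q =
      -4 * p * h' + (2 * w + 2 * (q + 3 + t * W - t * w / p) * w - 2 * T' - 2 * q * C' / C ^ 2
        - 2 * t * w ^ 2 / p + 2 * W * p
        + (q + 2) * (2 * t * w - (q + 4) * p - t * W * p + T + q / C) / t - W * (T + q / C)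
        + W * (2 * t * w - (q + 4) * p - t * W * p + T + q / C) + Q) := by
  have e : 2 * t * V' = 2 * (V + t * V') - 2 * V := by ring
  rw [e, h2, ← h1, h3]
  field_simp
  ring

/-- The coefficients of the contracted Christoffel symbols. -/
noncomputable def fv (q : ℝ) (D : Dat) (s : ℝ) : Fin 4 → ℝ :=
  Vh q s (D.F s) (D.F s)⁻¹ (md D.F s) (D.C s) (deriv D.C s)

/-- The coefficient of the traced Christoffel symbols. -/
noncomputable def fw (q : ℝ) (D : Dat) (s : ℝ) : ℝ :=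
  ww q (D.F s)⁻¹ (md D.F s) (D.C s) (deriv D.C s)

theorem md_T (D : Dat) (s : ℝ) : (md D.F s)ᵀ = md D.F s := by
  ext a b
  have : (fun s => D.F s b a) = fun s => D.F s a b :=
    funext fun s => congrFun (congrFun (D.sF s) a) b
  exact congrArg (fun f => deriv f s) this

theorem inv_T (D : Dat) (s : ℝ) : (D.F s)⁻¹ᵀ = (D.F s)⁻¹ := by
  rw [Matrix.transpose_nonsing_inv, D.sF]

theorem good (hJ : JacStmt) (D : Dat) (ht : 0 < t) (hF : (D.F t).PosDef) (hC : 0 < D.C t) :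
    ∀ᶠ s in 𝓝 t, 0 < s ∧ (D.F s).det ≠ 0 ∧ D.C s ≠ 0 ∧ (D.F s)⁻¹ 0 0 ≠ 0 := by
  obtain ⟨j1, -, -, j4⟩ := hJ.2 D.F t (D.hF t ht) hF.det_pos.ne'
  exact (eventually_gt_nhds ht).and ((j4.continuousAt.eventually_ne hF.det_pos.ne').and
    (((D.hC t ht).continuousAt.eventually_ne hC.ne').and
      ((j1 0 0).continuousAt.eventually_ne (hF.inv.diag_pos (i := 0)).ne')))

theorem one_var (h0 : V0Stmt) (hJ : JacStmt) (hH : HhStmt) (q : ℝ) (D : Dat) (ht : 0 < t)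
    (hF : (D.F t).PosDef) (hC : 0 < D.C t) : DV (fv q D) t ∧ DifferentiableAt ℝ (fw q D) t ∧
    2 * t * deriv (fun s => fv q D s 0) t + (q + 4) * fv q D t 0
      - (2 * deriv (fw q D) t * (t * (D.F t)⁻¹ 0 0)
        + fw q D t * ((D.F t)⁻¹.trace + q * (D.C t)⁻¹)) + fw q D t * (t * fv q D t 0)
      + QQ q t (D.F t) (D.F t)⁻¹ (md D.F t) (D.C t) (deriv D.C t) =
      -4 * (D.F t)⁻¹ 0 0 * deriv (hh q (toSca q D)) t
        + FF q t (D.F t) (D.F t)⁻¹ (md D.F t) (D.C t) (deriv D.C t) := by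
  have ev := good hJ D ht hF hC
  obtain ⟨-, g1, g2, g3⟩ := ev.self_of_nhds
  obtain ⟨j1, j2, j3, -⟩ := hJ.2 D.F t (D.hF t ht) g1
  have dF : DM D.F t := fun a b => (D.hF t ht a b).differentiableAt (by simp)
  have dG : DM (fun s => (D.F s)⁻¹) t := fun a b => (j1 a b).differentiableAt (by simp)
  have dF' : DM (md D.F) t := fun a b => (j2 a b).differentiableAt (by simp)
  have dC : DifferentiableAt ℝ D.C t := (D.hC t ht).differentiableAt (by simp)
  have dC' : DifferentiableAt ℝ (deriv D.C) t :=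
    ((D.hC t ht).derivWithin (m := ∞) le_rfl).differentiableAt (by simp)
  have dv : DV (fv q D) t := dv_Vh q ht.ne' dF dG dF' dC dC' g2
  have dw : DifferentiableAt ℝ (fw q D) t :=
    (dG.mul dF').trace.add ((dC'.const_mul q).div dC g2)
  refine ⟨dv, dw, ?_⟩
  have i1 := hasDerivAt_id' t
  have hw := ((dG.mul dF').mul dG 0 0).hasDerivAt
  have hT : HasDerivAt (fun s => (D.F s)⁻¹.trace)
      (∑ k, -((D.F t)⁻¹ * md D.F t * (D.F t)⁻¹) k k) t := HasDerivAt.fun_sum fun k _ => j3 k k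
  rw [Finset.sum_neg_distrib] at hT
  have e1 : ∀ᶠ s in 𝓝 t, s * fv q D s 0 = v0 q s (D.F s)⁻¹ (md D.F s) (D.C s) (deriv D.C s) :=
    ev.mono fun s hs => (h0 q s _ _ _ _ _ hs.1.ne' hs.2.2.1 (D.sF s) (inv_T D s) (md_T D s)
      (Matrix.nonsing_inv_mul _ (Ne.isUnit hs.2.1))).1
  have e2 : hh q (toSca q D) =ᶠ[𝓝 t]
      fun s => hA q s (D.F s)⁻¹ (md D.F s) (D.C s) (deriv D.C s) :=
    ev.mono fun s hs => (hH q D s hs.1 hs.2.1 hs.2.2.2).1
  have d1 := (i1.fun_mul (dv 0).hasDerivAt).unique (HasDerivAt.congr_of_eventuallyEq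
    ((((((i1.const_mul 2).fun_mul hw).fun_sub ((j3 0 0).const_mul (q + 4))).fun_sub
      ((i1.fun_mul dw.hasDerivAt).fun_mul (j3 0 0))).fun_add hT).fun_add
      ((hasDerivAt_const t q).fun_div dC.hasDerivAt g2)) e1)
  have d2 := (HasDerivAt.congr_of_eventuallyEq (((i1.fun_mul dw.hasDerivAt).const_add
    (q + 3)).fun_sub ((i1.fun_mul hw).fun_div (j3 0 0) g3)) e2).deriv
  exact alg (w' := deriv (fun s => ((D.F s)⁻¹ * md D.F s * (D.F s)⁻¹) 0 0) t) (T' := ((D.F t)⁻¹ * md D.F t * (D.F t)⁻¹).trace) ht.ne' g3 g2 e1.self_of_nhds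
    (by rw [Matrix.trace]; simp only [Matrix.diag_apply]; linear_combination d1)
    (by linear_combination d2)

theorem pd_congr {n : ℕ} {f g : Pt n → ℝ} {x : Pt n} (h : f =ᶠ[𝓝 x] g) (i : Fin n) :
    pd i f x = pd i g x := by
  unfold pd
  rw [h.fderiv_eq]

end ScalAux

open ScalAux

theorem scal_pf (hG : P366.GenRStmt) (hS : SmoothStmt) (hR : P366.RadStmt) (hRY : RadYStmt)
    (hC : ChrStmt) (hV : VStmt) (hW : WStmt) (hQ : QStmt) (h0 : V0Stmt) (hJ : JacStmt)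
    (hH : HhStmt) : ScalStmt := by
  intro n J D x hq hx hF hC0
  have ht : 0 < x ⬝ᵥ x := dot_pos hx
  have hd := hF.det_pos.ne'
  obtain ⟨dv, dw, key⟩ := one_var h0 hJ hH ((n : ℝ) - 4) D ht hF hC0
  have inv : ∀ y : Pt n, y ≠ 0 → (D.F (y ⬝ᵥ y)).det ≠ 0 → D.C (y ⬝ᵥ y) ≠ 0 →
      (hopf J D.F D.C y)⁻¹ = blk J y (D.F (y ⬝ᵥ y))⁻¹ (D.C (y ⬝ᵥ y))⁻¹ :=
    fun y hy h1 h2 => blk_inv hq hy h1 h2
  have eV : ∀ y : Pt n, y ≠ 0 → (D.F (y ⬝ᵥ y)).det ≠ 0 → D.C (y ⬝ᵥ y) ≠ 0 → ∀ k,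
      ∑ i, ∑ j, (hopf J D.F D.C y)⁻¹ i j * chr (hopf J D.F D.C) k i j y =
        (Ym J y *ᵥ fv ((n : ℝ) - 4) D (y ⬝ᵥ y)) k := by
    intro y hy h1 h2 k
    rw [inv y hy h1 h2]
    simp only [hC n J D y hq hy h1 h2]
    exact hV n J y _ _ _ _ _ hq hy (D.sF _) (inv_T D _) (md_T D _)
      (Matrix.nonsing_inv_mul _ (Ne.isUnit h1)) h2 k
  have eW : ∀ y : Pt n, y ≠ 0 → (D.F (y ⬝ᵥ y)).det ≠ 0 → D.C (y ⬝ᵥ y) ≠ 0 → ∀ i,
      ∑ k, chr (hopf J D.F D.C) k i k y = fw ((n : ℝ) - 4) D (y ⬝ᵥ y) * y i := by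
    intro y hy h1 h2 i
    simp only [hC n J D y hq hy h1 h2]
    exact hW n J y _ _ _ _ _ hq hy (D.sF _) (inv_T D _) (md_T D _)
      (Matrix.nonsing_inv_mul _ (Ne.isUnit h1)) h2 i
  have cd : Continuous fun y : Pt n => y ⬝ᵥ y := continuous_id.dotProduct continuous_id
  have ev : ∀ᶠ y in 𝓝 x, y ≠ 0 ∧ (D.F (y ⬝ᵥ y)).det ≠ 0 ∧ D.C (y ⬝ᵥ y) ≠ 0 :=
    (eventually_ne_nhds hx).and ((cd.continuousAt.tendsto.eventually
      (good hJ D ht hF hC0)).mono fun y hy => ⟨hy.2.1, hy.2.2.1⟩)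
  have p1 : ∀ k, pd k (fun y => ∑ i, ∑ j, (hopf J D.F D.C y)⁻¹ i j *
      chr (hopf J D.F D.C) k i j y) x =
      pd k (fun y => (Ym J y *ᵥ fv ((n : ℝ) - 4) D (y ⬝ᵥ y)) k) x := fun k =>
    pd_congr (ev.mono fun y hy => eV y hy.1 hy.2.1 hy.2.2 k) k
  have p2 : ∀ i j, pd j (fun y => ∑ k, chr (hopf J D.F D.C) k i k y) x =
      2 * deriv (fw ((n : ℝ) - 4) D) (x ⬝ᵥ x) * x i * x j +
        (if i = j then fw ((n : ℝ) - 4) D (x ⬝ᵥ x) else 0) := by
    intro i j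
    rw [pd_congr (g := fun y => fw ((n : ℝ) - 4) D (y ⬝ᵥ y) * y i)
      (ev.mono fun y hy => eW y hy.1 hy.2.1 hy.2.2 i), hR n _ x dw]
  have s2 : ∀ (M : Matrix (Fin n) (Fin n) ℝ) (u v : ℝ),
      ∑ i, ∑ j, M i j * (2 * u * x i * x j + (if i = j then v else 0)) =
        2 * u * (x ⬝ᵥ (M *ᵥ x)) + v * M.trace := by
    intro M u v
    rw [← sum_mul_mul, Matrix.trace, Finset.mul_sum, Finset.mul_sum, ← Finset.sum_add_distrib]
    refine Finset.sum_congr rfl fun i _ => ?_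
    simp only [mul_add, Finset.sum_add_distrib, mul_ite, mul_zero, Finset.sum_ite_eq,
      Finset.mem_univ, if_true, Finset.mul_sum, Matrix.diag_apply]
    rw [mul_comm v]
    congr 1
    exact Finset.sum_congr rfl fun j _ => by ring
  have s3 : ∀ (u : ℝ) (p : Fin 4 → ℝ), ∑ l, u * x l * (Ym J x *ᵥ p) l = u * ((x ⬝ᵥ x) * p 0) := by
    intro u p
    rw [← x_dot_Y hq, dotProduct, Finset.mul_sum]
    exact Finset.sum_congr rfl fun j _ => mul_assoc _ _ _
  have s4 : ∀ G : M4, (G *ᵥ e0) 0 = G 0 0 := fun G => by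
    rw [e0, Matrix.mulVec_single_one]
    rfl
  rw [hG n _ x (hS n J _ _ x hx (D.hF _ ht) (D.hC _ ht))
    (fun y => (blk_T J y _ _).trans (by rw [D.sF]; rfl)) (blk_det_ne hq hx hd hC0.ne')]
  simp only [p1, p2, eV x hx hd hC0.ne', eW x hx hd hC0.ne']
  rw [hRY n J _ x hq dv, s2, s3, inv x hx hd hC0.ne', blk_x hq hx, blk_trace hq hx, x_dot_Y hq, s4,
    ← key, sub_add_cancel]
  simp only [hC n J D x hq hx hd hC0.ne']
  rw [hQ n J x _ _ _ _ _ hq hx (D.sF _) (inv_T D _) (md_T D _)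
    (Matrix.nonsing_inv_mul _ (Ne.isUnit hd)) hC0.ne']

end Vale.Agent.P366S
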