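import Vale.Agent.P366S.Stm2

/-! The lowered Christoffel matrices on vertical and horizontal vectors. -/

namespace Vale.Agent.P366S

open scoped Matrix
open Matrix
open Vale.Agent.P366 (Pt IsQuat Hor)

variable {n : ℕ}

theorem tmv_smul (J : Fin 3 → Matrix (Fin n) (Fin n) ℝ) (s : ℝ) (a : Fin 4 → ℝ) :
    Jo J (s • a) = s • Jo J a := by
  simp only [Jo, Pi.smul_apply, smul_eq_mul, smul_add, smul_smul]

theorem tmv_vv (Y : Matrix (Fin n) (Fin 4) ℝ) (a b : Fin 4 → ℝ) :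
    vecMulVec (Y *ᵥ a) (Y *ᵥ b) = Y * vecMulVec a b * Yᵀ := by
  rw [mul_vecMulVec, vecMulVec_mul, vecMul_transpose]

theorem tmv_jo (J : Fin 3 → Matrix (Fin n) (Fin n) ℝ) (u : Pt n) (a : Fin 4 → ℝ) :
    (Ym J u - vecMulVec u e0) *ᵥ a = Jo J a *ᵥ u := by
  have : e0 ⬝ᵥ a = a 0 := by simp [e0]
  rw [sub_mulVec, Ym_mulVec, vecMulVec_mulVec, this, Jo, add_mulVec, add_mulVec, smul_mulVec,
    smul_mulVec, smul_mulVec, op_smul_eq_smul]
  abel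

theorem tm_pf : TmStmt := by
  intro n J x F F' C C' h hx hF hF'
  have t0 : x ⬝ᵥ x ≠ 0 := fun e => hx (dotProduct_self_eq_zero.1 e)
  refine ⟨fun p => ?_, fun v hv => ?_, fun u v => ?_⟩
  · have hP : blk J x 0 1 = 1 - (x ⬝ᵥ x)⁻¹ • (Ym J x * (Ym J x)ᵀ) := by simp [blk]
    have hb : (x ⬝ᵥ x) • blk J x (F' - ph (x ⬝ᵥ x) F C) C' =
        Ym J x * (F' - ph (x ⬝ᵥ x) F C) * (Ym J x)ᵀ + (x ⬝ᵥ x * C') • blk J x 0 1 := by
      rw [hP, blk, smul_add, smul_smul, smul_smul, mul_inv_cancel₀ t0, one_smul]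
    have hJ : ∀ a, (x ⬝ᵥ x) • Jo J a = (x ⬝ᵥ x) • (Jo J a * blk J x 0 1) +
        Ym J x * (Lq a - a 0 • (1 : M4)) * (Ym J x)ᵀ := fun a => by
      rw [hP, ← Jo_Y h, Matrix.mul_sub, Matrix.mul_one, Matrix.mul_smul, smul_sub, smul_smul,
        mul_inv_cancel₀ t0, one_smul, Matrix.mul_assoc, sub_add_cancel]
    have a1 := tmv_vv (Ym J x) ((F' - ph (x ⬝ᵥ x) F C) *ᵥ p) e0
    have a2 := tmv_vv (Ym J x) e0 ((F' - ph (x ⬝ᵥ x) F C) *ᵥ p)
    rw [Ym_e0] at a1 a2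
    rw [Matrix.add_mul, Matrix.smul_mul (x ⬝ᵥ x), Tm, x_dot_Y h, blk_Yv h hx, a1, a2, tmv_vv, Ym_Y h,
      YtY_mulVec h, mulVec_smul, tmv_smul, hJ, mul_comm _ (p 0), mul_smul, hb,
      ← mul_vecMulVec (Ym J x), ← Matrix.mul_sub, Th]
    generalize F' - ph (x ⬝ᵥ x) F C = M
    generalize Lq (ph (x ⬝ᵥ x) F C *ᵥ p) - (ph (x ⬝ᵥ x) F C *ᵥ p) 0 • (1 : M4) = L
    generalize Rq p - vecMulVec p e0 = R
    simp only [Matrix.mul_add, Matrix.add_mul, Matrix.mul_sub, Matrix.sub_mul, Matrix.mul_smul,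
      Matrix.smul_mul, Matrix.one_mul, Matrix.mul_assoc]
    module
  · have y := (hor_iff x v).1 hv
    have z : x ⬝ᵥ v = 0 := by rw [← YmT_zero J, y]; rfl
    rw [Tm, z, y, blk_hor hv, mulVec_zero, mulVec_sub, mulVec_smul, Ym_e0, sub_vecMulVec,
      smul_vecMulVec, smul_vecMulVec, vecMulVec_smul, show Jo J 0 = 0 by simp [Jo]]
    module
  · have s : (blk J x (F' - ph (x ⬝ᵥ x) F C) C' *ᵥ u) ⬝ᵥ v =
        (blk J x (F' - ph (x ⬝ᵥ x) F C) C' *ᵥ v) ⬝ᵥ u := by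
      rw [dotProduct_comm, dotProduct_mulVec, ← mulVec_transpose, blk_T, transpose_sub, hF', ph,
        transpose_smul, transpose_sub, transpose_smul, transpose_one, hF]
    simp only [Tm, add_mulVec, sub_mulVec (_ + _), smul_mulVec, vecMulVec_mulVec, ← mulVec_mulVec,
      tmv_jo, op_smul_eq_smul, s, dotProduct_comm v u]
    abel

end Vale.Agent.P366S
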