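import Vale.Agent.P366S.Stm2

/-! Quaternionic reflections. -/

namespace Vale.Agent.P366S

open scoped Matrix
open Matrix
open Vale.Agent.P366 (Pt IsQuat Hor dot_pos)

namespace TransAux

theorem rl (q r : Fin 4 → ℝ) : Rq q * Lq r = Lq r * Rq q := by
  ext i j
  fin_cases i <;> fin_cases j <;> simp [Rq, Lq, Matrix.mul_apply, Fin.sum_univ_four] <;> ring

theorem lT {r : Fin 4 → ℝ} (h : r 0 = 0) : (Lq r)ᵀ = -Lq r := by
  ext i j
  fin_cases i <;> fin_cases j <;> simp [Lq, h]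

theorem rT (p : Fin 4 → ℝ) : (Rq p)ᵀ = (2 * p 0) • (1 : M4) - Rq p := by
  ext i j
  fin_cases i <;> fin_cases j <;> simp [Rq] <;> ring

theorem rr (p : Fin 4 → ℝ) : (Rq p)ᵀ * Rq p = (p ⬝ᵥ p) • (1 : M4) := by
  ext i j
  fin_cases i <;> fin_cases j <;>
    simp [Rq, Matrix.mul_apply, Fin.sum_univ_four, dotProduct] <;> ring

theorem rp (p : Fin 4 → ℝ) : Rq ![p 0, -p 1, -p 2, -p 3] *ᵥ p = (p ⬝ᵥ p) • e0 := by
  ext i
  fin_cases i <;> simp [Rq, e0, Matrix.mulVec, Fin.sum_univ_four, dotProduct] <;> ring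

theorem jo {n : ℕ} (J : Fin 3 → Matrix (Fin n) (Fin n) ℝ) (a : Fin 3) :
    ∃ r : Fin 4 → ℝ, r 0 = 0 ∧ Jo J r = J a := by
  fin_cases a
  · exact ⟨![0, 1, 0, 0], rfl, by simp [Jo]⟩
  · exact ⟨![0, 0, 1, 0], rfl, by simp [Jo]⟩
  · exact ⟨![0, 0, 0, 1], rfl, by simp [Jo]⟩

end TransAux

open TransAux in
theorem trans_pf : TransStmt := by
  intro n J x y h hxy
  by_cases e : x = y
  · exact ⟨1, by simp, by simp, by simp [e], by simp⟩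
  obtain ⟨w, hw⟩ : ∃ w, w = x - y := ⟨_, rfl⟩
  rw [← hw]
  have s0 : 0 < w ⬝ᵥ w := dot_pos (hw ▸ sub_ne_zero.2 e)
  obtain ⟨p, hp⟩ : ∃ p, p = (Ym J w)ᵀ *ᵥ x := ⟨_, rfl⟩
  have p0 : 2 * p 0 = w ⬝ᵥ w := by
    rw [hp, YmT_zero, hw]
    simp only [sub_dotProduct, dotProduct_sub, dotProduct_comm y x]
    linarith
  have pp : p ⬝ᵥ p ≠ 0 := fun h0 => by
    rw [dotProduct_self_eq_zero.1 h0] at p0
    simp only [Pi.zero_apply, mul_zero] at p0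
    exact s0.ne p0
  obtain ⟨q, hq⟩ : ∃ q : Fin 4 → ℝ, q = ![p 0, -p 1, -p 2, -p 3] := ⟨_, rfl⟩
  have q0 : 2 * q 0 = w ⬝ᵥ w := by rw [hq]; exact p0
  have qq : q ⬝ᵥ q = p ⬝ᵥ p := by simp [hq, dotProduct, Fin.sum_univ_four]
  refine ⟨1 - (p ⬝ᵥ p)⁻¹ • (Ym J w * Rq q * (Ym J w)ᵀ), ?_, fun a => ?_, ?_, fun z hz => ?_⟩
  · have e1 : (Ym J w * Rq q * (Ym J w)ᵀ)ᵀ * (Ym J w * Rq q * (Ym J w)ᵀ)
        = ((w ⬝ᵥ w) * (p ⬝ᵥ p)) • (Ym J w * (Ym J w)ᵀ) := by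
      rw [Matrix.transpose_mul, Matrix.transpose_mul, Matrix.transpose_transpose,
        Matrix.mul_assoc, Matrix.mul_assoc, Matrix.mul_assoc, ← Matrix.mul_assoc (Ym J w)ᵀ,
        YtY h, Matrix.smul_mul, Matrix.one_mul, Matrix.mul_smul, ← Matrix.mul_assoc (Rq q)ᵀ, rr,
        qq, Matrix.smul_mul, Matrix.one_mul, Matrix.mul_smul, Matrix.mul_smul, smul_smul]
    have e2 : (Ym J w * Rq q * (Ym J w)ᵀ)ᵀ
        = (w ⬝ᵥ w) • (Ym J w * (Ym J w)ᵀ) - Ym J w * Rq q * (Ym J w)ᵀ := by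
      rw [Matrix.transpose_mul, Matrix.transpose_mul, Matrix.transpose_transpose, rT, q0,
        Matrix.sub_mul, Matrix.mul_sub, Matrix.smul_mul, Matrix.one_mul, Matrix.mul_smul,
        Matrix.mul_assoc]
    rw [Matrix.transpose_sub, Matrix.transpose_smul, Matrix.transpose_one, Matrix.sub_mul,
      Matrix.one_mul, Matrix.mul_sub, Matrix.mul_one, smul_mul_smul_comm, e1, e2, smul_smul,
      show (p ⬝ᵥ p)⁻¹ * (p ⬝ᵥ p)⁻¹ * ((w ⬝ᵥ w) * (p ⬝ᵥ p)) = (p ⬝ᵥ p)⁻¹ * (w ⬝ᵥ w) by field_simp]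
    module
  · obtain ⟨r, r0, hr⟩ := jo J a
    have e1 : J a * Ym J w = Ym J w * Lq r := by
      rw [← hr, Jo_Y h, r0, zero_smul, sub_zero]
    have e2 : (Ym J w)ᵀ * J a = Lq r * (Ym J w)ᵀ := by
      have := congrArg Matrix.transpose e1
      rw [Matrix.transpose_mul, Matrix.transpose_mul, h.1, lT r0, Matrix.mul_neg,
        Matrix.neg_mul] at this
      exact neg_injective this
    rw [Matrix.sub_mul, Matrix.mul_sub, Matrix.one_mul, Matrix.mul_one, Matrix.smul_mul,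
      Matrix.mul_smul, Matrix.mul_assoc, e2, ← Matrix.mul_assoc, Matrix.mul_assoc (Ym J w), rl,
      ← Matrix.mul_assoc, ← e1, Matrix.mul_assoc (J a), Matrix.mul_assoc (J a)]
  · rw [Matrix.sub_mulVec, Matrix.one_mulVec, Matrix.smul_mulVec, ← Matrix.mulVec_mulVec,
      ← Matrix.mulVec_mulVec, ← hp, hq, rp, Matrix.mulVec_smul, Ym_e0, smul_smul,
      inv_mul_cancel₀ pp, one_smul, hw, sub_sub_cancel]
  · rw [Matrix.sub_mulVec, Matrix.one_mulVec, Matrix.smul_mulVec, ← Matrix.mulVec_mulVec,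
      (hor_iff _ _).1 hz, Matrix.mulVec_zero, smul_zero, sub_zero]

end Vale.Agent.P366S
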