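import Vale.Agent.P366S.Stm

/-! The contracted Christoffel symbols in the `4 × 4` block. -/

namespace Vale.Agent.P366S

open scoped Matrix ContDiff Topology
open Filter Set Matrix

namespace V0Aux

/-- `Th` with an abstract matrix in place of `ph`. -/
noncomputable def ThA (P F' : M4) (p : Fin 4 → ℝ) : M4 :=
  p 0 • (F' - P) + vecMulVec ((F' - P) *ᵥ p) e0
    - vecMulVec e0 ((F' - P) *ᵥ p) + vecMulVec (P *ᵥ e0) p
    + (Rq p - vecMulVec p e0) * P + (Lq (P *ᵥ p) - (P *ᵥ p) 0 • (1 : M4))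

theorem sy {G : M4} (h : Gᵀ = G) : G 1 0 = G 0 1 ∧ G 2 0 = G 0 2 ∧ G 3 0 = G 0 3 ∧
    G 2 1 = G 1 2 ∧ G 3 1 = G 1 3 ∧ G 3 2 = G 2 3 :=
  ⟨congrFun (congrFun h 0) 1, congrFun (congrFun h 0) 2, congrFun (congrFun h 0) 3,
    congrFun (congrFun h 1) 2, congrFun (congrFun h 1) 3, congrFun (congrFun h 2) 3⟩

theorem trA (G P F' : M4) (hG : Gᵀ = G) (hP : Pᵀ = P) (p : Fin 4 → ℝ) :
    (G * ThA P F' p).trace = p 0 * ((G * F').trace - (G * P).trace) + ∑ i, p i * (G * P) i 0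
      + ∑ j, ∑ k, (Rq p - vecMulVec p e0) j k * (G * P) j k := by
  obtain ⟨g1, g2, g3, g4, g5, g6⟩ := sy hG
  obtain ⟨p1, p2, p3, p4, p5, p6⟩ := sy hP
  simp [ThA, trace, Matrix.mul_apply, Fin.sum_univ_four, mulVec, dotProduct, vecMulVec_apply,
    Lq, Rq, e0, Matrix.one_apply, g1, g2, g3, g4, g5, g6, p1, p2, p3, p4, p5, p6]
  ring

theorem vA (G P F' : M4) (hG : Gᵀ = G) (hP : Pᵀ = P) (hF : F'ᵀ = F') :
    (G *ᵥ (∑ c, ∑ d, G c d • (ThA P F' (Pi.single c 1) *ᵥ Pi.single d 1))) 0 =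
      2 * (G * F' * G) 0 0 - 2 * (G * P * G) 0 0
        - ((G * F').trace - (G * P).trace) * G 0 0 + G.trace * (G * P) 0 0
        + 2 * ∑ i, G 0 i * (∑ c, Lq (fun k => (G * P) c k) i c - (G * P) i 0) := by
  obtain ⟨g1, g2, g3, g4, g5, g6⟩ := sy hG
  obtain ⟨p1, p2, p3, p4, p5, p6⟩ := sy hP
  obtain ⟨f1, f2, f3, f4, f5, f6⟩ := sy hF
  simp [ThA, trace, Matrix.mul_apply, Fin.sum_univ_four, mulVec, dotProduct, vecMulVec_apply,
    Lq, Rq, e0, Matrix.one_apply, Pi.single_apply, g1, g2, g3, g4, g5, g6, p1, p2, p3, p4, p5, p6,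
    f1, f2, f3, f4, f5, f6]
  ring

end V0Aux

open V0Aux in
theorem v0_pf : V0Stmt := by
  intro q t F G F' C C' ht hC hF hG hF' hGF
  have hP : (ph t F C)ᵀ = ph t F C := by
    simp only [ph, transpose_smul, transpose_sub, transpose_one, hF]
  have hN : G * ph t F C = t⁻¹ • ((1 : M4) - C • G) := by
    simp only [ph, Matrix.mul_smul, Matrix.mul_sub, Matrix.mul_one, hGF]
  obtain ⟨g1, g2, g3, g4, g5, g6⟩ := sy hG
  refine ⟨?_, fun p => ?_⟩
  · have h1 := vA G (ph t F C) F' hG hP hF'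
    have h2 : pv t F G C C' 0 = (G * ph t F C) 0 0 - C' * G 0 0 := by
      simp [pv, Matrix.mul_apply, Fin.sum_univ_four, mulVec, dotProduct, e0]
      ring
    have h3 : Vh q t F G F' C C' 0 =
        (G *ᵥ (∑ c, ∑ d, G c d • (ThA (ph t F C) F' (Pi.single c 1) *ᵥ Pi.single d 1))) 0
          + q / C * pv t F G C C' 0 := rfl
    rw [h3, h1, h2, hN, v0, ww]
    generalize (G * F' * G) 0 0 = a
    generalize (G * F').trace = b
    simp [trace, Matrix.mul_apply, Fin.sum_univ_four, Lq, Matrix.one_apply, g1, g2, g3, g4, g5, g6]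
    field_simp
    ring
  · have h1 : (G * Th t F F' C p).trace = _ := trA G (ph t F C) F' hG hP p
    rw [h1, hN]
    generalize (G * F').trace = b
    simp [trace, Fin.sum_univ_four, Rq, e0, vecMulVec_apply, Matrix.one_apply, g1, g2, g3, g4, g5,
      g6]
    ring

end Vale.Agent.P366S
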