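import Vale.Agent.P366S.Stm2

/-! Contractions of the Christoffel symbols of the ansatz (general `Sp(m+1)` case). -/

namespace Vale.Agent.P366S

open scoped Matrix
open Matrix
open Vale.Agent.P366 (Pt IsQuat Hor dot_pos)

namespace VWAux

variable {n : ℕ} {J : Fin 3 → Matrix (Fin n) (Fin n) ℝ}

theorem tr_Jo (h : IsQuat J) (x : Pt n) (C : ℝ) (p : Fin 4 → ℝ) :
    (blk J x 0 C * Jo J p).trace = 0 := by
  have := Matrix.trace_transpose (blk J x 0 C * Jo J p)
  rw [Matrix.transpose_mul, blk_T, Jo_T h, Matrix.transpose_zero, Matrix.neg_mul, Matrix.trace_neg,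
    Matrix.trace_mul_comm] at this
  linarith

theorem Y_dot_hor {x v : Pt n} (hv : Hor J x v) (p : Fin 4 → ℝ) : (Ym J x *ᵥ p) ⬝ᵥ v = 0 := by
  rw [dotProduct_comm, Matrix.dotProduct_mulVec, ← Matrix.mulVec_transpose, (hor_iff _ _).1 hv,
    zero_dotProduct]

end VWAux

theorem v_pf (h : TmStmt) : VStmt := by
  intro n J x F G F' C C' hq hx hF hG hF' hGF hC k
  obtain ⟨h1, h2, h3⟩ := h n J x F F' C C' hq hx hF hF'
  have t0 := (dot_pos hx).ne'
  have c := contract hq hx (LinearMap.mk₂ ℝ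
    (fun u w => (blk J x G C⁻¹ *ᵥ (Tm J x F F' C C' u *ᵥ w)) k)
    (fun u u' w => by
      rw [h3 _ w, h3 u w, h3 u' w]
      simp only [Matrix.mulVec_add, Pi.add_apply])
    (fun c u w => by
      rw [h3 _ w, h3 u w]
      simp only [Matrix.mulVec_smul, Pi.smul_apply])
    (fun u w w' => by simp only [Matrix.mulVec_add, Pi.add_apply])
    (fun c u w => by simp only [Matrix.mulVec_smul, Pi.smul_apply]))
    G C⁻¹ ((Ym J x *ᵥ pv (x ⬝ᵥ x) F G C C') k) fun v hv => by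
      rw [LinearMap.mk₂_apply, h2 v hv, Matrix.add_mulVec, Matrix.add_mulVec,
        ← Matrix.mulVec_mulVec, (hor_iff _ _).1 hv, Matrix.mulVec_zero, Matrix.smul_mulVec,
        Matrix.vecMulVec_mulVec, Matrix.vecMulVec_mulVec, hv.1]
      simp only [op_smul_eq_smul, zero_smul, smul_zero, add_zero, Matrix.mulVec_smul, blk_Yv hq hx,
        Pi.smul_apply, smul_eq_mul, pv]
      ring
  have e1 : ∀ p r : Fin 4 → ℝ,
      blk J x G C⁻¹ *ᵥ (Tm J x F F' C C' (Ym J x *ᵥ p) *ᵥ (Ym J x *ᵥ r)) =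
        (x ⬝ᵥ x) • (Ym J x *ᵥ (G *ᵥ (Th (x ⬝ᵥ x) F F' C p *ᵥ r))) := fun p r => by
    rw [h1 p, Matrix.add_mulVec, ← Matrix.mulVec_mulVec _ _ (blk J x 0 1), blk_Yv hq hx,
      Matrix.zero_mulVec, Matrix.mulVec_zero, Matrix.mulVec_zero, add_zero,
      ← Matrix.mulVec_mulVec _ _ (Ym J x)ᵀ, YtY_mulVec hq, Matrix.mulVec_smul, Matrix.mulVec_smul,
      ← Matrix.mulVec_mulVec _ (Ym J x), blk_Yv hq hx]
  simp only [LinearMap.mk₂_apply, e1] at c
  have e2 : ∀ i j, Gam J x F G F' C C' (Pi.single i 1) k j =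
      (blk J x G C⁻¹ *ᵥ (Tm J x F F' C C' (Pi.single i 1) *ᵥ Pi.single j 1)) k := fun i j => by
    rw [Matrix.mulVec_mulVec, Matrix.mulVec_single_one]
    rfl
  simp only [e2]
  refine c.trans ?_
  simp only [Vh, Matrix.mulVec_add, Matrix.mulVec_sum, Matrix.mulVec_smul, Pi.add_apply,
    Finset.sum_apply, Pi.smul_apply, smul_eq_mul, Finset.mul_sum]
  refine congrArg₂ (· + ·) (Finset.sum_congr rfl fun a _ => Finset.sum_congr rfl fun b _ => ?_) ?_
  · field_simp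
  · ring

theorem w_pf (h : TmStmt) (h0 : V0Stmt) : WStmt := by
  intro n J x F G F' C C' hq hx hF hG hF' hGF hC i
  obtain ⟨h1, h2, h3⟩ := h n J x F F' C C' hq hx hF hF'
  have t0 := (dot_pos hx).ne'
  have g := (h0 0 (x ⬝ᵥ x) F G F' C C' t0 hC hF hG hF' hGF).2
  have ad : ∀ u v, Tm J x F F' C C' (u + v) = Tm J x F F' C C' u + Tm J x F F' C C' v :=
    fun u v => Matrix.ext_iff_mulVec.2 fun w => by
      rw [Matrix.add_mulVec, h3 _ w, h3 u w, h3 v w, Matrix.mulVec_add]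
  have kY : ∀ p, (Gam J x F G F' C C' (Ym J x *ᵥ p)).trace =
      ww ((n : ℝ) - 4) G F' C C' * (x ⬝ᵥ (Ym J x *ᵥ p)) := fun p => by
    rw [Gam, h1 p, Matrix.mul_add, Matrix.trace_add, ← Matrix.mul_assoc, ← Matrix.mul_assoc,
      blk_Y hq hx, Matrix.trace_mul_cycle, ← Matrix.mul_assoc, YtY hq,
      ← Matrix.mul_assoc (blk J x G C⁻¹), Matrix.trace_mul_cycle (blk J x G C⁻¹), blk_mul hq hx,
      x_dot_Y hq]
    simp only [Matrix.smul_mul, Matrix.one_mul, Matrix.trace_smul, g, Matrix.mul_add,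
      Matrix.mul_smul, Matrix.mul_one, Matrix.trace_add, Matrix.zero_mul, VWAux.tr_Jo hq,
      blk_trace hq hx, Matrix.trace_zero, smul_eq_mul, ww]
    ring
  have kH : ∀ v, Hor J x v → (Gam J x F G F' C C' v).trace = 0 := fun v hv => by
    have a1 : (blk J x G C⁻¹ * ((Ym J v - vecMulVec v e0) * ph (x ⬝ᵥ x) F C * (Ym J x)ᵀ)).trace =
        0 := by
      rw [← Matrix.mul_assoc, Matrix.trace_mul_comm, ← Matrix.mul_assoc, Y_blk hq hx,
        Matrix.mul_assoc, ← Matrix.mul_assoc (Ym J x)ᵀ, Matrix.mul_sub, YtY_hor hq hv,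
        Matrix.mul_vecMulVec, (hor_iff _ _).1 hv]
      simp
    rw [Gam, h2 v hv, Matrix.mul_add, Matrix.mul_add, Matrix.trace_add, Matrix.trace_add, a1,
      Matrix.mul_smul, Matrix.trace_smul, Matrix.mul_vecMulVec, Matrix.mul_vecMulVec,
      Matrix.trace_vecMulVec, Matrix.trace_vecMulVec, blk_Yv hq hx, VWAux.Y_dot_hor hv, blk_hor hv,
      smul_dotProduct, dotProduct_comm, hv.1]
    simp
  have k : ∀ u, (Gam J x F G F' C C' u).trace = ww ((n : ℝ) - 4) G F' C C' * (x ⬝ᵥ u) :=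
    fun u => by
    have hv := blk_hor_mem hq hx u
    rw [decomp J x u]
    generalize blk J x 0 1 *ᵥ u = v at hv
    generalize (x ⬝ᵥ x)⁻¹ • ((Ym J x)ᵀ *ᵥ u) = p
    have a1 := kY p
    have a2 := kH v hv
    rw [Gam] at a1 a2
    rw [Gam, ad, Matrix.mul_add, Matrix.trace_add, a1, a2, dotProduct_add, hv.1, zero_add, zero_add]
  simpa [Matrix.trace] using k (Pi.single i 1)

end Vale.Agent.P366S
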