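import Vale.Agent.P366S.Alg

/-! Statements of the geometric pieces (general `Sp(m+1)` case). -/

namespace Vale.Agent.P366S

open scoped Matrix ContDiff Topology
open Filter Set Matrix
open Vale.Agent.P366 (Pt Ten rad pd chr scal trg nsq mom mu cur curNorm meanCurv trS sph omega cn
  area energyFlux momFlux Decay IsQuat ll Hor)

def JetStmt : Prop :=
  ∀ (n : ℕ) (J : Fin 3 → Matrix (Fin n) (Fin n) ℝ) (F : ℝ → M4) (C : ℝ → ℝ) (x : Pt n), x ≠ 0 →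
    (∀ a b, DifferentiableAt ℝ (fun s => F s a b) (x ⬝ᵥ x)) → DifferentiableAt ℝ C (x ⬝ᵥ x) →
    ∀ i j k, pd k (fun y => hopf J F C y i j) x =
      Dm J x (F (x ⬝ᵥ x)) (md F (x ⬝ᵥ x)) (C (x ⬝ᵥ x)) (deriv C (x ⬝ᵥ x)) (Pi.single k 1) i j

def SmoothStmt : Prop :=
  ∀ (n : ℕ) (J : Fin 3 → Matrix (Fin n) (Fin n) ℝ) (F : ℝ → M4) (C : ℝ → ℝ) (x : Pt n), x ≠ 0 →
    (∀ a b, ContDiffAt ℝ ∞ (fun s => F s a b) (x ⬝ᵥ x)) → ContDiffAt ℝ ∞ C (x ⬝ᵥ x) →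
    ∀ i j, ContDiffAt ℝ 2 (fun y => hopf J F C y i j) x

def RadYStmt : Prop :=
  ∀ (n : ℕ) (J : Fin 3 → Matrix (Fin n) (Fin n) ℝ) (f : ℝ → Fin 4 → ℝ) (x : Pt n), IsQuat J →
    (∀ a, DifferentiableAt ℝ (fun s => f s a) (x ⬝ᵥ x)) →
    ∑ k, pd k (fun y => (Ym J y *ᵥ f (y ⬝ᵥ y)) k) x =
      2 * (x ⬝ᵥ x) * deriv (fun s => f s 0) (x ⬝ᵥ x) + n * f (x ⬝ᵥ x) 0

def DetStmt : Prop :=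
  ∀ (n : ℕ) (J : Fin 3 → Matrix (Fin n) (Fin n) ℝ) (x : Pt n) (F : M4) (C : ℝ), 4 < n →
    IsQuat J → x ≠ 0 → C ≠ 0 → (blk J x F C).det = F.det * C ^ (n - 4)

def PosStmt : Prop :=
  ∀ (n : ℕ) (J : Fin 3 → Matrix (Fin n) (Fin n) ℝ) (x : Pt n) (F : M4) (C : ℝ), 4 < n →
    IsQuat J → x ≠ 0 → Fᵀ = F → ((blk J x F C).PosDef ↔ F.PosDef ∧ 0 < C)

def CsStmt : Prop :=
  ∀ (n : ℕ) (G : Matrix (Fin n) (Fin n) ℝ) (x v : Pt n), G.PosDef →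
    |∑ j, v j * (G *ᵥ x) j| / √(x ⬝ᵥ (G *ᵥ x)) ≤ √(∑ i, ∑ j, G i j * v i * v j)

def ChrStmt : Prop :=
  ∀ (n : ℕ) (J : Fin 3 → Matrix (Fin n) (Fin n) ℝ) (D : Dat) (x : Pt n), IsQuat J → x ≠ 0 →
    (D.F (x ⬝ᵥ x)).det ≠ 0 → D.C (x ⬝ᵥ x) ≠ 0 → ∀ k i j,
    chr (hopf J D.F D.C) k i j x =
      Gam J x (D.F (x ⬝ᵥ x)) (D.F (x ⬝ᵥ x))⁻¹ (md D.F (x ⬝ᵥ x)) (D.C (x ⬝ᵥ x))
        (deriv D.C (x ⬝ᵥ x)) (Pi.single i 1) k j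

def TmStmt : Prop :=
  ∀ (n : ℕ) (J : Fin 3 → Matrix (Fin n) (Fin n) ℝ) (x : Pt n) (F F' : M4) (C C' : ℝ), IsQuat J →
    x ≠ 0 → Fᵀ = F → F'ᵀ = F' →
    (∀ p, Tm J x F F' C C' (Ym J x *ᵥ p) = Ym J x * Th (x ⬝ᵥ x) F F' C p * (Ym J x)ᵀ
      + (((x ⬝ᵥ x) * p 0 * C') • (1 : Matrix (Fin n) (Fin n) ℝ)
        + (x ⬝ᵥ x) • Jo J (ph (x ⬝ᵥ x) F C *ᵥ p)) * blk J x 0 1) ∧
    (∀ v, Hor J x v → Tm J x F F' C C' v =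
      vecMulVec (Ym J x *ᵥ (ph (x ⬝ᵥ x) F C *ᵥ e0 - C' • e0)) v
        + (Ym J v - vecMulVec v e0) * ph (x ⬝ᵥ x) F C * (Ym J x)ᵀ + C' • vecMulVec v x) ∧
    ∀ u v, Tm J x F F' C C' u *ᵥ v = Tm J x F F' C C' v *ᵥ u

def VStmt : Prop :=
  ∀ (n : ℕ) (J : Fin 3 → Matrix (Fin n) (Fin n) ℝ) (x : Pt n) (F G F' : M4) (C C' : ℝ),
    IsQuat J → x ≠ 0 → Fᵀ = F → Gᵀ = G → F'ᵀ = F' → G * F = 1 → C ≠ 0 → ∀ k,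
    ∑ i, ∑ j, blk J x G C⁻¹ i j * Gam J x F G F' C C' (Pi.single i 1) k j =
      (Ym J x *ᵥ Vh ((n : ℝ) - 4) (x ⬝ᵥ x) F G F' C C') k

def WStmt : Prop :=
  ∀ (n : ℕ) (J : Fin 3 → Matrix (Fin n) (Fin n) ℝ) (x : Pt n) (F G F' : M4) (C C' : ℝ),
    IsQuat J → x ≠ 0 → Fᵀ = F → Gᵀ = G → F'ᵀ = F' → G * F = 1 → C ≠ 0 → ∀ i,
    ∑ k, Gam J x F G F' C C' (Pi.single i 1) k k = ww ((n : ℝ) - 4) G F' C C' * x i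

def QStmt : Prop :=
  ∀ (n : ℕ) (J : Fin 3 → Matrix (Fin n) (Fin n) ℝ) (x : Pt n) (F G F' : M4) (C C' : ℝ),
    IsQuat J → x ≠ 0 → Fᵀ = F → Gᵀ = G → F'ᵀ = F' → G * F = 1 → C ≠ 0 →
    ∑ i, ∑ j, blk J x G C⁻¹ i j * ∑ k, ∑ l,
      Gam J x F G F' C C' (Pi.single j 1) k l * Gam J x F G F' C C' (Pi.single i 1) l k =
      QQ ((n : ℝ) - 4) (x ⬝ᵥ x) F G F' C C'

def DivStmt : Prop :=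
  ∀ (n : ℕ) (J : Fin 3 → Matrix (Fin n) (Fin n) ℝ) (x : Pt n) (F F' : M4) (C C' : ℝ),
    IsQuat J → x ≠ 0 → Fᵀ = F → F'ᵀ = F' →
    (∀ (Γ : M4) (γ : ℝ) (s : Fin 4 → ℝ), Γᵀ = Γ →
      ∑ i, ∑ k, ∑ j, blk J x Γ γ i k * Dm J x F F' C C' (Pi.single i 1) k j * (Ym J x *ᵥ s) j =
        DD ((n : ℝ) - 4) (x ⬝ᵥ x) Γ γ F F' C s) ∧
    (∀ i j, ∑ k, x k * Dm J x F F' C C' (Pi.single k 1) i j = 2 * (x ⬝ᵥ x) * blk J x F' C' i j) ∧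
    ∀ u, (Dm J x F F' C C' u)ᵀ = Dm J x F F' C C' u

def ScalStmt : Prop :=
  ∀ (n : ℕ) (J : Fin 3 → Matrix (Fin n) (Fin n) ℝ) (D : Dat) (x : Pt n), IsQuat J → x ≠ 0 →
    (D.F (x ⬝ᵥ x)).PosDef → 0 < D.C (x ⬝ᵥ x) →
    scal (hopf J D.F D.C) x =
      -4 * (D.F (x ⬝ᵥ x))⁻¹ 0 0 * deriv (hh ((n : ℝ) - 4) (toSca ((n : ℝ) - 4) D)) (x ⬝ᵥ x)
        + FF ((n : ℝ) - 4) (x ⬝ᵥ x) (D.F (x ⬝ᵥ x)) (D.F (x ⬝ᵥ x))⁻¹ (md D.F (x ⬝ᵥ x))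
          (D.C (x ⬝ᵥ x)) (deriv D.C (x ⬝ᵥ x))

/-- `hh` in terms of the matrices. -/
def HhStmt : Prop :=
  ∀ (q : ℝ) (D : Dat) (t : ℝ), 0 < t → (D.F t).det ≠ 0 → (D.F t)⁻¹ 0 0 ≠ 0 →
    hh q (toSca q D) t = hA q t (D.F t)⁻¹ (md D.F t) (D.C t) (deriv D.C t) ∧
    deriv (toSca q D).e3 t = (toSca q D).e3 t * (((D.F t)⁻¹ * md D.F t).trace
      - ((D.F t)⁻¹ * md D.F t * (D.F t)⁻¹) 0 0 / (D.F t)⁻¹ 0 0) ∧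
    deriv (toSca q D).e1 t = ∑ a : Fin 3, md D.F t a.succ a.succ

def KStmt : Prop :=
  ∀ (n : ℕ) (J : Fin 3 → Matrix (Fin n) (Fin n) ℝ) (D : Dat) (x : Pt n), IsQuat J → x ≠ 0 →
    (D.F (x ⬝ᵥ x)).det ≠ 0 → 0 < (D.F (x ⬝ᵥ x))⁻¹ 0 0 → D.C (x ⬝ᵥ x) ≠ 0 →
    trg (hopf J D.F D.C) (hopf J D.K D.c) x =
      TT ((n : ℝ) - 4) (D.F (x ⬝ᵥ x))⁻¹ (D.K (x ⬝ᵥ x)) (D.C (x ⬝ᵥ x)) (D.c (x ⬝ᵥ x)) ∧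
    nsq (hopf J D.F D.C) (hopf J D.K D.c) x =
      ((D.F (x ⬝ᵥ x))⁻¹ * D.K (x ⬝ᵥ x) * ((D.F (x ⬝ᵥ x))⁻¹ * D.K (x ⬝ᵥ x))).trace
        + ((n : ℝ) - 4) * (D.c (x ⬝ᵥ x) / D.C (x ⬝ᵥ x)) ^ 2 ∧
    trS (hopf J D.F D.C) (hopf J D.K D.c) x = (toSca ((n : ℝ) - 4) D).P (x ⬝ᵥ x)

def HStmt : Prop :=
  ∀ (n : ℕ) (J : Fin 3 → Matrix (Fin n) (Fin n) ℝ) (D : Dat) (x : Pt n), IsQuat J → x ≠ 0 →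
    (D.F (x ⬝ᵥ x)).PosDef → 0 < D.C (x ⬝ᵥ x) →
    meanCurv (hopf J D.F D.C) x = H1 ((n : ℝ) - 4) (toSca ((n : ℝ) - 4) D) (x ⬝ᵥ x)

def CurStmt : Prop :=
  ∀ (n : ℕ) (J : Fin 3 → Matrix (Fin n) (Fin n) ℝ) (D : Dat) (x : Pt n), IsQuat J → x ≠ 0 →
    (D.F (x ⬝ᵥ x)).PosDef → 0 < D.C (x ⬝ᵥ x) →
    ∑ j, cur (hopf J D.F D.C) (hopf J D.K D.c) j x * (Ym J x *ᵥ ((D.F (x ⬝ᵥ x))⁻¹ *ᵥ e0)) j =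
      -2 * (x ⬝ᵥ x) * (D.F (x ⬝ᵥ x))⁻¹ 0 0 * deriv (toSca ((n : ℝ) - 4) D).P (x ⬝ᵥ x)
        + JJ ((n : ℝ) - 4) (x ⬝ᵥ x) (D.F (x ⬝ᵥ x)) (D.F (x ⬝ᵥ x))⁻¹ (md D.F (x ⬝ᵥ x))
          (D.K (x ⬝ᵥ x)) (md D.K (x ⬝ᵥ x)) (D.C (x ⬝ᵥ x)) (deriv D.C (x ⬝ᵥ x)) (D.c (x ⬝ᵥ x))

/-- The dominant energy condition in terms of the matrices. -/
def DecM (q : ℝ) (D : Dat) (t : ℝ) : Prop :=
  |-2 * t * (D.F t)⁻¹ 0 0 * deriv (toSca q D).P t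
      + JJ q t (D.F t) (D.F t)⁻¹ (md D.F t) (D.K t) (md D.K t) (D.C t) (deriv D.C t) (D.c t)|
      / √(t * (D.F t)⁻¹ 0 0) ≤
    (-4 * (D.F t)⁻¹ 0 0 * deriv (hh q (toSca q D)) t
      + FF q t (D.F t) (D.F t)⁻¹ (md D.F t) (D.C t) (deriv D.C t)
      + TT q (D.F t)⁻¹ (D.K t) (D.C t) (D.c t) ^ 2
      - (((D.F t)⁻¹ * D.K t * ((D.F t)⁻¹ * D.K t)).trace + q * (D.c t / D.C t) ^ 2)) / 2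

def DecStmt : Prop :=
  ∀ (n : ℕ) (J : Fin 3 → Matrix (Fin n) (Fin n) ℝ) (D : Dat) (x : Pt n), 4 < n → IsQuat J → x ≠ 0 →
    (D.F (x ⬝ᵥ x)).PosDef → 0 < D.C (x ⬝ᵥ x) →
    curNorm (hopf J D.F D.C) (hopf J D.K D.c) x ≤ mu (hopf J D.F D.C) (hopf J D.K D.c) x →
    DecM ((n : ℝ) - 4) D (x ⬝ᵥ x)

def KeyDiagStmt : Prop :=
  ∀ (q : ℝ) (D : Dat) (t : ℝ), 0 ≤ q → 0 < t → (D.F t).PosDef → 0 < D.C t →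
    D.F t 1 2 = 0 → D.F t 1 3 = 0 → D.F t 2 3 = 0 → DecM q D t → Key q (toSca q D) t

def RotStmt : Prop :=
  ∀ (n : ℕ) (J : Fin 3 → Matrix (Fin n) (Fin n) ℝ) (D : Dat) (q t : ℝ), IsQuat J →
    ∃ (J' : Fin 3 → Matrix (Fin n) (Fin n) ℝ) (D' : Dat), IsQuat J' ∧
      hopf J' D'.F D'.C = hopf J D.F D.C ∧ hopf J' D'.K D'.c = hopf J D.K D.c ∧
      toSca q D' = toSca q D ∧ ((D.F t).PosDef → (D'.F t).PosDef) ∧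
      D'.F t 1 2 = 0 ∧ D'.F t 1 3 = 0 ∧ D'.F t 2 3 = 0

def SphOddStmt : Prop :=
  ∀ (n : ℕ) (r : ℝ) (f : Pt n → ℝ), 0 < r → (∀ x, rad x = r → f (-x) = -f x) → sph r f = 0

def FluxStmt : Prop :=
  ∀ (n : ℕ) (J : Fin 3 → Matrix (Fin n) (Fin n) ℝ) (D : Dat) (r : ℝ), 4 < n → IsQuat J → 0 < r →
    (D.F (r ^ 2)).PosDef → 0 < D.C (r ^ 2) →
    energyFlux (hopf J D.F D.C) r =
      r ^ (n - 2) * F1 ((n : ℝ) - 4) (toSca ((n : ℝ) - 4) D) (r ^ 2) / (2 * ((n : ℝ) - 1)) ∧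
    (∀ i, momFlux (hopf J D.F D.C) (hopf J D.K D.c) i r = 0) ∧
    area (hopf J D.F D.C) r / omega n = ar1 n (toSca ((n : ℝ) - 4) D) (r ^ 2)

def DecayStmt : Prop :=
  ∀ (n : ℕ) (J : Fin 3 → Matrix (Fin n) (Fin n) ℝ) (D : Dat) (R τ : ℝ), 4 < n → IsQuat J → 0 < R →
    ((n : ℝ) - 2) / 2 < τ → Decay (hopf J D.F D.C) (hopf J D.K D.c) R τ → MatAsym n D

/-- Quaternionic reflections: transitivity on spheres. -/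
def TransStmt : Prop :=
  ∀ (n : ℕ) (J : Fin 3 → Matrix (Fin n) (Fin n) ℝ) (x y : Pt n), IsQuat J → x ⬝ᵥ x = y ⬝ᵥ y →
    ∃ U : Matrix (Fin n) (Fin n) ℝ, Uᵀ * U = 1 ∧ (∀ a, U * J a = J a * U) ∧ U *ᵥ x = y ∧
      ∀ z, Hor J (x - y) z → U *ᵥ z = z

def InvStmt : Prop :=
  ∀ (n : ℕ) (J : Fin 3 → Matrix (Fin n) (Fin n) ℝ) (h : Ten n), 4 < n → IsQuat J →
    (∀ x, (h x)ᵀ = h x) → SpInv J h →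
    (∀ x, x ≠ 0 → ∀ i j, ContDiffAt ℝ ∞ (fun y => h y i j) x) →
    ∃ (F : ℝ → M4) (C : ℝ → ℝ), h = hopf J F C ∧ (∀ t, (F t)ᵀ = F t) ∧
      (∀ t, 0 < t → ∀ a b, ContDiffAt ℝ ∞ (fun s => F s a b) t) ∧
      ∀ t, 0 < t → ContDiffAt ℝ ∞ C t

end Vale.Agent.P366S
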