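import Vale.Agent.P366S.Stm
import Vale.Agent.P366.Ode

/-! The one-variable argument in the general case. -/

namespace Vale.Agent.P366S

open scoped Matrix ContDiff Topology
open Filter Set
open Vale.Agent.P366 (ll ode_last)

theorem ode_der {f : ℝ → ℝ} {t : ℝ} (h : ContDiffAt ℝ 2 f t) : ContinuousAt (deriv f) t :=
  (h.derivWithin (m := 1) (by norm_num)).continuousAt

theorem ode_pf (hM : MonoStmt) (hC : P366.ContStmt) (hL : LimStmt) (hE : EvPosStmt) :
    OdeStmt := by
  intro n S t0 E hn h0 hp hd hi ha hF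
  have hq : (0 : ℝ) < (n : ℝ) - 4 := sub_pos.2 (by exact_mod_cast hn)
  have ht : ∀ t ∈ Ici t0, 0 < t := fun t h => h0.trans_le h
  have q1 : ∀ t ∈ Ici t0, 0 < S.e1 t := fun t h => (hp t h).2.1
  have q3 : ∀ t ∈ Ici t0, 0 < S.e3 t := fun t h => (hp t h).2.2.1
  have qC : ∀ t ∈ Ici t0, 0 < S.C t := fun t h => (hp t h).2.2.2.1
  have cp : ContinuousOn S.p (Ici t0) := fun t h =>
    (hp t h).2.2.2.2.1.continuousAt.continuousWithinAt
  have c1' : ContinuousOn S.e1 (Ici t0) := fun t h =>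
    (hp t h).2.2.2.2.2.1.continuousAt.continuousWithinAt
  have c3' : ContinuousOn S.e3 (Ici t0) := fun t h =>
    (hp t h).2.2.2.2.2.2.1.continuousAt.continuousWithinAt
  have cC : ContinuousOn S.C (Ici t0) := fun t h =>
    (hp t h).2.2.2.2.2.2.2.1.continuousAt.continuousWithinAt
  have c2 : ContinuousOn S.P (Ici t0) := fun t h =>
    (hp t h).2.2.2.2.2.2.2.2.continuousAt.continuousWithinAt
  have d3 : ContinuousOn (deriv S.e3) (Ici t0) := fun t h =>
    (ode_der (hp t h).2.2.2.2.2.2.1).continuousWithinAt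
  have dC : ContinuousOn (deriv S.C) (Ici t0) := fun t h =>
    (ode_der (hp t h).2.2.2.2.2.2.2.1).continuousWithinAt
  have cl : ContinuousOn (ll S.C) (Ici t0) :=
    continuousOn_const.add ((continuousOn_id.mul dC).div cC fun t h => (qC t h).ne')
  have c1 : ContinuousOn (H1 ((n : ℝ) - 4) S) (Ici t0) :=
    ((continuousOn_const.add ((continuousOn_id.mul d3).div c3' fun t h => (q3 t h).ne')).add
      (continuousOn_const.mul cl)).mul (cp.div continuousOn_id fun t h => (ht t h).ne').sqrt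
  have cr : ContinuousOn (fun t => S.e3 t ^ ((1 : ℝ) / 6)) (Ici t0) :=
    c3'.rpow_const fun t h => .inl (q3 t h).ne'
  have c3 : ContinuousOn (w1 ((n : ℝ) - 4) S) (Ici t0) :=
    ((c1'.div c3'.sqrt fun t h => (Real.sqrt_pos.2 (q3 t h)).ne').add (continuousOn_const.mul
      ((continuousOn_const.div cr fun t h => (Real.rpow_pos_of_pos (q3 t h) _).ne').add
        (cr.div cC fun t h => (qC t h).ne')))).div continuousOn_id.sqrt
      fun t h => (Real.sqrt_pos.2 (ht t h)).ne'
  have c4 : ContinuousOn (ar1 n S) (Ici t0) :=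
    (continuousOn_id.sqrt.pow _).mul (c3'.mul (cC.pow _)).sqrt
  have p3 : ∀ t ∈ Ici t0, 0 < w1 ((n : ℝ) - 4) S t := fun t h => by
    have a0 := q1 t h
    have a1 := q3 t h
    have a2 := qC t h
    have a3 := ht t h
    unfold w1
    positivity
  have p4 : ∀ t ∈ Ici t0, 0 < ar1 n S t := fun t h => by
    have a1 := q3 t h
    have a2 := qC t h
    have a3 := ht t h
    unfold ar1
    positivity
  have c5 : ContinuousOn (mass n S) (Ici t0) :=
    (continuousOn_const.mul (c4.rpow_const fun t h => .inl (p4 t h).ne')).mul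
      (continuousOn_const.sub (((c1.pow 2).sub (c2.pow 2)).div (c3.pow 2)
        fun t h => (pow_pos (p3 t h) 2).ne'))
  obtain ⟨t1, h1, h2, h3⟩ := ode_last (m := fun t => min
      (H1 ((n : ℝ) - 4) S t + S.P t) (H1 ((n : ℝ) - 4) S t - S.P t))
    (continuous_min.comp_continuousOn ((c1.add c2).prodMk (c1.sub c2))) (min_le_of_left_le hi)
    ((hE n S hn ha).mono fun t h => lt_min h.1 h.2)
  have h4 : H1 ((n : ℝ) - 4) S t1 ^ 2 - S.P t1 ^ 2 = 0 := by
    rw [sq_sub_sq, mul_eq_zero]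
    exact (min_choice _ _).imp (fun h => h.symm.trans h2) fun h => h.symm.trans h2
  have h5 : mass n S t1 = 1 / 2 * ar1 n S t1 ^ (((n : ℝ) - 2) / ((n : ℝ) - 1)) := by
    rw [mass, h4, zero_div, sub_zero, mul_one]
  refine ⟨t1, h1, h5 ▸ ge_of_tendsto (hL n S E hn ha hF) ((eventually_ge_atTop t1).mono
    (hC (mass n S) t1 (c5.mono (Ici_subset_Ici.2 h1)) ?_ fun t h h' => ?_))⟩
  · rw [h5]
    exact mul_pos one_half_pos (Real.rpow_pos_of_pos (p4 t1 h1) _)
  · have h6 := h1.trans h.le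
    have h7 := lt_min_iff.1 (h3 t h)
    exact hM n S t hn (ht t h6) (hp t h6) (hd t (h1.trans_lt h)) h7.1 h7.2 h'

end Vale.Agent.P366S
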