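import Vale.Agent.P366S.Stm

/-! Algebra of the block matrices (general `Sp(m+1)` case). -/

namespace Vale.Agent.P366S

open scoped Matrix
open Matrix
open Vale.Agent.P366 (Pt IsQuat Hor dot_pos sum_mul_mul sum_mul_trace)

variable {n : ℕ} {J : Fin 3 → Matrix (Fin n) (Fin n) ℝ}

theorem J4_0 (J : Fin 3 → Matrix (Fin n) (Fin n) ℝ) (u : Pt n) : J4 J 0 *ᵥ u = u :=
  Matrix.one_mulVec u
theorem J4_1 (J : Fin 3 → Matrix (Fin n) (Fin n) ℝ) : J4 J 1 = J 0 := rfl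
theorem J4_2 (J : Fin 3 → Matrix (Fin n) (Fin n) ℝ) : J4 J 2 = J 1 := rfl
theorem J4_3 (J : Fin 3 → Matrix (Fin n) (Fin n) ℝ) : J4 J 3 = J 2 := rfl

theorem fin4 (a : Fin 4) : a = 0 ∨ a = 1 ∨ a = 2 ∨ a = 3 := by fin_cases a <;> simp

theorem Ym_mulVec (J : Fin 3 → Matrix (Fin n) (Fin n) ℝ) (x : Pt n) (p : Fin 4 → ℝ) :
    Ym J x *ᵥ p = p 0 • x + p 1 • (J 0 *ᵥ x) + p 2 • (J 1 *ᵥ x) + p 3 • (J 2 *ᵥ x) := by
  ext i
  have : (Ym J x *ᵥ p) i = ∑ a, (J4 J a *ᵥ x) i * p a := rfl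
  rw [this, Fin.sum_univ_four, J4_0, J4_1, J4_2, J4_3]
  simp only [Pi.add_apply, Pi.smul_apply, smul_eq_mul]
  ring

theorem YmT_apply (J : Fin 3 → Matrix (Fin n) (Fin n) ℝ) (x u : Pt n) (a : Fin 4) :
    ((Ym J x)ᵀ *ᵥ u) a = (J4 J a *ᵥ x) ⬝ᵥ u := rfl

theorem Ym_e0 (J : Fin 3 → Matrix (Fin n) (Fin n) ℝ) (x : Pt n) : Ym J x *ᵥ e0 = x := by
  rw [Ym_mulVec]; simp [e0]

theorem YmT_zero (J : Fin 3 → Matrix (Fin n) (Fin n) ℝ) (x u : Pt n) :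
    ((Ym J x)ᵀ *ᵥ u) 0 = x ⬝ᵥ u := by rw [YmT_apply, J4_0]

theorem Ym_add (J : Fin 3 → Matrix (Fin n) (Fin n) ℝ) (u v : Pt n) :
    Ym J (u + v) = Ym J u + Ym J v := by
  ext i a; simp [Ym, Matrix.mulVec_add]

theorem Ym_smul (J : Fin 3 → Matrix (Fin n) (Fin n) ℝ) (c : ℝ) (u : Pt n) :
    Ym J (c • u) = c • Ym J u := by
  ext i a; simp [Ym, Matrix.mulVec_smul]

theorem YtY (h : IsQuat J) (x : Pt n) : (Ym J x)ᵀ * Ym J x = (x ⬝ᵥ x) • (1 : M4) := by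
  ext a b
  have : ((Ym J x)ᵀ * Ym J x) a b = (J4 J a *ᵥ x) ⬝ᵥ (J4 J b *ᵥ x) := rfl
  rw [this]
  rcases fin4 a with rfl | rfl | rfl | rfl <;> rcases fin4 b with rfl | rfl | rfl | rfl <;>
    simp only [J4_0, J4_1, J4_2, J4_3, h.dot_self, h.self_dot, h.dot_yy] <;> simp

theorem YtY_mulVec (h : IsQuat J) (x : Pt n) (p : Fin 4 → ℝ) :
    (Ym J x)ᵀ *ᵥ (Ym J x *ᵥ p) = (x ⬝ᵥ x) • p := by
  rw [Matrix.mulVec_mulVec, YtY h, Matrix.smul_mulVec, Matrix.one_mulVec]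

theorem Y_dot_Y (h : IsQuat J) (x : Pt n) (p r : Fin 4 → ℝ) :
    (Ym J x *ᵥ p) ⬝ᵥ (Ym J x *ᵥ r) = (x ⬝ᵥ x) * (p ⬝ᵥ r) := by
  rw [Matrix.dotProduct_mulVec, ← Matrix.mulVec_transpose, YtY_mulVec h, smul_dotProduct,
    smul_eq_mul]

theorem YmT_x (h : IsQuat J) (x : Pt n) : (Ym J x)ᵀ *ᵥ x = (x ⬝ᵥ x) • e0 := by
  have := YtY_mulVec h x e0
  rwa [Ym_e0] at this

theorem x_dot_Y (h : IsQuat J) (x : Pt n) (p : Fin 4 → ℝ) :
    x ⬝ᵥ (Ym J x *ᵥ p) = (x ⬝ᵥ x) * p 0 := by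
  rw [← YmT_zero J, YtY_mulVec h]; rfl

theorem hor_iff (x v : Pt n) : Hor J x v ↔ (Ym J x)ᵀ *ᵥ v = 0 := by
  constructor
  · intro hv
    ext a
    rw [YmT_apply]
    rcases fin4 a with rfl | rfl | rfl | rfl
    exacts [by rw [J4_0]; exact hv.1, hv.2 0, hv.2 1, hv.2 2]
  · intro hv
    refine ⟨by rw [← YmT_zero J, hv]; rfl, fun a => ?_⟩
    fin_cases a
    exacts [congrFun hv 1, congrFun hv 2, congrFun hv 3]

/-- The frames at a horizontal vector and at `x` are orthogonal. -/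
theorem YtY_hor (h : IsQuat J) {x v : Pt n} (hv : Hor J x v) : (Ym J x)ᵀ * Ym J v = 0 := by
  ext a b
  have : ((Ym J x)ᵀ * Ym J v) a b = ((Ym J x)ᵀ *ᵥ (J4 J b *ᵥ v)) a := rfl
  rw [this]
  have hb : Hor J x (J4 J b *ᵥ v) := by
    rcases fin4 b with rfl | rfl | rfl | rfl
    exacts [by rw [J4_0]; exact hv, Hor.map h hv 0, Hor.map h hv 1, Hor.map h hv 2]
  rw [(hor_iff _ _).1 hb]; rfl

theorem Ym_Y (h : IsQuat J) (x : Pt n) (p : Fin 4 → ℝ) :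
    Ym J (Ym J x *ᵥ p) = Ym J x * Rq p := by
  ext i b
  have e1 : (Ym J x * Rq p) i b = (Ym J x *ᵥ fun a => Rq p a b) i := rfl
  have e2 : Ym J (Ym J x *ᵥ p) i b = (J4 J b *ᵥ (Ym J x *ᵥ p)) i := rfl
  rw [e1, e2, Ym_mulVec, Ym_mulVec]
  rcases fin4 b with rfl | rfl | rfl | rfl <;>
    simp only [J4_0, J4_1, J4_2, J4_3, Matrix.mulVec_add, Matrix.mulVec_smul, h.v00, h.v11, h.v22,
      h.v01, h.v10, h.v02, h.v20, h.v12, h.v21] <;> simp [Rq] <;> ring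

theorem Jo_Y (h : IsQuat J) (x : Pt n) (p : Fin 4 → ℝ) :
    Jo J p * Ym J x = Ym J x * (Lq p - p 0 • (1 : M4)) := by
  ext i b
  have e1 : (Ym J x * (Lq p - p 0 • (1 : M4))) i b =
    (Ym J x *ᵥ fun a => (Lq p - p 0 • (1 : M4)) a b) i := rfl
  have e2 : (Jo J p * Ym J x) i b = (Jo J p *ᵥ (J4 J b *ᵥ x)) i := rfl
  rw [e1, e2, Ym_mulVec]
  rcases fin4 b with rfl | rfl | rfl | rfl <;>
    simp only [J4_0, J4_1, J4_2, J4_3, Jo, Matrix.add_mulVec, Matrix.smul_mulVec, h.v00, h.v11,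
      h.v22, h.v01, h.v10, h.v02, h.v20, h.v12, h.v21] <;> simp [Lq] <;> ring

theorem Jo_T (h : IsQuat J) (p : Fin 4 → ℝ) : (Jo J p)ᵀ = -Jo J p := by
  simp only [Jo, Matrix.transpose_add, Matrix.transpose_smul, h.1]; module

theorem Jo_mul_add (h : IsQuat J) (p r : Fin 4 → ℝ) :
    Jo J p * Jo J r + Jo J r * Jo J p =
      (-2 * (p ⬝ᵥ r - p 0 * r 0)) • (1 : Matrix (Fin n) (Fin n) ℝ) := by
  simp only [Jo, Matrix.add_mul, Matrix.mul_add, smul_mul_smul_comm, h.2.1, h.2.2, h.m10, h.m02,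
    h.m20, h.m12, h.m21, dotProduct, Fin.sum_univ_four]
  module

theorem Jo_hor (h : IsQuat J) {x v : Pt n} (hv : Hor J x v) (p : Fin 4 → ℝ) :
    Hor J x (Jo J p *ᵥ v) := by
  rw [hor_iff, Jo]
  simp only [Matrix.add_mulVec, Matrix.smul_mulVec, Matrix.mulVec_add, Matrix.mulVec_smul,
    (hor_iff _ _).1 (Hor.map h hv _), smul_zero, add_zero]

theorem blk_eq (J : Fin 3 → Matrix (Fin n) (Fin n) ℝ) (x : Pt n) (F : M4) (C : ℝ) :
    blk J x F C = C • (1 : Matrix (Fin n) (Fin n) ℝ)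
      + Ym J x * ph (x ⬝ᵥ x) F C * (Ym J x)ᵀ := by
  simp only [blk, ph, Matrix.mul_smul, Matrix.smul_mul, Matrix.mul_sub, Matrix.sub_mul,
    Matrix.mul_one]
  module

theorem blk_Y (h : IsQuat J) {x : Pt n} (hx : x ≠ 0) (F : M4) (C : ℝ) :
    blk J x F C * Ym J x = Ym J x * F := by
  have := (dot_pos hx).ne'
  simp only [blk, Matrix.add_mul, Matrix.sub_mul, Matrix.smul_mul, Matrix.mul_assoc, YtY h,
    Matrix.mul_smul, Matrix.mul_one, Matrix.one_mul, smul_smul, inv_mul_cancel₀ this]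
  module

theorem Y_blk (h : IsQuat J) {x : Pt n} (hx : x ≠ 0) (F : M4) (C : ℝ) :
    (Ym J x)ᵀ * blk J x F C = F * (Ym J x)ᵀ := by
  have := (dot_pos hx).ne'
  simp only [blk, Matrix.mul_add, Matrix.mul_sub, Matrix.mul_smul, ← Matrix.mul_assoc, YtY h,
    Matrix.smul_mul, Matrix.mul_one, Matrix.one_mul, smul_smul, inv_mul_cancel₀ this]
  module

theorem blk_Yv (h : IsQuat J) {x : Pt n} (hx : x ≠ 0) (F : M4) (C : ℝ) (p : Fin 4 → ℝ) :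
    blk J x F C *ᵥ (Ym J x *ᵥ p) = Ym J x *ᵥ (F *ᵥ p) := by
  rw [Matrix.mulVec_mulVec, blk_Y h hx, Matrix.mulVec_mulVec]

theorem blk_x (h : IsQuat J) {x : Pt n} (hx : x ≠ 0) (F : M4) (C : ℝ) :
    blk J x F C *ᵥ x = Ym J x *ᵥ (F *ᵥ e0) := by
  have := blk_Yv h hx F C e0
  rwa [Ym_e0] at this

theorem blk_hor {x v : Pt n} (hv : Hor J x v) (F : M4) (C : ℝ) : blk J x F C *ᵥ v = C • v := by
  rw [blk_eq, Matrix.add_mulVec, ← Matrix.mulVec_mulVec, (hor_iff _ _).1 hv]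
  simp [Matrix.smul_mulVec]

theorem blk_T (J : Fin 3 → Matrix (Fin n) (Fin n) ℝ) (x : Pt n) (F : M4) (C : ℝ) :
    (blk J x F C)ᵀ = blk J x Fᵀ C := by
  simp [blk, Matrix.transpose_mul, Matrix.mul_assoc]

theorem blk_one (J : Fin 3 → Matrix (Fin n) (Fin n) ℝ) (x : Pt n) : blk J x 1 1 = 1 := by
  simp [blk]

theorem blk_add (J : Fin 3 → Matrix (Fin n) (Fin n) ℝ) (x : Pt n) (F F' : M4) (C C' : ℝ) :
    blk J x F C + blk J x F' C' = blk J x (F + F') (C + C') := by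
  simp only [blk, Matrix.mul_add, Matrix.add_mul]; module

theorem blk_sub (J : Fin 3 → Matrix (Fin n) (Fin n) ℝ) (x : Pt n) (F F' : M4) (C C' : ℝ) :
    blk J x F C - blk J x F' C' = blk J x (F - F') (C - C') := by
  simp only [blk, Matrix.mul_sub, Matrix.sub_mul]; module

theorem blk_smul (J : Fin 3 → Matrix (Fin n) (Fin n) ℝ) (x : Pt n) (s : ℝ) (F : M4) (C : ℝ) :
    s • blk J x F C = blk J x (s • F) (s * C) := by
  simp only [blk, Matrix.mul_smul, Matrix.smul_mul]; module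

theorem blk_mul (h : IsQuat J) {x : Pt n} (hx : x ≠ 0) (F F' : M4) (C C' : ℝ) :
    blk J x F C * blk J x F' C' = blk J x (F * F') (C * C') := by
  conv_lhs => rw [blk_eq J x F' C']
  rw [Matrix.mul_add, ← Matrix.mul_assoc, ← Matrix.mul_assoc, blk_Y h hx]
  simp only [blk, ph, Matrix.mul_smul, Matrix.smul_mul, Matrix.mul_sub, Matrix.sub_mul,
    Matrix.mul_one, Matrix.mul_assoc]
  module

theorem blk_trace (h : IsQuat J) {x : Pt n} (hx : x ≠ 0) (F : M4) (C : ℝ) :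
    (blk J x F C).trace = F.trace + ((n : ℝ) - 4) * C := by
  have := (dot_pos hx).ne'
  rw [blk_eq, Matrix.trace_add, Matrix.trace_mul_cycle, YtY h]
  simp [ph, smul_smul]
  field_simp
  ring

theorem blk_inv (h : IsQuat J) {x : Pt n} (hx : x ≠ 0) {F : M4} {C : ℝ} (hF : F.det ≠ 0)
    (hC : C ≠ 0) : (blk J x F C)⁻¹ = blk J x F⁻¹ C⁻¹ := by
  apply Matrix.inv_eq_right_inv
  rw [blk_mul h hx, Matrix.mul_nonsing_inv _ (Ne.isUnit hF), mul_inv_cancel₀ hC, blk_one]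

theorem blk_det_ne (h : IsQuat J) {x : Pt n} (hx : x ≠ 0) {F : M4} {C : ℝ} (hF : F.det ≠ 0)
    (hC : C ≠ 0) : (blk J x F C).det ≠ 0 := by
  have : blk J x F C * blk J x F⁻¹ C⁻¹ = 1 := by
    rw [blk_mul h hx, Matrix.mul_nonsing_inv _ (Ne.isUnit hF), mul_inv_cancel₀ hC, blk_one]
  exact (Matrix.isUnit_det_of_right_inverse this).ne_zero

theorem blk_hor_mem (h : IsQuat J) {x : Pt n} (hx : x ≠ 0) (u : Pt n) :
    Hor J x (blk J x 0 1 *ᵥ u) := by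
  rw [hor_iff, Matrix.mulVec_mulVec, Y_blk h hx]; simp

/-- Decomposition of a vector. -/
theorem decomp (J : Fin 3 → Matrix (Fin n) (Fin n) ℝ) (x u : Pt n) :
    u = blk J x 0 1 *ᵥ u + Ym J x *ᵥ ((x ⬝ᵥ x)⁻¹ • ((Ym J x)ᵀ *ᵥ u)) := by
  simp [blk, Matrix.sub_mulVec, Matrix.smul_mulVec, Matrix.mulVec_smul]

/-- Contraction of a bilinear form with a block matrix. -/
theorem contract (h : IsQuat J) {x : Pt n} (hx : x ≠ 0) (B : Pt n →ₗ[ℝ] Pt n →ₗ[ℝ] ℝ)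
    (Γ : M4) (γ κ : ℝ) (hB : ∀ v, Hor J x v → B v v = κ * (v ⬝ᵥ v)) :
    ∑ i, ∑ j, blk J x Γ γ i j * B (Pi.single i 1) (Pi.single j 1) =
      (x ⬝ᵥ x)⁻¹ * ∑ c, ∑ d, Γ c d * B (Ym J x *ᵥ Pi.single c 1) (Ym J x *ᵥ Pi.single d 1)
        + γ * κ * ((n : ℝ) - 4) := by
  have key : ∀ u v : Pt n, ∑ i, ∑ j, vecMulVec u v i j * B (Pi.single i 1) (Pi.single j 1)
      = B u v := by
    intro u v
    conv_rhs => rw [pi_eq_sum_univ' u, pi_eq_sum_univ' v]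
    simp only [map_sum, map_smul, LinearMap.sum_apply, LinearMap.smul_apply, smul_eq_mul,
      Finset.mul_sum, vecMulVec_apply]
    rw [Finset.sum_comm]
    exact Finset.sum_congr rfl fun i _ => Finset.sum_congr rfl fun j _ => by ring
  set Pm := blk J x 0 1 with hP
  have hPP : Pm = ∑ k, vecMulVec (Pm *ᵥ Pi.single k 1) (Pm *ᵥ Pi.single k 1) := by
    have : Pm = Pm * Pmᵀ := by rw [hP, blk_T, blk_mul h hx]; simp
    ext i j
    conv_lhs => rw [this]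
    simp [Matrix.mul_apply, Matrix.sum_apply, vecMulVec_apply]
  have htr : ∑ k, (Pm *ᵥ Pi.single k 1) ⬝ᵥ (Pm *ᵥ Pi.single k 1) = (n : ℝ) - 4 := by
    have := congrArg Matrix.trace hPP
    rw [Matrix.trace_sum] at this
    simp only [Matrix.trace_vecMulVec] at this
    rw [← this, hP, blk_trace h hx]; simp
  have hY : Ym J x * Γ * (Ym J x)ᵀ = ∑ c, ∑ d, Γ c d •
      vecMulVec (Ym J x *ᵥ Pi.single c 1) (Ym J x *ᵥ Pi.single d 1) := by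
    ext i j
    simp only [Matrix.mul_apply, Matrix.sum_apply, Matrix.smul_apply, vecMulVec_apply,
      Matrix.mulVec_single_one, Matrix.transpose_apply, Matrix.col_apply, smul_eq_mul,
      Finset.sum_mul]
    rw [Finset.sum_comm]
    exact Finset.sum_congr rfl fun c _ => Finset.sum_congr rfl fun d _ => by ring
  have hb : blk J x Γ γ = (x ⬝ᵥ x)⁻¹ • ∑ c, ∑ d, Γ c d •
      vecMulVec (Ym J x *ᵥ Pi.single c 1) (Ym J x *ᵥ Pi.single d 1)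
      + γ • ∑ k, vecMulVec (Pm *ᵥ Pi.single k 1) (Pm *ᵥ Pi.single k 1) := by
    rw [← hPP, ← hY, hP]
    simp [blk]
  have h3 : ∑ k, B (Pm *ᵥ Pi.single k 1) (Pm *ᵥ Pi.single k 1) = κ * ((n : ℝ) - 4) := by
    rw [← htr, Finset.mul_sum]
    exact Finset.sum_congr rfl fun k _ => hB _ (blk_hor_mem h hx _)
  let L : Matrix (Fin n) (Fin n) ℝ →ₗ[ℝ] ℝ :=
    { toFun := fun M => ∑ i, ∑ j, M i j * B (Pi.single i 1) (Pi.single j 1)
      map_add' := fun M N => by simp [add_mul, Finset.sum_add_distrib]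
      map_smul' := fun c M => by simp [Finset.mul_sum, mul_assoc] }
  have key' : ∀ u v : Pt n, L (vecMulVec u v) = B u v := key
  change L (blk J x Γ γ) = _
  rw [hb]
  simp only [map_add, map_smul, map_sum, key', smul_eq_mul, h3, mul_assoc]

end Vale.Agent.P366S
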