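import Vale.Agent.P366S.Stm2

/-! The Christoffel symbols of the ansatz (general `Sp(m+1)` case). -/

namespace Vale.Agent.P366S

open scoped Matrix
open Matrix
open Vale.Agent.P366 (Pt pd chr IsQuat)

variable {n : ℕ} {J : Fin 3 → Matrix (Fin n) (Fin n) ℝ}

theorem chr_Ys (J : Fin 3 → Matrix (Fin n) (Fin n) ℝ) (i j : Fin n) :
    Ym J (Pi.single i 1) j 0 = (Pi.single i (1 : ℝ) : Pt n) j ∧
      Ym J (Pi.single i 1) j 1 = J 0 j i ∧ Ym J (Pi.single i 1) j 2 = J 1 j i ∧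
      Ym J (Pi.single i 1) j 3 = J 2 j i := by
  have e : ∀ a, Ym J (Pi.single i 1) j a = (J4 J a *ᵥ Pi.single i 1) j := fun _ => rfl
  rw [e, e, e, e, J4_0, J4_1, J4_2, J4_3, mulVec_single_one, mulVec_single_one, mulVec_single_one]
  exact ⟨rfl, rfl, rfl, rfl⟩

theorem chr_entry (h : IsQuat J) (x : Pt n) (F F' : M4) (C C' : ℝ) (hF : Fᵀ = F) (hF' : F'ᵀ = F')
    (i j l : Fin n) :
    Dm J x F F' C C' (Pi.single i 1) j l + Dm J x F F' C C' (Pi.single j 1) i l -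
      Dm J x F F' C C' (Pi.single l 1) i j = 2 * Tm J x F F' C C' (Pi.single i 1) l j := by
  have sk : ∀ a i j, J a i j = -J a j i := fun a i j => congrFun (congrFun (h.1 a) j) i
  have sp : (ph (x ⬝ᵥ x) F C)ᵀ = ph (x ⬝ᵥ x) F C := by
    rw [ph, transpose_smul, transpose_sub, transpose_smul, transpose_one, hF]
  have sy0 : (blk J x (F' - ph (x ⬝ᵥ x) F C) C')ᵀ = blk J x (F' - ph (x ⬝ᵥ x) F C) C' := by
    rw [blk_T, transpose_sub, hF', sp]
  have sy : ∀ a b, blk J x (F' - ph (x ⬝ᵥ x) F C) C' a b = blk J x (F' - ph (x ⬝ᵥ x) F C) C' b a :=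
    fun a b => congrFun (congrFun sy0 b) a
  have eW : Ym J x * ph (x ⬝ᵥ x) F C = (ph (x ⬝ᵥ x) F C * (Ym J x)ᵀ)ᵀ := by
    rw [transpose_mul, transpose_transpose, sp]
  unfold Dm Tm
  generalize blk J x (F' - ph (x ⬝ᵥ x) F C) C' = H at sy ⊢
  rw [mulVec_mulVec, mulVec_mulVec, eW, Matrix.mul_assoc, Matrix.mul_assoc, Matrix.mul_assoc,
    Matrix.mul_assoc]
  generalize ph (x ⬝ᵥ x) F C * (Ym J x)ᵀ = W
  have d : ∀ a b : Fin n, (Pi.single a (1 : ℝ) : Pt n) b = (Pi.single b (1 : ℝ) : Pt n) a :=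
    fun a b => Pi.single_comm a 1 b
  have z0 : e0 0 = 1 := rfl
  have z1 : e0 1 = 0 := rfl
  have z2 : e0 2 = 0 := rfl
  have z3 : e0 3 = 0 := rfl
  have zW : (Wᵀ *ᵥ e0) l = W 0 l := by
    rw [e0, mulVec_single_one]
    rfl
  simp only [Jo, Matrix.mul_apply, Fin.sum_univ_four, Matrix.add_apply, Matrix.sub_apply,
    Matrix.smul_apply, vecMulVec_apply, smul_eq_mul, dotProduct_single, mulVec_single_one,
    Matrix.col_apply, mul_one, transpose_apply, (chr_Ys J _ _).1, (chr_Ys J _ _).2.1,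
    (chr_Ys J _ _).2.2.1, (chr_Ys J _ _).2.2.2, z0, z1, z2, z3, zW]
  rw [sy j l, sy i l, sy i j, d j i, d l i, d l j, sk 0 i j, sk 1 i j, sk 2 i j, sk 0 i l, sk 1 i l,
    sk 2 i l, sk 0 j l, sk 1 j l, sk 2 j l]
  ring

theorem chr_pf (hJ : JetStmt) : ChrStmt := by
  intro n J D x h hx hF hC k i j
  have ht : 0 < x ⬝ᵥ x := Vale.Agent.P366.dot_pos hx
  have hj := hJ n J D.F D.C x hx (fun a b => (D.hF _ ht a b).differentiableAt (by simp))
    ((D.hC _ ht).differentiableAt (by simp))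
  have e : (hopf J D.F D.C x)⁻¹ = blk J x (D.F (x ⬝ᵥ x))⁻¹ (D.C (x ⬝ᵥ x))⁻¹ := blk_inv h hx hF hC
  have sm : (md D.F (x ⬝ᵥ x))ᵀ = md D.F (x ⬝ᵥ x) := by
    ext a b
    exact congrArg (fun f : ℝ → ℝ => deriv f (x ⬝ᵥ x))
      (funext fun s => congrFun (congrFun (D.sF s) a) b)
  rw [chr, e, Gam, Matrix.mul_apply, Finset.mul_sum]
  refine Finset.sum_congr rfl fun l _ => ?_
  rw [hj, hj, hj, chr_entry h _ _ _ _ _ (D.sF _) sm]
  ring

end Vale.Agent.P366S
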