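import Vale.Agent.P366.Defs

/-! Invariance under the quaternionic unitary group. -/

namespace Vale.Agent.P366S

open scoped Matrix
open Vale.Agent.P366

/-- `h` is invariant under `Sp(m+1)`, the group of orthogonal matrices commuting with `I, J, K`. -/
def SpInv {n : ℕ} (J : Fin 3 → Matrix (Fin n) (Fin n) ℝ) (h : Ten n) : Prop :=
  ∀ U : Matrix (Fin n) (Fin n) ℝ, Uᵀ * U = 1 → (∀ a, U * J a = J a * U) →
    ∀ x, h (U *ᵥ x) = U * h x * Uᵀ

end Vale.Agent.P366S
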