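import Vale.Agent.P366S.Stm2

/-! Rotating the quaternionic structure diagonalises the vertical metric. -/

namespace Vale.Agent.P366S

open scoped Matrix ContDiff
open Matrix
open Vale.Agent.P366 (Pt IsQuat)

namespace RotAux

abbrev M3 := Matrix (Fin 3) (Fin 3) ℝ

theorem diag3 (γ : M3) (hγ : γᵀ = γ) : ∃ O : M3, Oᵀ * O = 1 ∧ O.det = 1 ∧
    ∀ i j, i ≠ j → (Oᵀ * γ * O) i j = 0 := by
  have hA : γ.IsHermitian := by
    rw [IsHermitian, conjTranspose_eq_transpose_of_trivial, hγ]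
  obtain ⟨U, h1, h2⟩ : ∃ U : M3, Uᵀ * U = 1 ∧ ∀ i j, i ≠ j → (Uᵀ * γ * U) i j = 0 := by
    refine ⟨hA.eigenvectorUnitary, ?_, fun i j hij => ?_⟩
    · have := Unitary.coe_star_mul_self hA.eigenvectorUnitary
      rwa [star_eq_conjTranspose, conjTranspose_eq_transpose_of_trivial] at this
    · have := hA.conjStarAlgAut_star_eigenvectorUnitary
      rw [Unitary.conjStarAlgAut_star_apply, star_eq_conjTranspose,
        conjTranspose_eq_transpose_of_trivial] at this
      rw [this, diagonal_apply_ne _ hij]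
  have hd : U.det * U.det = 1 := by
    have := congrArg det h1
    rwa [det_mul, det_transpose, det_one] at this
  refine ⟨U.det • U, ?_, ?_, fun i j hij => ?_⟩
  · rw [transpose_smul, smul_mul_smul_comm, hd, h1, one_smul]
  · rw [det_smul, Fintype.card_fin]
    linear_combination (U.det * U.det + 1) * hd
  · rw [transpose_smul, Matrix.smul_mul, smul_mul_smul_comm, hd, one_smul, h2 i j hij]

def Oh (O : M3) : M4 := Matrix.of fun i j =>
  Fin.cases (Fin.cases 1 (fun _ => 0) j) (fun a => Fin.cases 0 (fun b => O a b) j) i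

theorem Oh00 (O : M3) : Oh O 0 0 = 1 := rfl
theorem Oh0s (O : M3) (b : Fin 3) : Oh O 0 b.succ = 0 := rfl
theorem Ohs0 (O : M3) (a : Fin 3) : Oh O a.succ 0 = 0 := rfl
theorem Ohss (O : M3) (a b : Fin 3) : Oh O a.succ b.succ = O a b := rfl

theorem sum4 (f : Fin 4 → ℝ) : ∑ i, f i = f 0 + ∑ a : Fin 3, f a.succ := Fin.sum_univ_succ f

theorem Oh_T (O : M3) : (Oh O)ᵀ = Oh Oᵀ := by
  ext i j
  refine Fin.cases ?_ (fun a => ?_) i <;> refine Fin.cases ?_ (fun b => ?_) j <;> rfl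

theorem Oh_mul (A B : M3) : Oh A * Oh B = Oh (A * B) := by
  ext i j
  refine Fin.cases ?_ (fun a => ?_) i <;> refine Fin.cases ?_ (fun b => ?_) j <;>
    simp only [Matrix.mul_apply, sum4, Oh00, Oh0s, Ohs0, Ohss, mul_zero, zero_mul, mul_one,
      Finset.sum_const_zero, add_zero, zero_add]

theorem Oh_one : Oh 1 = 1 := by
  ext i j
  refine Fin.cases ?_ (fun a => ?_) i <;> refine Fin.cases ?_ (fun b => ?_) j
  · rfl
  · rw [Oh0s, one_apply_ne (Fin.succ_ne_zero b).symm]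
  · rw [Ohs0, one_apply_ne (Fin.succ_ne_zero a)]
  · rw [Ohss, one_apply, one_apply]
    simp only [Fin.succ_inj]

theorem cj00 (O : M3) (F : M4) : ((Oh O)ᵀ * F * Oh O) 0 0 = F 0 0 := by
  simp only [Matrix.mul_apply, transpose_apply, sum4, Oh00, Ohs0, mul_zero, zero_mul, mul_one,
    one_mul, Finset.sum_const_zero, add_zero]

theorem cjss (O : M3) (F : M4) : ((Oh O)ᵀ * F * Oh O).submatrix Fin.succ Fin.succ =
    Oᵀ * F.submatrix Fin.succ Fin.succ * O := by
  ext a b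
  simp only [submatrix_apply, Matrix.mul_apply, transpose_apply, sum4, Oh0s, Ohss, mul_zero,
    zero_mul, zero_add]

variable {n : ℕ}

def rot (O : M3) (J : Fin 3 → Matrix (Fin n) (Fin n) ℝ) (a : Fin 3) : Matrix (Fin n) (Fin n) ℝ :=
  O 0 a • J 0 + O 1 a • J 1 + O 2 a • J 2

theorem rot_quat {O : M3} (h1 : Oᵀ * O = 1) (h2 : O.det = 1)
    {J : Fin 3 → Matrix (Fin n) (Fin n) ℝ} (h : IsQuat J) : IsQuat (rot O J) := by
  have hadj : Oᵀ = adjugate O := by
    rw [← Matrix.mul_one Oᵀ, ← one_smul ℝ (1 : M3), ← h2, ← mul_adjugate, ← Matrix.mul_assoc, h1,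
      Matrix.one_mul]
  have hn : ∀ a b, O 0 a * O 0 b + O 1 a * O 1 b + O 2 a * O 2 b = (1 : M3) a b := fun a b => by
    rw [← h1, Matrix.mul_apply, Fin.sum_univ_three]
    rfl
  refine ⟨fun a => ?_, fun a => ?_, ?_⟩
  · simp only [rot, transpose_add, transpose_smul, h.1]
    module
  · have e := hn a a
    rw [one_apply_eq] at e
    simp only [rot, Matrix.add_mul, Matrix.mul_add, smul_mul_smul_comm, h.2.1, h.2.2, h.m10, h.m02,
      h.m20, h.m12, h.m21]
    match_scalars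
    · linear_combination -e
    · ring
    · ring
    · ring
  · have e := hn 0 1
    rw [one_apply_ne (by decide)] at e
    rw [adjugate_fin_three] at hadj
    have e0 : O 0 2 = O 1 0 * O 2 1 - O 1 1 * O 2 0 := congrFun (congrFun hadj 2) 0
    have e1 : O 1 2 = -(O 0 0 * O 2 1) + O 0 1 * O 2 0 := congrFun (congrFun hadj 2) 1
    have e2 : O 2 2 = O 0 0 * O 1 1 - O 0 1 * O 1 0 := congrFun (congrFun hadj 2) 2
    simp only [rot, Matrix.add_mul, Matrix.mul_add, smul_mul_smul_comm, h.2.1, h.2.2, h.m10, h.m02,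
      h.m20, h.m12, h.m21, e0, e1, e2]
    match_scalars
    · linear_combination -e
    · ring
    · ring
    · ring

theorem Ym_rot (O : M3) (J : Fin 3 → Matrix (Fin n) (Fin n) ℝ) (x : Pt n) :
    Ym (rot O J) x = Ym J x * Oh O := by
  ext i b
  have e1 : (Ym J x * Oh O) i b = (Ym J x *ᵥ fun a => Oh O a b) i := rfl
  rw [e1, Ym_mulVec]
  refine Fin.cases ?_ (fun c => ?_) b
  · have e2 : Ym (rot O J) x i 0 = (J4 (rot O J) 0 *ᵥ x) i := rfl
    have a1 : Oh O 1 0 = 0 := rfl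
    have a2 : Oh O 2 0 = 0 := rfl
    have a3 : Oh O 3 0 = 0 := rfl
    rw [e2, J4_0, Oh00, a1, a2, a3]
    simp
  · have e2 : Ym (rot O J) x i c.succ = (rot O J c *ᵥ x) i := by fin_cases c <;> rfl
    have a1 : Oh O 1 c.succ = O 0 c := rfl
    have a2 : Oh O 2 c.succ = O 1 c := rfl
    have a3 : Oh O 3 c.succ = O 2 c := rfl
    rw [e2, Oh0s, a1, a2, a3, rot, add_mulVec, add_mulVec, smul_mulVec, smul_mulVec, smul_mulVec,
      zero_smul, zero_add]

theorem blk_rot {O : M3} (h : O * Oᵀ = 1) (J : Fin 3 → Matrix (Fin n) (Fin n) ℝ) (x : Pt n)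
    (F : M4) (C : ℝ) : blk (rot O J) x ((Oh O)ᵀ * F * Oh O) C = blk J x F C := by
  have h1 : ∀ Z : Matrix (Fin 4) (Fin n) ℝ, Oh O * ((Oh O)ᵀ * Z) = Z := fun Z => by
    rw [← Matrix.mul_assoc, Oh_T, Oh_mul, h, Oh_one, Matrix.one_mul]
  simp only [blk, Ym_rot, transpose_mul, Matrix.mul_assoc, h1]

theorem smooth_cj (P : M4) {F : ℝ → M4} {t : ℝ}
    (h : ∀ a b, ContDiffAt ℝ ∞ (fun s => F s a b) t) (a b : Fin 4) :
    ContDiffAt ℝ ∞ (fun s => (Pᵀ * F s * P) a b) t := by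
  simp only [Matrix.mul_apply]
  exact ContDiffAt.sum fun _ _ =>
    (ContDiffAt.sum fun _ _ => contDiffAt_const.mul (h _ _)).mul contDiffAt_const

noncomputable def cjD (P : M4) (D : Dat) : Dat where
  F s := Pᵀ * D.F s * P
  K s := Pᵀ * D.K s * P
  C := D.C
  c := D.c
  sF s := by rw [transpose_mul, transpose_mul, transpose_transpose, D.sF, Matrix.mul_assoc]
  sK s := by rw [transpose_mul, transpose_mul, transpose_transpose, D.sK, Matrix.mul_assoc]
  hF t ht := smooth_cj P (D.hF t ht)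
  hK t ht := smooth_cj P (D.hK t ht)
  hC := D.hC
  hc := D.hc

end RotAux

open RotAux in
theorem rot_pf : RotStmt := by
  intro n J D q t hJ
  obtain ⟨O, h1, h2, h3⟩ := diag3 ((D.F t).submatrix Fin.succ Fin.succ)
    (by rw [transpose_submatrix, D.sF])
  have h1' : O * Oᵀ = 1 := mul_eq_one_comm.1 h1
  have k1 : (Oh O)ᵀ * Oh O = 1 := by rw [Oh_T, Oh_mul, h1, Oh_one]
  have k2 : Oh O * (Oh O)ᵀ = 1 := by rw [Oh_T, Oh_mul, h1', Oh_one]
  have k3 : ∀ Z : M4, Oh O * ((Oh O)ᵀ * Z) = Z := fun Z => by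
    rw [← Matrix.mul_assoc, k2, Matrix.one_mul]
  have ki : ∀ F : M4, ((Oh O)ᵀ * F * Oh O)⁻¹ = (Oh O)ᵀ * F⁻¹ * Oh O := fun F => by
    rw [Matrix.mul_inv_rev, Matrix.mul_inv_rev, inv_eq_left_inv k1, inv_eq_left_inv k2,
      Matrix.mul_assoc]
  have km : ∀ A B : M4, (Oh O)ᵀ * A * Oh O * ((Oh O)ᵀ * B * Oh O) = (Oh O)ᵀ * (A * B) * Oh O :=
    fun A B => by simp only [Matrix.mul_assoc, k3]
  have kt : ∀ A : M4, ((Oh O)ᵀ * A * Oh O).trace = A.trace := fun A => by
    rw [trace_mul_cycle, k2, Matrix.one_mul]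
  have e : ∀ i j : Fin 3, i ≠ j → (cjD (Oh O) D).F t i.succ j.succ = 0 := fun i j hij => by
    rw [← h3 i j hij, ← cjss]
    rfl
  refine ⟨rot O J, cjD (Oh O) D, rot_quat h1 h2 hJ, funext fun x => blk_rot h1' J x _ _,
    funext fun x => blk_rot h1' J x _ _, ?_, fun hp => ?_, e 0 1 (by decide), e 0 2 (by decide),
    e 1 2 (by decide)⟩
  · simp only [toSca, cjD, ki, km, kt, cj00, cjss, Sca.mk.injEq, true_and, and_true]
    refine ⟨funext fun s => ?_, funext fun s => ?_⟩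
    · rw [trace_mul_cycle, h1', Matrix.one_mul]
    · rw [det_mul, det_mul, det_transpose, h2, one_mul, mul_one]
  · have := hp.conjTranspose_mul_mul_same (B := Oh O) (by
      intro u v huv
      have := congrArg (fun w => (Oh O)ᵀ *ᵥ w) huv
      simpa only [mulVec_mulVec, k1, one_mulVec] using this)
    rwa [conjTranspose_eq_transpose_of_trivial] at this

end Vale.Agent.P366S
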