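import Vale.Agent.P366S.Defs
import Vale.Agent.P366.Alg

/-! Statements of the pieces of the proof (general `Sp(m+1)` case). -/

namespace Vale.Agent.P366S

open scoped Matrix ContDiff Topology
open Filter Set Matrix
open Vale.Agent.P366 (Pt Ten rad pd chr scal trg nsq mom mu cur curNorm meanCurv trS sph omega cn
  area energyFlux momFlux Decay IsQuat ll Hor)

/-! ### One-variable part -/

/-- Scalar data: inverse lapse squared, trace and determinant of the vertical metric, horizontal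
eigenvalue, `tr_S K`, radial entry. -/
structure Sca where
  p : ℝ → ℝ
  e1 : ℝ → ℝ
  e3 : ℝ → ℝ
  C : ℝ → ℝ
  P : ℝ → ℝ
  f0 : ℝ → ℝ

noncomputable def hh (q : ℝ) (S : Sca) (t : ℝ) : ℝ :=
  3 + t * deriv S.e3 t / S.e3 t + q * ll S.C t

noncomputable def sg (S : Sca) (t : ℝ) : ℝ := √(S.p t / t)

noncomputable def H1 (q : ℝ) (S : Sca) (t : ℝ) : ℝ := hh q S t * sg S t

noncomputable def F1 (q : ℝ) (S : Sca) (t : ℝ) : ℝ :=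
  (q + 3) * S.f0 t - q * S.C t - S.e1 t - 2 * t * (deriv S.e1 t + q * deriv S.C t)

noncomputable def ar1 (n : ℕ) (S : Sca) (t : ℝ) : ℝ :=
  √t ^ (n - 1) * √(S.e3 t * S.C t ^ (n - 4))

noncomputable def w1 (q : ℝ) (S : Sca) (t : ℝ) : ℝ :=
  (S.e1 t / √(S.e3 t)
    + q / 2 * (1 / S.e3 t ^ ((1 : ℝ) / 6) + S.e3 t ^ ((1 : ℝ) / 6) / S.C t)) / √t

noncomputable def mass (n : ℕ) (S : Sca) (t : ℝ) : ℝ :=
  1 / 2 * ar1 n S t ^ (((n : ℝ) - 2) / ((n : ℝ) - 1)) *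
    (1 - (H1 ((n : ℝ) - 4) S t ^ 2 - S.P t ^ 2) / w1 ((n : ℝ) - 4) S t ^ 2)

/-- Scalar curvature of the orbit. -/
noncomputable def RS (q t C : ℝ) (g : Fin 3 → ℝ) : ℝ :=
  (2 * (2 * (g 0 * g 1 + g 0 * g 2 + g 1 * g 2) - g 0 ^ 2 - g 1 ^ 2 - g 2 ^ 2) / (g 0 * g 1 * g 2)
    + q * (q + 8) / C - q * (g 0 + g 1 + g 2) / C ^ 2) / t

def Reg (S : Sca) (t : ℝ) : Prop :=
  0 < S.p t ∧ 0 < S.e1 t ∧ 0 < S.e3 t ∧ 0 < S.C t ∧ ContDiffAt ℝ 2 S.p t ∧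
    ContDiffAt ℝ 2 S.e1 t ∧ ContDiffAt ℝ 2 S.e3 t ∧ ContDiffAt ℝ 2 S.C t ∧ ContDiffAt ℝ 2 S.P t

/-- The two Raychaudhuri-type inequalities given by the dominant energy condition. -/
def Key (q : ℝ) (S : Sca) (t : ℝ) : Prop :=
  ∃ (g g' κ : Fin 3 → ℝ) (k0 kh : ℝ), (∀ a, 0 < g a) ∧ S.e1 t = ∑ a, g a ∧ S.e3 t = ∏ a, g a ∧
    deriv S.e1 t = ∑ a, g' a ∧ deriv S.e3 t = S.e3 t * ∑ a, g' a / g a ∧
    S.P t = ∑ a, κ a + q * kh ∧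
    ∀ ε : ℝ, ε = 1 ∨ ε = -1 →
      2 * t * sg S t * deriv (H1 q S) t + ε * (2 * t * sg S t * deriv S.P t) ≤
        RS q t (S.C t) g / 2 + ε * k0 * (H1 q S t + ε * S.P t) - (H1 q S t ^ 2 - S.P t ^ 2) / 2
          - (∑ a, ((1 + t * g' a / g a) * sg S t + ε * κ a) ^ 2
            + q * (ll S.C t * sg S t + ε * kh) ^ 2) / 2

def Asym (n : ℕ) (S : Sca) : Prop :=
  ∀ T : ℝ → ℝ, T = (fun t : ℝ => t ^ (((n : ℝ) - 2) / 4)) →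
    Tendsto (fun t => T t * (S.p t - 1)) atTop (𝓝 0) ∧
    Tendsto (fun t => T t * T t * ((S.p t)⁻¹ - S.f0 t)) atTop (𝓝 0) ∧
    Tendsto (fun t => T t * (S.e1 t - 3)) atTop (𝓝 0) ∧
    Tendsto (fun t => T t * (S.e3 t - 1)) atTop (𝓝 0) ∧
    Tendsto (fun t => T t * T t * (S.e3 t - 1 - (S.e1 t - 3))) atTop (𝓝 0) ∧
    Tendsto (fun t => T t * (S.C t - 1)) atTop (𝓝 0) ∧
    Tendsto (fun t => T t * (t * deriv S.C t)) atTop (𝓝 0) ∧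
    Tendsto (fun t => T t * (t * deriv S.e1 t)) atTop (𝓝 0) ∧
    Tendsto (fun t => T t * T t * (t * deriv S.e3 t / S.e3 t - t * deriv S.e1 t)) atTop (𝓝 0) ∧
    Tendsto (fun t => T t * (√t * S.P t)) atTop (𝓝 0)

def MonoAbsStmt : Prop :=
  ∀ (m lam kap gam : Fin 4 → ℝ) (d H P w ws Hs Ps k0 R : ℝ), (∀ i, 0 ≤ m i) → d = ∑ i, m i →
    0 < d → H = ∑ i, m i * lam i → P = ∑ i, m i * kap i → w = -∑ i, m i * gam i → 0 < w →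
    ws = ∑ i, m i * gam i * lam i → R ≤ w ^ 2 - ∑ i, m i * gam i ^ 2 →
    Hs + Ps ≤ R / 2 + k0 * (H + P) - (H ^ 2 - P ^ 2) / 2 - (∑ i, m i * (lam i + kap i) ^ 2) / 2 →
    Hs - Ps ≤ R / 2 - k0 * (H - P) - (H ^ 2 - P ^ 2) / 2 - (∑ i, m i * (lam i - kap i) ^ 2) / 2 →
    0 < H + P → 0 < H - P → H ^ 2 - P ^ 2 ≤ w ^ 2 →
    0 ≤ (d - 1) / d * H * (1 - (H ^ 2 - P ^ 2) / w ^ 2) - (2 * H * Hs - 2 * P * Ps) / w ^ 2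
      + 2 * (H ^ 2 - P ^ 2) * ws / w ^ 3

def HJStmt : Prop :=
  ∀ q v0 v1 v2 W G Y : ℝ, 0 ≤ q → 0 < v0 → 0 < v1 → 0 < v2 → 0 < G → 0 < Y →
    v0 * v1 * v2 = G ^ 3 → W = v0 + v1 + v2 →
    2 * W ^ 2 - 4 * (v0 ^ 2 + v1 ^ 2 + v2 ^ 2) + q * (q + 8) * (G * Y) - q * (W * Y ^ 2 / G) ≤
      (W + q / 2 * (G + Y)) ^ 2 - ((2 * v0 - W + q / 6 * (Y - G)) ^ 2
        + (2 * v1 - W + q / 6 * (Y - G)) ^ 2 + (2 * v2 - W + q / 6 * (Y - G)) ^ 2 + q * Y ^ 2)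

def MonoStmt : Prop :=
  ∀ (n : ℕ) (S : Sca) (t : ℝ), 4 < n → 0 < t → Reg S t → Key ((n : ℝ) - 4) S t →
    0 < H1 ((n : ℝ) - 4) S t + S.P t → 0 < H1 ((n : ℝ) - 4) S t - S.P t →
    0 ≤ mass n S t → DifferentiableAt ℝ (mass n S) t ∧ 0 ≤ deriv (mass n S) t

def LimStmt : Prop :=
  ∀ (n : ℕ) (S : Sca) (E : ℝ), 4 < n → Asym n S →
    Tendsto (fun t : ℝ => √t ^ (n - 2) * F1 ((n : ℝ) - 4) S t / (2 * ((n : ℝ) - 1))) atTop (𝓝 E) →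
    Tendsto (mass n S) atTop (𝓝 E)

def EvPosStmt : Prop :=
  ∀ (n : ℕ) (S : Sca), 4 < n → Asym n S →
    ∀ᶠ t in atTop, 0 < H1 ((n : ℝ) - 4) S t + S.P t ∧ 0 < H1 ((n : ℝ) - 4) S t - S.P t

def OdeStmt : Prop :=
  ∀ (n : ℕ) (S : Sca) (t0 E : ℝ), 4 < n → 0 < t0 → (∀ t, t0 ≤ t → Reg S t) →
    (∀ t, t0 < t → Key ((n : ℝ) - 4) S t) → H1 ((n : ℝ) - 4) S t0 + S.P t0 ≤ 0 → Asym n S →
    Tendsto (fun t : ℝ => √t ^ (n - 2) * F1 ((n : ℝ) - 4) S t / (2 * ((n : ℝ) - 1))) atTop (𝓝 E) →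
    ∃ t, t0 ≤ t ∧ 1 / 2 * ar1 n S t ^ (((n : ℝ) - 2) / ((n : ℝ) - 1)) ≤ E

/-! ### Matrix data -/

abbrev M4 := Matrix (Fin 4) (Fin 4) ℝ

structure Dat where
  F : ℝ → M4
  K : ℝ → M4
  C : ℝ → ℝ
  c : ℝ → ℝ
  sF : ∀ t, (F t)ᵀ = F t
  sK : ∀ t, (K t)ᵀ = K t
  hF : ∀ t, 0 < t → ∀ a b, ContDiffAt ℝ ∞ (fun s => F s a b) t
  hK : ∀ t, 0 < t → ∀ a b, ContDiffAt ℝ ∞ (fun s => K s a b) t
  hC : ∀ t, 0 < t → ContDiffAt ℝ ∞ C t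
  hc : ∀ t, 0 < t → ContDiffAt ℝ ∞ c t

/-- Entrywise derivative. -/
noncomputable def md (F : ℝ → M4) (t : ℝ) : M4 := Matrix.of fun a b => deriv (fun s => F s a b) t

noncomputable def toSca (q : ℝ) (D : Dat) : Sca where
  p t := (D.F t)⁻¹ 0 0
  e1 t := ((D.F t).submatrix Fin.succ Fin.succ).trace
  e3 t := ((D.F t).submatrix Fin.succ Fin.succ).det
  C := D.C
  P t := ((D.F t)⁻¹ * D.K t).trace - ((D.F t)⁻¹ * D.K t * (D.F t)⁻¹) 0 0 / (D.F t)⁻¹ 0 0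
    + q * (D.c t / D.C t)
  f0 t := D.F t 0 0

def MatAsym (n : ℕ) (D : Dat) : Prop :=
  ∀ T : ℝ → ℝ, T = (fun t : ℝ => t ^ (((n : ℝ) - 2) / 4)) →
    (∀ a b, Tendsto (fun t => T t * (D.F t a b - (1 : M4) a b)) atTop (𝓝 0)) ∧
    (∀ a b, Tendsto (fun t => T t * (t * md D.F t a b)) atTop (𝓝 0)) ∧
    (∀ a b, Tendsto (fun t => T t * (√t * D.K t a b)) atTop (𝓝 0)) ∧
    Tendsto (fun t => T t * (D.C t - 1)) atTop (𝓝 0) ∧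
    Tendsto (fun t => T t * (t * deriv D.C t)) atTop (𝓝 0) ∧
    Tendsto (fun t => T t * (√t * D.c t)) atTop (𝓝 0)

def M2SStmt : Prop := ∀ (n : ℕ) (D : Dat), 4 < n → MatAsym n D → Asym n (toSca ((n : ℝ) - 4) D)

def RegStmt : Prop :=
  ∀ (q : ℝ) (D : Dat) (t : ℝ), 0 < t → (D.F t).PosDef → 0 < D.C t → Reg (toSca q D) t

/-- Derivatives of the inverse and of the determinant; the cofactor identity. -/
def JacStmt : Prop :=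
  (∀ F : M4, F.det ≠ 0 → F.det * F⁻¹ 0 0 = (F.submatrix Fin.succ Fin.succ).det) ∧
  ∀ (F : ℝ → M4) (t : ℝ), (∀ a b, ContDiffAt ℝ ∞ (fun s => F s a b) t) → (F t).det ≠ 0 →
    (∀ a b, ContDiffAt ℝ ∞ (fun s => (F s)⁻¹ a b) t) ∧
    (∀ a b, ContDiffAt ℝ ∞ (fun s => md F s a b) t) ∧
    (∀ a b, HasDerivAt (fun s => (F s)⁻¹ a b) (-((F t)⁻¹ * md F t * (F t)⁻¹) a b) t) ∧
    HasDerivAt (fun s => (F s).det) ((F t).det * ((F t)⁻¹ * md F t).trace) t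

/-! ### `4 × 4` algebra -/

def e0 : Fin 4 → ℝ := Pi.single 0 1

/-- Left multiplication by the quaternion `p`. -/
def Lq (p : Fin 4 → ℝ) : M4 :=
  !![p 0, -p 1, -p 2, -p 3; p 1, p 0, -p 3, p 2; p 2, p 3, p 0, -p 1; p 3, -p 2, p 1, p 0]

/-- Right multiplication by the quaternion `p`. -/
def Rq (p : Fin 4 → ℝ) : M4 :=
  !![p 0, -p 1, -p 2, -p 3; p 1, p 0, p 3, -p 2; p 2, -p 3, p 0, p 1; p 3, p 2, -p 1, p 0]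

noncomputable def ph (t : ℝ) (F : M4) (C : ℝ) : M4 := t⁻¹ • (F - C • (1 : M4))

noncomputable def Th (t : ℝ) (F F' : M4) (C : ℝ) (p : Fin 4 → ℝ) : M4 :=
  p 0 • (F' - ph t F C) + vecMulVec ((F' - ph t F C) *ᵥ p) e0
    - vecMulVec e0 ((F' - ph t F C) *ᵥ p) + vecMulVec (ph t F C *ᵥ e0) p
    + (Rq p - vecMulVec p e0) * ph t F C
    + (Lq (ph t F C *ᵥ p) - (ph t F C *ᵥ p) 0 • (1 : M4))

noncomputable def pv (t : ℝ) (F G : M4) (C C' : ℝ) : Fin 4 → ℝ :=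
  G *ᵥ (ph t F C *ᵥ e0 - C' • e0)

noncomputable def Vh (q t : ℝ) (F G F' : M4) (C C' : ℝ) : Fin 4 → ℝ :=
  G *ᵥ (∑ c, ∑ d, G c d • (Th t F F' C (Pi.single c 1) *ᵥ Pi.single d 1))
    + (q / C) • pv t F G C C'

noncomputable def ww (q : ℝ) (G F' : M4) (C C' : ℝ) : ℝ := (G * F').trace + q * C' / C

noncomputable def v0 (q t : ℝ) (G F' : M4) (C C' : ℝ) : ℝ :=
  2 * t * (G * F' * G) 0 0 - (q + 4) * G 0 0 - t * ww q G F' C C' * G 0 0 + G.trace + q / C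

noncomputable def QQ (q t : ℝ) (F G F' : M4) (C C' : ℝ) : ℝ :=
  2 * q * t * pv t F G C C' 0 * C' / C ^ 2
    + t * ∑ c, ∑ d, G c d *
        (G * Th t F F' C (Pi.single d 1) * (G * Th t F F' C (Pi.single c 1))).trace
    + q * t / C ^ 2 * (G 0 0 * C' ^ 2
        - ((ph t F C * G * ph t F C).trace - (ph t F C * G * ph t F C) 0 0))

noncomputable def hA (q t : ℝ) (G F' : M4) (C C' : ℝ) : ℝ :=
  q + 3 + t * ww q G F' C C' - t * (G * F' * G) 0 0 / G 0 0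

noncomputable def FF (q t : ℝ) (F G F' : M4) (C C' : ℝ) : ℝ :=
  2 * (G * F' * G) 0 0 + 2 * hA q t G F' C C' * (G * F' * G) 0 0 - 2 * (G * F' * G).trace
    - 2 * q * C' / C ^ 2 - 2 * t * (G * F' * G) 0 0 ^ 2 / G 0 0 + 2 * ww q G F' C C' * G 0 0
    + (q + 2) * v0 q t G F' C C' / t - ww q G F' C C' * (G.trace + q / C)
    + ww q G F' C C' * v0 q t G F' C C' + QQ q t F G F' C C'

noncomputable def TT (q : ℝ) (G K : M4) (C c : ℝ) : ℝ := (G * K).trace + q * (c / C)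

noncomputable def k01 (G F' K K' : M4) : ℝ :=
  (-2 * (G * F' * G * K * G) 0 0 + (G * K' * G) 0 0) / G 0 0
    + (G * K * G) 0 0 * (G * F' * G) 0 0 / G 0 0 ^ 2

/-- Contracted derivative `G^{ik} ∂_i h (e_k, Y s)` of `hopf`, for `G = blk Γ γ`. -/
noncomputable def DD (q t : ℝ) (Γ : M4) (γ : ℝ) (F F' : M4) (C : ℝ) (s : Fin 4 → ℝ) : ℝ :=
  q * t * (ph t F C *ᵥ s) 0 * γ + t * (2 * (Γ *ᵥ ((F' - ph t F C) *ᵥ s)) 0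
    + (ph t F C *ᵥ s) 0 * Γ.trace
    + ∑ c, ∑ d, Γ c d * (s ⬝ᵥ (Lq (ph t F C *ᵥ Pi.single d 1) *ᵥ Pi.single c 1)))

noncomputable def JJ (q t : ℝ) (F G F' K K' : M4) (C C' c : ℝ) : ℝ :=
  DD q t G C⁻¹ (K - TT q G K C c • F) (K' - k01 G F' K K' • F - TT q G K C c • F')
      (c - TT q G K C c * C) (G *ᵥ e0)
    - t * (Vh q t F G F' C C' ⬝ᵥ ((K - TT q G K C c • F) *ᵥ (G *ᵥ e0)))
    - t * (G * (K - TT q G K C c • F) * G * Th t F F' C (G *ᵥ e0)).trace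
    - q * t * (c - TT q G K C c * C) * G 0 0 * C' / C ^ 2

/-- Lapse-shift form with diagonal vertical metric. -/
noncomputable def FD (N : ℝ) (b g : Fin 3 → ℝ) : M4 :=
  !![N + g 0 * b 0 ^ 2 + g 1 * b 1 ^ 2 + g 2 * b 2 ^ 2, g 0 * b 0, g 1 * b 1, g 2 * b 2;
    g 0 * b 0, g 0, 0, 0; g 1 * b 1, 0, g 1, 0; g 2 * b 2, 0, 0, g 2]

noncomputable def GD (N : ℝ) (b g : Fin 3 → ℝ) : M4 :=
  !![1 / N, -b 0 / N, -b 1 / N, -b 2 / N;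
    -b 0 / N, 1 / g 0 + b 0 * b 0 / N, b 0 * b 1 / N, b 0 * b 2 / N;
    -b 1 / N, b 1 * b 0 / N, 1 / g 1 + b 1 * b 1 / N, b 1 * b 2 / N;
    -b 2 / N, b 2 * b 0 / N, b 2 * b 1 / N, 1 / g 2 + b 2 * b 2 / N]

/-- The (rescaled) vertical block of the second fundamental form. -/
noncomputable def AA (t : ℝ) (b g : Fin 3 → ℝ) (F' : M4) : Matrix (Fin 3) (Fin 3) ℝ :=
  !![g 0 + t * F' 1 1, t * F' 1 2 + b 2 * (g 0 - g 1), t * F' 1 3 - b 1 * (g 0 - g 2);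
    t * F' 1 2 + b 2 * (g 0 - g 1), g 1 + t * F' 2 2, t * F' 2 3 + b 0 * (g 1 - g 2);
    t * F' 1 3 - b 1 * (g 0 - g 2), t * F' 2 3 + b 0 * (g 1 - g 2), g 2 + t * F' 3 3]

def V0Stmt : Prop :=
  ∀ (q t : ℝ) (F G F' : M4) (C C' : ℝ), t ≠ 0 → C ≠ 0 → Fᵀ = F → Gᵀ = G → F'ᵀ = F' →
    G * F = 1 → t * Vh q t F G F' C C' 0 = v0 q t G F' C C' ∧
      ∀ p, (G * Th t F F' C p).trace = p 0 * (G * F').trace

def AlgRStmt : Prop :=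
  ∀ (q t N : ℝ) (b g : Fin 3 → ℝ) (F' : M4) (C C' : ℝ), t ≠ 0 → N ≠ 0 → (∀ a, g a ≠ 0) → C ≠ 0 →
    F'ᵀ = F' →
    FF q t (FD N b g) (GD N b g) F' C C' =
      RS q t C g + 2 * hA q t (GD N b g) F' C C' * (GD N b g * F' * GD N b g) 0 0
        + 2 * hA q t (GD N b g) F' C C' / (t * N) - hA q t (GD N b g) F' C C' ^ 2 / (t * N)
        - (∑ i, ∑ j, AA t b g F' i j ^ 2 / (g i * g j) + q * (1 + t * C' / C) ^ 2) / (t * N)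

def AlgJStmt : Prop :=
  ∀ (q t N : ℝ) (b g : Fin 3 → ℝ) (F' K K' : M4) (C C' c : ℝ), t ≠ 0 → N ≠ 0 → (∀ a, g a ≠ 0) →
    C ≠ 0 → F'ᵀ = F' → Kᵀ = K → K'ᵀ = K' →
    JJ q t (FD N b g) (GD N b g) F' K K' C C' c =
      (hA q t (GD N b g) F' C C' * ((GD N b g * K * GD N b g) 0 0 * N)
        - ∑ i, ∑ j, AA t b g F' i j * K i.succ j.succ / (g i * g j)
        - q * (1 + t * C' / C) * (c / C)) / N

def AlgKStmt : Prop :=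
  ∀ (q t N : ℝ) (b g : Fin 3 → ℝ) (F' K : M4) (C C' : ℝ), N ≠ 0 → (∀ a, g a ≠ 0) →
    F'ᵀ = F' → Kᵀ = K →
    GD N b g * FD N b g = 1 ∧
    hA q t (GD N b g) F' C C' = ∑ a, AA t b g F' a a / g a + q * (1 + t * C' / C) ∧
    (GD N b g * F').trace - (GD N b g * F' * GD N b g) 0 0 * N = ∑ a, F' a.succ a.succ / g a ∧
    (GD N b g * K).trace - (GD N b g * K * GD N b g) 0 0 * N = ∑ a, K a.succ a.succ / g a ∧
    (GD N b g * K * (GD N b g * K)).trace = ((GD N b g * K * GD N b g) 0 0 * N) ^ 2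
      + 2 * N * ∑ a, (K *ᵥ (GD N b g *ᵥ e0)) a.succ ^ 2 / g a
      + ∑ i, ∑ j, K i.succ j.succ ^ 2 / (g i * g j)

/-! ### The ansatz on `ℝ^n` -/

variable {n : ℕ}

def J4 (J : Fin 3 → Matrix (Fin n) (Fin n) ℝ) : Fin 4 → Matrix (Fin n) (Fin n) ℝ :=
  ![1, J 0, J 1, J 2]

/-- The frame `x, I x, J x, K x` as columns. -/
def Ym (J : Fin 3 → Matrix (Fin n) (Fin n) ℝ) (x : Pt n) : Matrix (Fin n) (Fin 4) ℝ :=
  Matrix.of fun i a => (J4 J a *ᵥ x) i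

/-- Multiplication by the imaginary part of `p`. -/
def Jo (J : Fin 3 → Matrix (Fin n) (Fin n) ℝ) (p : Fin 4 → ℝ) : Matrix (Fin n) (Fin n) ℝ :=
  p 1 • J 0 + p 2 • J 1 + p 3 • J 2

noncomputable def blk (J : Fin 3 → Matrix (Fin n) (Fin n) ℝ) (x : Pt n) (F : M4) (C : ℝ) :
    Matrix (Fin n) (Fin n) ℝ :=
  (x ⬝ᵥ x)⁻¹ • (Ym J x * F * (Ym J x)ᵀ) + C • (1 - (x ⬝ᵥ x)⁻¹ • (Ym J x * (Ym J x)ᵀ))

noncomputable def hopf (J : Fin 3 → Matrix (Fin n) (Fin n) ℝ) (F : ℝ → M4) (C : ℝ → ℝ) : Ten n :=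
  fun x => blk J x (F (x ⬝ᵥ x)) (C (x ⬝ᵥ x))

noncomputable def Dm (J : Fin 3 → Matrix (Fin n) (Fin n) ℝ) (x : Pt n) (F F' : M4) (C C' : ℝ)
    (u : Pt n) : Matrix (Fin n) (Fin n) ℝ :=
  (2 * (x ⬝ᵥ u)) • blk J x (F' - ph (x ⬝ᵥ x) F C) C'
    + Ym J u * ph (x ⬝ᵥ x) F C * (Ym J x)ᵀ + Ym J x * ph (x ⬝ᵥ x) F C * (Ym J u)ᵀ

noncomputable def Tm (J : Fin 3 → Matrix (Fin n) (Fin n) ℝ) (x : Pt n) (F F' : M4) (C C' : ℝ)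
    (u : Pt n) : Matrix (Fin n) (Fin n) ℝ :=
  (x ⬝ᵥ u) • blk J x (F' - ph (x ⬝ᵥ x) F C) C'
    + vecMulVec (blk J x (F' - ph (x ⬝ᵥ x) F C) C' *ᵥ u) x
    - vecMulVec x (blk J x (F' - ph (x ⬝ᵥ x) F C) C' *ᵥ u)
    + vecMulVec (Ym J x *ᵥ (ph (x ⬝ᵥ x) F C *ᵥ e0)) u
    + (Ym J u - vecMulVec u e0) * ph (x ⬝ᵥ x) F C * (Ym J x)ᵀ
    + Jo J (ph (x ⬝ᵥ x) F C *ᵥ ((Ym J x)ᵀ *ᵥ u))

noncomputable def Gam (J : Fin 3 → Matrix (Fin n) (Fin n) ℝ) (x : Pt n) (F G F' : M4) (C C' : ℝ)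
    (u : Pt n) : Matrix (Fin n) (Fin n) ℝ :=
  blk J x G C⁻¹ * Tm J x F F' C C' u

end Vale.Agent.P366S
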